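import Vale.Agent.P193.Full.Core.Inst.Frame
import Vale.Agent.P193.Full.Calc.BaseField
import Vale.Agent.P193.Full.Core.CovFinite

/-! The predicates and fields of the core instance.

A predicate is an atom: a base set (state, tag and one elementary predicate) moved by an inner
translation, an outer translation and a path of edges, or the same with a pushed atom in place of
the base set. Every translation is carried by a diagonal permutation (`tr`), and the field of an
atom is the base field conjugated by the product of these permutations. -/

namespace Vale.Agent.P193.Core.Inst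

open Calc Facts

open Classical

variable {d : Data} [DecidableEq d.M.A]

/-- The elementary predicates. -/
inductive Pred (d : Data) where
  | full
  | hOne
  | zOne
  | zFront (s : Ltr d × Bool)
  | clean
  | gOne
  | kSet
  | gHOne

/-- Their sets. -/
def Pred.set : Pred d → Set (Point d)
  | .full => Set.univ
  | .hOne => hOneS
  | .zOne => zOneS
  | .zFront s => zFrontS s
  | .clean => cleanS
  | .gOne => gOneS
  | .kSet => kOneS
  | .gHOne => gOneS ∩ hOneS

/-- A state, a tag and an elementary predicate. -/
structure Base (d : Data) where
  s : State d
  b : Bool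
  p : Pred d

/-- The points of a tag. -/
def tagIs (b : Bool) : Set (Point d) := {x | x.tag = b}

/-- The set of a base. -/
def Base.set (B : Base d) : Set (Point d) := atS B.s ∩ tagIs B.b ∩ B.p.set

/-- The five pushes. -/
inductive Push where
  | theta
  | omC
  | omD
  | omK
  | tMap
  deriving DecidableEq

/-- Their graphs. -/
def Push.graph : Push → Set (Point d × Point d)
  | .theta => thetaG
  | .omC => omCG
  | .omD => omDG
  | .omK => omKG
  | .tMap => tG

/-- The tag of the result of a push. -/
def Push.tag : Push → Bool
  | .omC => true
  | .tMap => true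
  | _ => false

/-- An edge of the graph. -/
abbrev OEdge (d : Data) := {e : Edge d // e.OK}

/-- Atoms: a path of edges, an outer and an inner translation, and a base or a pushed atom. -/
inductive Atom (d : Data) where
  | base (π : List (OEdge d)) (k : Outer d) (m : Inner d) (B : Base d)
  | push (π : List (OEdge d)) (k : Outer d) (m : Inner d) (p : Push) (A : Atom d)

/-- The first state of a path that ends at `c`. -/
def top : List (OEdge d) → State d → State d
  | [], c => c
  | e :: _, _ => e.1.src

/-- The edges compose and end at `c`. -/
def Chain : List (OEdge d) → State d → Prop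
  | [], _ => True
  | e :: l, c => e.1.tgt = top l c ∧ Chain l c

/-- The image of a set along a path of edges. -/
def pathImg (π : List (OEdge d)) (X : Set (Point d)) : Set (Point d) :=
  π.foldr (fun e Y => gimg (edgeG e.1 e.2) Y) X

namespace Atom

/-- The state of an atom. -/
def st : Atom d → State d
  | .base π _ _ B => top π B.s
  | .push π _ _ _ _ => top π .fin

/-- The tag of an atom. -/
def tag : Atom d → Bool
  | .base _ _ _ B => B.b
  | .push _ _ _ p _ => p.tag

/-- The innermost base of an atom. -/
def bot : Atom d → Base d
  | .base _ _ _ B => B
  | .push _ _ _ _ A => A.bot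

/-- The atom lies over the final state with trivial outer coordinate. -/
def AtOne : Atom d → Prop
  | .base π k _ B => π = [] ∧ k = 1 ∧ B.s = .fin ∧ (B.p = .hOne ∨ B.p = .gHOne)
  | .push π k _ _ _ => π = [] ∧ k = 1

/-- The push may be applied to the atom. -/
def Dom : Push → Atom d → Prop
  | .theta, _ => True
  | .omC, A => A.tag = true
  | .omD, A => A.tag = false
  | .omK, A => A.tag = false ∧ A.st = .guess
  | .tMap, A => A.tag = false ∧ A.AtOne

/-- Well formed atoms. -/
def Ok : Atom d → Prop
  | .base π _ _ B => Chain π B.s
  | .push π _ _ p A => Chain π .fin ∧ A.Ok ∧ Dom p A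

/-- The set of an atom. -/
def set : Atom d → Set (Point d)
  | .base π k m B => pathImg π (gimg (hT k) (gimg (gT m) B.set))
  | .push π k m p A => pathImg π (gimg (hT k) (gimg (gT m) (gimg p.graph A.set)))

end Atom

/-- The index of the predicates. -/
abbrev Kappa (d : Data) [DecidableEq d.M.A] := {A : Atom d // A.Ok}

/-- The set of a predicate. -/
def kset (A : Kappa d) : Set (Point d) := A.1.set

variable (F : Calc.Frame (Point d))

/-- A diagonal word that moves the points of `D` along the graph `γ`. -/
def IsTr (γ : Set (Point d × Point d)) (D : Set (Point d)) (x : F.Free) : Prop :=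
  ∃ τ : Equiv.Perm (Point d), (∀ (f : Cn) (s : Point d), F.eval x (f, s) = (f, τ s)) ∧
    ∀ s ∈ D, ∀ t, (s, t) ∈ γ → τ s = t

/-- A chosen such word. -/
noncomputable def tr (γ : Set (Point d × Point d)) (D : Set (Point d)) : F.Free :=
  if h : ∃ x, IsTr F γ D x then h.choose else 1

/-- The word of an inner translation: products of inverted generator words. -/
noncomputable def inHom : FreeGroup (Fin d.n) →* F.Free :=
  FreeGroup.lift fun i => (tr F (gT (d.gen i)) Set.univ)⁻¹

/-- The word of a right translation of the inner coordinate. -/
noncomputable def inWord (m : Inner d) : F.Free :=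
  if h : ∃ w : List (Fin d.n), (w.map d.gen).prod = m⁻¹ then
    inHom F (h.choose.map FreeGroup.of).prod
  else 1

/-- Inverted generator words of the first outer factor. -/
noncomputable def outHom₀ : FreeGroup {x // x ∈ d.subGens} →* F.Free :=
  FreeGroup.lift fun x => (tr F (hT ((x.1, 1, 1) : Outer d)) Set.univ)⁻¹

/-- Inverted generator words of the second outer factor. -/
noncomputable def outHom₁ : FA d →* F.Free :=
  FreeGroup.lift fun a => (tr F (hT ((1, FreeGroup.of a, 1) : Outer d)) Set.univ)⁻¹

/-- Inverted generator words of the third outer factor. -/
noncomputable def outHom₂ : FA d →* F.Free :=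
  FreeGroup.lift fun a => (tr F (hT ((1, 1, FreeGroup.of a) : Outer d)) Set.univ)⁻¹

/-- The word of a right translation of the outer coordinate. -/
noncomputable def outWord (k : Outer d) : F.Free :=
  (if h : ∃ w : FreeGroup {x // x ∈ d.subGens}, FreeGroup.lift Subtype.val w = k.1⁻¹ then
      outHom₀ F h.choose
    else 1) * outHom₁ F k.2.1⁻¹ * outHom₂ F k.2.2⁻¹

/-- The word of a path of edges. -/
noncomputable def pathWord (π : List (OEdge d)) : F.Free :=
  (π.map fun e => tr F (edgeG e.1 e.2) (atS e.1.tgt)).prod

/-- The translating word of an atom. -/
noncomputable def Atom.word : Atom d → F.Free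
  | .base π k m _ => pathWord F π * outWord F k * inWord F m
  | .push π k m p A =>
    pathWord F π * outWord F k * inWord F m * tr F p.graph (atS A.st) * A.word

/-- A word for the restriction of a generator to a set. -/
noncomputable def setWord (e : Set (Point d)) (j : Fin F.m) : F.Free :=
  if h : ∃ x, F.eval x = restr e (F.vgen j) then h.choose else 1

variable {F}

/-- The full field of a model. -/
noncomputable def phi (M : F.Model) : Vgrp (Point d) →* M.P :=
  if h : ∃ φ : Vgrp (Point d) →* M.P, Frame.IsPhi M φ then h.choose else 1

/-- The field of a set that has words. -/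
noncomputable def setFld (M : F.Model) (e : Set (Point d)) : Vgrp (Point d) →* M.P :=
  if h : ∃ Ψ : Vgrp (Point d) →* M.P, ∀ j, Ψ (F.vgen j) = M.f (setWord F e j) then h.choose else 1

/-- Conjugation of a field by an element. -/
def cj {W K : Type*} [Group W] [Group K] (x : K) (h : W →* K) : W →* K :=
  (MulAut.conj x).toMonoidHom.comp h

@[simp] theorem cj_apply {W K : Type*} [Group W] [Group K] (x : K) (h : W →* K) (v : W) :
    cj x h v = x * h v * x⁻¹ := rfl

/-- The field of a base. -/
noncomputable def bfld (M : F.Model) (B : Base d) : Vgrp (Point d) →* M.P := setFld M B.set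

/-- The field of an atom. -/
noncomputable def Atom.fld (M : F.Model) (A : Atom d) : Vgrp (Point d) →* M.P :=
  cj (M.f (A.word F)) (bfld M A.bot)

/-- The field of a predicate. -/
noncomputable def kfld (M : F.Model) (A : Kappa d) : Vgrp (Point d) →* M.P := A.1.fld M

end Vale.Agent.P193.Core.Inst
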