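import Vale.Agent.P193.Full.Calc.Order
import Vale.Agent.P193.Full.Calc.Far
import Vale.Agent.P193.Full.Calc.Close

/-! Transport of fields by diagonal words.

A good field is below the full one, its part in the first half commutes with everything in the
second half, and its part in the second half lies there. Good fields commute on far apart
arguments and stay good under diagonal words; two diagonal words that agree on a set act in the
same way on every good field below that set. -/

open Classical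

namespace Vale.Agent.P193

/-- A permutation supported in a cone is a permutation acting below the prefix. -/
theorem exists_lp_of_supp {X : Type} {H : Halving X} {M : Coeff H} {p : List Bool}
    {σ : Equiv.Perm X} (hσ : σ ∈ swapGroup M) (hp : ∀ y, (¬ ∃ x, y = H.pre p x) → σ y = y) :
    ∃ σ' ∈ swapGroup M, lp H p σ' = σ := by
  have hto : ∀ x, ∃ y, σ (H.pre p x) = H.pre p y := by
    intro x
    by_contra h
    have h' : ¬ ∃ y, σ (H.pre p x) = H.pre p y := h
    have := σ.injective (hp _ h')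
    exact h' ⟨x, this⟩
  choose f hf using hto
  have hb : Function.Bijective f := by
    refine ⟨fun a b hab => pre_injective p (σ.injective (by rw [hf, hf, hab])), fun y => ?_⟩
    by_cases hc : ∃ x, σ.symm (H.pre p y) = H.pre p x
    · obtain ⟨x, hx⟩ := hc
      exact ⟨x, pre_injective p (by rw [← hf, ← hx, σ.apply_symm_apply])⟩
    · have := hp _ (fun ⟨x, hx⟩ => hc ⟨x, hx⟩)
      rw [σ.apply_symm_apply] at this
      exact absurd ⟨y, this.symm⟩ hc
  refine ⟨Equiv.ofBijective f hb, ?_, Equiv.ext fun z => ?_⟩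
  · rw [mem_swapGroup_iff]
    have h1 := reg_gcomp (reg_gcomp (reg_piece (v := []) (w := p) M.one_mem)
      (mem_swapGroup_iff.1 hσ)) (reg_piece (v := p) (w := []) M.one_mem)
    convert h1 using 1
    ext ⟨x, y⟩
    constructor
    · intro h
      have h' : f x = y := h
      exact ⟨H.pre p y, ⟨H.pre p x, piece_mem (v := []) (w := p) ⟨rfl, trivial⟩,
        show σ (H.pre p x) = H.pre p y by rw [hf, h']⟩, piece_mem (v := p) (w := []) ⟨rfl, trivial⟩⟩
    · rintro ⟨b, ⟨a, h2, h3⟩, h4⟩
      obtain ⟨a', b', h5, e⟩ := mem_piece.1 h2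
      obtain ⟨c', d', h6, e'⟩ := mem_piece.1 h4
      obtain rfl : a' = b' := h5.1
      obtain rfl : c' = d' := h6.1
      simp only [Prod.mk.injEq] at e e'
      obtain ⟨rfl, rfl⟩ := e
      obtain ⟨rfl, rfl⟩ := e'
      exact pre_injective p (show H.pre p (f x) = H.pre p y from (hf x).symm.trans h3)
  · by_cases hz : ∃ x, z = H.pre p x
    · obtain ⟨x, rfl⟩ := hz
      rw [lp_pre, hf]
      rfl
    · rw [lp_out p _ hz, hp z hz]

end Vale.Agent.P193

namespace Vale.Agent.P193.Calc

variable {S : Type}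

/-- Acting below a prefix, on the trivial-coefficient group. -/
noncomputable def lpV (p : List Bool) : Vgrp S →* Vgrp S :=
  ((lp (hv S) p).comp (Subgroup.subtype _)).codRestrict _ fun v => mem_swapGroup_iff.2
    (reg_graph_lp (M := coeffOf (S := S) ∅) (mem_swapGroup_iff.1 v.2) p)

theorem lpV_coe (p : List Bool) (v : Vgrp S) :
    (lpV p v : Equiv.Perm (Sp S)) = lp (hv S) p v.1 := rfl

theorem InCone.exists_lpV {p : List Bool} {v : Vgrp S} (h : InCone p v) : ∃ v', lpV p v' = v := by
  obtain ⟨σ, hσ, e⟩ := exists_lp_of_supp v.2 h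
  exact ⟨⟨σ, hσ⟩, Subtype.ext e⟩

theorem InCone.mono {u w : List Bool} {v : Vgrp S} (h : InCone u v) (hu : w <+: u) :
    InCone w v := by
  intro y hy
  refine h y fun ⟨x, hx⟩ => ?_
  obtain ⟨r, rfl⟩ := hu
  exact hy ⟨(hv S).pre r x, by rw [hx, pre_append]⟩

theorem inCone_lpV (p : List Bool) (v : Vgrp S) : InCone p (lpV p v) := fun _ hy => lp_out p _ hy

theorem halvesApart : Apart [false] [true] := apart_heads (by decide) [] []

theorem restr_lpV (e : Set S) (p : List Bool) (v : Vgrp S) :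
    restr e (lpV p v) = lp (hv S) p (restr e v) := by
  ext1 x
  by_cases hx : ∃ y, x = (hv S).pre p y
  · obtain ⟨y, rfl⟩ := hx
    rw [lp_pre, restr_apply, restr_apply, hv_pre_snd, lpV_coe, lp_pre]
    split_ifs <;> rfl
  · rw [lp_out p _ hx, restr_apply, lpV_coe, lp_out p _ hx, ite_self]

theorem lp_disjoint {p q : List Bool} (h : Apart p q) (σ π : Equiv.Perm (Sp S)) :
    Equiv.Perm.Disjoint (lp (hv S) p σ) (lp (hv S) q π) := by
  intro x
  by_cases hx : ∃ y, x = (hv S).pre p y
  · obtain ⟨y, rfl⟩ := hx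
    exact Or.inr (lp_out q π fun ⟨_, e⟩ => h.incomp _ _ e)
  · exact Or.inl (lp_out p σ hx)

namespace Frame

variable (F : Frame S)

/-- A word whose permutation is the diagonal of `τ`. -/
def IsDiag (x : F.Free) (τ : Equiv.Perm S) : Prop :=
  ∀ (f : Cn) (s : S), F.eval x (f, s) = (f, τ s)

variable {F}

theorem isDiag_one : F.IsDiag 1 1 := fun _ _ => by simp

theorem IsDiag.mul {x y : F.Free} {τ υ : Equiv.Perm S} (hx : F.IsDiag x τ) (hy : F.IsDiag y υ) :
    F.IsDiag (x * y) (τ * υ) := fun f s => by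
  rw [map_mul, Equiv.Perm.mul_apply, hy, hx]; rfl

theorem IsDiag.inv {x : F.Free} {τ : Equiv.Perm S} (hx : F.IsDiag x τ) :
    F.IsDiag x⁻¹ τ⁻¹ := fun f s => by
  rw [map_inv, Equiv.Perm.inv_eq_iff_eq, hx]
  simp

theorem IsDiag.pre {x : F.Free} {τ : Equiv.Perm S} (hx : F.IsDiag x τ) (p : List Bool)
    (z : Sp S) : F.eval x ((hv S).pre p z) = (hv S).pre p (F.eval x z) := by
  obtain ⟨f, s⟩ := z
  rw [hv_pre, hx, hx, hv_pre]

theorem IsDiag.lp_conj {x : F.Free} {τ : Equiv.Perm S} (hx : F.IsDiag x τ) (p : List Bool)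
    (σ : Equiv.Perm (Sp S)) :
    F.eval x * lp (hv S) p σ * (F.eval x)⁻¹ = lp (hv S) p (F.eval x * σ * (F.eval x)⁻¹) := by
  ext1 z
  obtain ⟨z', rfl⟩ := (F.eval x).surjective z
  rw [Equiv.Perm.mul_apply, Equiv.Perm.mul_apply, Equiv.Perm.inv_eq_iff_eq.2 rfl]
  by_cases hz : ∃ y, z' = (hv S).pre p y
  · obtain ⟨y, rfl⟩ := hz
    rw [lp_pre, hx.pre p y, lp_pre, hx.pre]
    simp
  · have hz' : ¬ ∃ y, F.eval x z' = (hv S).pre p y := by
      rintro ⟨y, hy⟩
      obtain ⟨y', rfl⟩ := (F.eval x).surjective y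
      rw [← hx.pre p y'] at hy
      exact hz ⟨y', (F.eval x).injective hy⟩
    rw [lp_out p _ hz, lp_out p _ hz']

theorem IsDiag.vgrp_comm {x : F.Free} {τ : Equiv.Perm S} (hx : F.IsDiag x τ) (v : Vgrp S) :
    Commute (F.eval x) (v : Equiv.Perm (Sp S)) := by
  refine Equiv.ext fun ⟨f, s⟩ => ?_
  obtain ⟨g, hg⟩ := vgrp_fib v f
  rw [Equiv.Perm.mul_apply, Equiv.Perm.mul_apply, hg, hx, hx, hg]

theorem exists_lpWord (p : List Bool) (g : Fin F.m ⊕ F.ι) :
    ∃ x : F.Free, F.eval x = lp (hv S) p (F.eval (FreeGroup.of g)) := by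
  have h : lp (hv S) p (F.eval (FreeGroup.of g)) ∈ F.eval.range := by
    rw [range_eval, ← tableGroup_eq]
    exact reg_graph_lp (tableGroup_eq (M := F.M) ▸ eval_mem _) p
  exact h

/-- Words acting below a prefix. -/
noncomputable def lpWord (p : List Bool) : F.Free →* F.Free :=
  FreeGroup.lift fun g => (exists_lpWord (F := F) p g).choose

theorem eval_lpWord (p : List Bool) (x : F.Free) :
    F.eval (lpWord p x) = lp (hv S) p (F.eval x) := by
  have : F.eval.comp (lpWord p) = (lp (hv S) p).comp F.eval :=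
    FreeGroup.ext_hom _ _ fun g => by
      simp only [MonoidHom.comp_apply, lpWord, FreeGroup.lift_apply_of]
      exact (exists_lpWord p g).choose_spec
  exact DFunLike.congr_fun this x

variable (F) in
/-- The elements of the second half. -/
noncomputable def rightSub (M : F.Model) : Subgroup M.P :=
  (M.f.comp (lpWord [true])).range

/-- A good field. -/
structure Good (M : F.Model) (φ f : Vgrp S →* M.P) : Prop where
  le : Le f φ
  left : ∀ v, InCone [false] v → ∀ n ∈ rightSub F M, Commute (f v) n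
  right : ∀ v, InCone [true] v → f v ∈ rightSub F M

/-- Good fields commute on far apart arguments. -/
theorem Good.farComm {M : F.Model} {φ f g : Vgrp S →* M.P} (hf : Good M φ f) (hg : Good M φ g) :
    FarComm (farRel S) f g := by
  rintro x y ⟨k, hx, hy⟩
  have h := hf.left _ (hx.mono ⟨[false], rfl⟩) _ (hg.right _ (hy.mono ⟨[false], rfl⟩))
  rw [← hf.le k x, ← hg.le k y] at h
  exact h.of_map (f := (MulAut.conj (φ k)).toMonoidHom) (MulAut.conj (φ k)).injective

/-- The elements that commute with the full field and preserve the second half. -/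
def moveSub (M : F.Model) (φ : Vgrp S →* M.P) : Subgroup M.P where
  carrier := {a | (∀ v, Commute a (φ v)) ∧
    (∀ n ∈ rightSub F M, a * n * a⁻¹ ∈ rightSub F M) ∧
    ∀ n ∈ rightSub F M, a⁻¹ * n * a ∈ rightSub F M}
  one_mem' := ⟨fun v => Commute.one_left _, by simp, by simp⟩
  mul_mem' := by
    rintro a b ⟨a1, a2, a3⟩ ⟨b1, b2, b3⟩
    refine ⟨fun v => (a1 v).mul_left (b1 v), fun n hn => ?_, fun n hn => ?_⟩
    · simpa [mul_assoc] using a2 _ (b2 n hn)
    · simpa [mul_assoc] using b3 _ (a3 n hn)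
  inv_mem' := by
    rintro a ⟨a1, a2, a3⟩
    exact ⟨fun v => (a1 v).inv_left, by simpa using a3, by simpa using a2⟩

/-- Good fields stay good under the moving elements. -/
theorem Good.conj {M : F.Model} {φ f : Vgrp S →* M.P} (hf : Good M φ f) {a : M.P}
    (ha : a ∈ moveSub M φ) : Good M φ ((MulAut.conj a).toMonoidHom.comp f) where
  le v w := by
    show φ v * (a * f w * a⁻¹) * (φ v)⁻¹ = a * f (v * w * v⁻¹) * a⁻¹
    rw [← hf.le v w]
    have c := (ha.1 v).eq
    calc φ v * (a * f w * a⁻¹) * (φ v)⁻¹ = φ v * a * f w * (φ v * a)⁻¹ := by simp [mul_assoc]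
      _ = a * φ v * f w * (a * φ v)⁻¹ := by rw [c]
      _ = _ := by simp [mul_assoc]
  left v hv n hn := by
    have h := (hf.left v hv _ (ha.2.2 n hn)).map (MulAut.conj a).toMonoidHom
    simpa [mul_assoc] using h
  right v hv := ha.2.1 _ (hf.right v hv)

/-- Diagonal words eventually move. -/
theorem ev_move {x : F.Free} {τ : Equiv.Perm S} (hx : F.IsDiag x τ) :
    F.Ev fun M => ∀ φ, IsPhi M φ → M.f x ∈ moveSub M φ := by
  have := F.fin_ι
  refine (((Ev.all fun j : Fin F.m => Ev.rel (F := F) (a := x * FreeGroup.of (Sum.inl j))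
      (b := FreeGroup.of (Sum.inl j) * x) ?_).and
    (Ev.all fun g : Fin F.m ⊕ F.ι => Ev.rel (F := F) (a := x * lpWord [true] (FreeGroup.of g) * x⁻¹)
      (b := lpWord [true] (x * FreeGroup.of g * x⁻¹)) ?_)).and
    (Ev.all fun g : Fin F.m ⊕ F.ι => Ev.rel (F := F) (a := x⁻¹ * lpWord [true] (FreeGroup.of g) * x)
      (b := lpWord [true] (x⁻¹ * FreeGroup.of g * x)) ?_)).mono ?_
  · rw [map_mul, map_mul, eval_inl]
    exact (hx.vgrp_comm _).eq
  · simp only [map_mul, map_inv, eval_lpWord]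
    rw [hx.lp_conj]
    simp only [map_mul, map_inv]
  · have h := hx.inv.lp_conj [true] (F.eval (FreeGroup.of g))
    simp only [map_mul, map_inv, inv_inv] at h
    simp only [map_mul, map_inv, eval_lpWord]
    rw [h]
  rintro M ⟨⟨h1, h2⟩, h3⟩ φ hφ
  refine ⟨fun v => ?_, ?_, ?_⟩
  · have : (MulAut.conj (M.f x)).toMonoidHom.comp φ = φ := hom_ext (F := F) fun j => by
      have := h1 j
      simp only [map_mul] at this
      simp [hφ j, this, mul_assoc]
    exact mul_inv_eq_iff_eq_mul.1 (DFunLike.congr_fun this v)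
  · rintro _ ⟨y, rfl⟩
    refine ⟨x * y * x⁻¹, ?_⟩
    have : (M.f.comp (lpWord [true])).comp (MulAut.conj x).toMonoidHom =
        (MulAut.conj (M.f x)).toMonoidHom.comp (M.f.comp (lpWord [true])) :=
      FreeGroup.ext_hom _ _ fun g => by simpa using (h2 g).symm
    simpa using DFunLike.congr_fun this y
  · rintro _ ⟨y, rfl⟩
    refine ⟨x⁻¹ * y * x, ?_⟩
    have : (M.f.comp (lpWord [true])).comp (MulAut.conj x⁻¹).toMonoidHom =
        (MulAut.conj (M.f x)⁻¹).toMonoidHom.comp (M.f.comp (lpWord [true])) :=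
      FreeGroup.ext_hom _ _ fun g => by simpa using (h3 g).symm
    simpa using DFunLike.congr_fun this y

/-- Fields given by words of restrictions are eventually good. -/
theorem ev_good {e : Set S} (w : Fin F.m → F.Free)
    (hw : ∀ j, F.eval (w j) = restr e (F.vgen j)) :
    F.Ev fun M => ∀ φ Ψ : Vgrp S →* M.P, IsPhi M φ → (∀ j, Ψ (F.vgen j) = M.f (w j)) →
      Good M φ Ψ := by
  have hs : ∀ v : Vgrp S, ∃ y, FreeGroup.lift F.vgen y = v := vgen_surjective (F := F)
  choose y hy using hs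
  have := F.fin_ι
  refine (((ev_normalizes (restr (Set.univ : Set S)) (restr e) fullWord w eval_fullWord hw
      fun v u => by rw [restr_univ]; exact restr_conj e v u).and
    (Ev.all fun p : Fin F.m × (Fin F.m ⊕ F.ι) => Ev.rel (F := F)
      (a := FreeGroup.lift w (y (lpV [false] (F.vgen p.1))) * lpWord [true] (FreeGroup.of p.2))
      (b := lpWord [true] (FreeGroup.of p.2) * FreeGroup.lift w (y (lpV [false] (F.vgen p.1))))
      ?_)).and
    (Ev.all fun j : Fin F.m => Ev.rel (F := F) (a := FreeGroup.lift w (y (lpV [true] (F.vgen j))))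
      (b := lpWord [true] (w j)) ?_)).mono ?_
  · rw [map_mul, map_mul, eval_lift_eq _ _ hw, hy, restr_lpV, eval_lpWord]
    exact (lp_disjoint halvesApart _ _).commute.eq
  · rw [eval_lift_eq _ _ hw, hy, restr_lpV, eval_lpWord, hw]
  rintro M ⟨⟨hn, hl⟩, hr⟩ φ Ψ hφ hΨ
  have eΨ : ∀ v, Ψ v = M.f (FreeGroup.lift w (y v)) := fun v => by
    conv_lhs => rw [← hy v]
    exact hom_eq_word M hΨ _
  have gens : ∀ u : Vgrp S, u ∈ Subgroup.closure (Set.range F.vgen) := fun u =>
    F.vgen_top ▸ Subgroup.mem_top u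
  refine ⟨hn φ Ψ hφ hΨ, fun v hv n hn' => ?_, fun v hv => ?_⟩
  · obtain ⟨u, rfl⟩ := hv.exists_lpV
    obtain ⟨z, rfl⟩ := hn'
    induction gens u using Subgroup.closure_induction with
    | mem u hu =>
      obtain ⟨j, rfl⟩ := hu
      induction z using FreeGroup.induction_on with
      | C1 => rw [map_one]; exact Commute.one_right _
      | of g =>
        have := hl (j, g)
        rw [map_mul, map_mul] at this
        rw [eΨ]
        exact this
      | inv_of g hg => rw [map_inv]; exact hg.inv_right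
      | mul a b ha hb => rw [map_mul]; exact ha.mul_right hb
    | one => simp
    | mul a b _ _ ha hb =>
      rw [map_mul, map_mul]; exact (ha (inCone_lpV _ _)).mul_left (hb (inCone_lpV _ _))
    | inv a _ ha => rw [map_inv, map_inv]; exact (ha (inCone_lpV _ _)).inv_left
  · obtain ⟨u, rfl⟩ := hv.exists_lpV
    induction gens u using Subgroup.closure_induction with
    | mem u hu =>
      obtain ⟨j, rfl⟩ := hu
      rw [eΨ, hr j]
      exact ⟨_, rfl⟩
    | one => rw [map_one, map_one]; exact one_mem _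
    | mul a b _ _ ha hb =>
      rw [map_mul, map_mul]; exact mul_mem (ha (inCone_lpV _ _)) (hb (inCone_lpV _ _))
    | inv a _ ha => rw [map_inv, map_inv]; exact inv_mem (ha (inCone_lpV _ _))

/-- A diagonal permutation fixing the fibres over `D` is built from its part in the second half. -/
theorem IsDiag.halves {x : F.Free} {τ : Equiv.Perm S} (hx : F.IsDiag x τ) {D : Set S}
    (hD : ∀ s ∈ D, τ s = s) :
    F.eval x = restr Dᶜ (vswap halvesApart) * lp (hv S) [true] (F.eval x) *
      restr Dᶜ (vswap halvesApart) * lp (hv S) [true] (F.eval x) := by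
  ext1 ⟨f, s⟩
  have hD' : ∀ t, τ t ∈ D ↔ t ∈ D := fun t =>
    ⟨fun h => by rwa [← τ.injective (hD _ h)], fun h => by rwa [hD t h]⟩
  obtain ⟨⟨c, g⟩, rfl⟩ := cnSplit.surjective f
  have e : ∀ (b : Bool) (h : Cn) (t : S), (cnSplit (b, h), t) = (hv S).pre [b] (h, t) :=
    fun b h t => rfl
  have no : ∀ (a : Sp S), ¬ ∃ y, (hv S).pre [false] a = (hv S).pre [true] y :=
    fun a ⟨y, hy⟩ => halvesApart.incomp _ _ hy
  have rD : ∀ (b : List Bool) (h : Cn) (t : S), t ∈ D →
      restr Dᶜ (vswap halvesApart) ((hv S).pre b (h, t)) = (hv S).pre b (h, t) :=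
    fun b h t ht => restr_out (by rw [hv_pre_snd]; exact fun h' => h' ht) _
  have rC : ∀ (b : List Bool) (h : Cn) (t : S), t ∉ D →
      restr Dᶜ (vswap halvesApart) ((hv S).pre b (h, t)) =
        (vswap (S := S) halvesApart).1 ((hv S).pre b (h, t)) :=
    fun b h t ht => restr_in (show ((hv S).pre b (h, t)).2 ∈ Dᶜ by rw [hv_pre_snd]; exact ht) _
  rw [e, hx.pre, hx]
  simp only [Equiv.Perm.mul_apply]
  cases c with
  | false =>
    rw [lp_out _ _ (no _)]
    by_cases hs : s ∈ D
    · rw [rD _ _ _ hs, lp_out _ _ (no _), rD _ _ _ hs, hD s hs]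
    · rw [rC _ _ _ hs, vswap_fwd, lp_pre, hx, rC _ _ _ (fun h => hs ((hD' s).1 h)), vswap_bwd]
  | true =>
    rw [lp_pre, hx]
    by_cases hs : s ∈ D
    · rw [rD _ _ _ ((hD' s).2 hs), lp_pre, hx, rD _ _ _ ((hD' _).2 ((hD' s).2 hs)), hD s hs,
        hD s hs]
    · rw [rC _ _ _ (fun h => hs ((hD' s).1 h)), vswap_bwd, lp_out _ _ (no _),
        rC _ _ _ (fun h => hs ((hD' s).1 h)), vswap_fwd]

/-- Two diagonal words agreeing over a set act in the same way on good fields below it. -/
theorem ev_agree {x y : F.Free} {τ υ : Equiv.Perm S} (hx : F.IsDiag x τ) (hy : F.IsDiag y υ)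
    {D : Set S} (hD : ∀ s ∈ D, τ s = υ s) (w : Fin F.m → F.Free)
    (hw : ∀ j, F.eval (w j) = restr D (F.vgen j)) :
    F.Ev fun M => ∀ φ f Ψ : Vgrp S →* M.P, IsPhi M φ → (∀ j, Ψ (F.vgen j) = M.f (w j)) →
      Good M φ f → Le f Ψ →
      (MulAut.conj (M.f x)).toMonoidHom.comp f = (MulAut.conj (M.f y)).toMonoidHom.comp f := by
  obtain ⟨u, hu⟩ := vgen_surjective (F := F) (vswap halvesApart)
  obtain ⟨z, hzdef⟩ : ∃ z, z = y⁻¹ * x := ⟨_, rfl⟩
  have hz : F.IsDiag z (υ⁻¹ * τ) := hzdef ▸ hy.inv.mul hx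
  obtain ⟨A, hAdef⟩ : ∃ A : F.Free, A = (FreeGroup.lift w u)⁻¹ * vword u := ⟨_, rfl⟩
  have hA : F.eval A = restr Dᶜ (vswap halvesApart) := by
    rw [hAdef, map_mul, map_inv, eval_lift_eq _ _ hw, hu, eval_vword, hu, restr_compl_eq]
  refine (((Ev.rel (F := F) (a := z) (b := A * lpWord [true] z * A * lpWord [true] z) ?_).and
    (ev_move hz)).and (ev_normalizes (restr (Set.univ : Set S)) (restr D) fullWord w eval_fullWord
      hw fun v u => by rw [restr_univ]; exact restr_conj D v u)).mono ?_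
  · rw [map_mul, map_mul, map_mul, hA, eval_lpWord]
    exact hz.halves fun s hs => by
      rw [Equiv.Perm.mul_apply, hD s hs]; exact υ.symm_apply_apply s
  rintro M ⟨⟨hrel, hmove⟩, hnorm⟩ φ f Ψ hφ hΨ hf hle
  have hΨφ : Le Ψ φ := hnorm φ Ψ hφ hΨ
  have eA : M.f A = cmpl φ Ψ hΨφ (vswap halvesApart) := by
    rw [hAdef, map_mul, map_inv, ← hom_eq_word M hΨ, ← full_apply M hφ, hu]
    rfl
  have dis : Disj f (cmpl φ Ψ hΨφ) := Le.disj_cmpl hf.le hΨφ hle
  have key : ∀ v, InCone [false] v → Commute (M.f z) (f v) := by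
    intro v hv
    rw [hrel]
    simp only [map_mul]
    have cA : Commute (M.f A) (f v) := eA ▸ (dis v _).symm
    have cN : Commute (M.f (lpWord [true] z)) (f v) := (hf.left v hv _ ⟨z, rfl⟩).symm
    exact ((cA.mul_left cN).mul_left cA).mul_left cN
  have all : ∀ v, Commute (M.f z) (f v) := by
    intro v
    have hv : v ∈ conjGen S := vswap_conj_generate (S := S) ▸ Subgroup.mem_top v
    unfold conjGen at hv
    induction hv using Subgroup.closure_induction with
    | mem v hv =>
      obtain ⟨k, rfl⟩ := hv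
      rw [← hf.le k]
      have c1 : Commute (M.f z) (φ k) := (hmove φ hφ).1 k
      exact (c1.mul_right (key _ (inCone_vswap colAB ⟨[false], rfl⟩ ⟨[true], rfl⟩))).mul_right
        c1.inv_right
    | one => simp
    | mul a b _ _ ha hb => rw [map_mul]; exact ha.mul_right hb
    | inv a _ ha => rw [map_inv]; exact ha.inv_right
  refine MonoidHom.ext fun v => ?_
  show M.f x * f v * (M.f x)⁻¹ = M.f y * f v * (M.f y)⁻¹
  have e : M.f x = M.f y * M.f z := by rw [hzdef, ← map_mul, mul_inv_cancel_left]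
  rw [e, mul_assoc (M.f y), (all v).eq]
  simp [mul_assoc]

end Frame

end Vale.Agent.P193.Calc
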