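import Vale.Agent.P193.Full.Core.Inst.Defs
import Vale.Agent.P193.Full.Core.Inst.Transport

/-! Fields of fixed sets: finitely many true identities between them hold eventually.

`setFld M e` is the field of a set whose restrictions have words. Inclusions, disjointness,
unions, compatibility, images under diagonal words and agreement of diagonal words pass from the
sets to these fields. -/

namespace Vale.Agent.P193.Core.Inst

open Calc Classical

variable {d : Data}

/-! ### Conjugation of fields -/

section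
variable {W K : Type} [Group W] [Group K]

theorem cj_one (h : W →* K) : cj 1 h = h := by ext; simp

theorem cj_mul (x y : K) (h : W →* K) : cj (x * y) h = cj x (cj y h) := by
  ext; simp [mul_assoc]

theorem cj_inv_cancel (x : K) (h : W →* K) : cj x⁻¹ (cj x h) = h := by
  rw [← cj_mul, inv_mul_cancel, cj_one]

theorem cj_cancel_inv (x : K) (h : W →* K) : cj x (cj x⁻¹ h) = h := by
  rw [← cj_mul, mul_inv_cancel, cj_one]

theorem cj_injective {x : K} {h k : W →* K} (e : cj x h = cj x k) : h = k := by
  rw [← cj_inv_cancel x h, e, cj_inv_cancel]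

theorem cj_of_commute {x : K} {φ : W →* K} (hx : ∀ v, Commute x (φ v)) : cj x φ = φ := by
  ext v; rw [cj_apply, (hx v).eq, mul_inv_cancel_right]

theorem le_cj {e f : W →* K} (x : K) (h : Calc.Le e f) : Calc.Le (cj x e) (cj x f) := h.comp _

theorem disj_cj {e f : W →* K} (x : K) (h : Calc.Disj e f) : Calc.Disj (cj x e) (cj x f) :=
  fun v w => (h v w).map (MulAut.conj x).toMonoidHom

theorem compat_cj {φ e f : W →* K} {x : K} (hx : ∀ v, Commute x (φ v)) (h : Compat φ e f) :
    Compat φ (cj x e) (cj x f) := by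
  obtain ⟨t⟩ := h
  exact ⟨{ a := cj x t.a, b := cj x t.b, c := cj x t.c, o := cj x t.o
           ab := disj_cj x t.ab, ac := disj_cj x t.ac, ao := disj_cj x t.ao
           bc := disj_cj x t.bc, bo := disj_cj x t.bo, co := disj_cj x t.co
           he := fun v => by simp [t.he v, mul_assoc]
           hf := fun v => by simp [t.hf v, mul_assoc]
           hone := fun v => by
             refine ((DFunLike.congr_fun (cj_of_commute hx) v).symm).trans ?_
             simp [t.hone v, mul_assoc] }⟩

end

variable {F : Calc.Frame (Point d)}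

/-! ### Sets with words -/

variable (F) in
/-- The restrictions to the set have words. -/
def HasSet (e : Set (Point d)) : Prop := ∀ v, ∃ x : F.Free, F.eval x = restr e v

theorem commutator_vgrp : commutator (Vgrp (Point d)) = ⊤ :=
  (swapGroup_perfect (M := coeffOf (S := Point d) ∅)).commutator_eq_top

theorem hasSet_of_gid {i : F.ι} {e : Set (Point d)} (hi : F.g i = gid e) : HasSet F e :=
  Frame.exists_restrict_word (Frame.eval_gid hi)

theorem IsCore.hasSet (hF : IsCore F) {e : Set (Point d)} (h : Gen d (gid e)) : HasSet F e :=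
  let ⟨_, hi⟩ := hF.exists_index h
  hasSet_of_gid hi

theorem hasSet_univ : HasSet F (Set.univ : Set (Point d)) := fun v => by
  obtain ⟨y, rfl⟩ := Frame.vgen_surjective (F := F) v
  exact ⟨Frame.vword y, by rw [Frame.eval_vword, restr_univ]⟩

theorem HasSet.compl {e : Set (Point d)} (h : HasSet F e) : HasSet F eᶜ := fun v => by
  obtain ⟨x, hx⟩ := h v
  obtain ⟨y, hy⟩ := hasSet_univ (F := F) v
  exact ⟨x⁻¹ * y, by rw [map_mul, map_inv, hx, hy, restr_univ, restr_compl_eq]⟩

theorem HasSet.inter {e f : Set (Point d)} (he : HasSet F e) (hf : HasSet F f) :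
    HasSet F (e ∩ f) := fun v =>
  Frame.exists_meet_word (fun j => (he (F.vgen j)).choose) (fun j => (hf (F.vgen j)).choose)
    (fun j => (he (F.vgen j)).choose_spec) (fun j => (hf (F.vgen j)).choose_spec) commutator_vgrp v

theorem HasSet.diff {e f : Set (Point d)} (he : HasSet F e) (hf : HasSet F f) :
    HasSet F (e \ f) :=
  he.inter hf.compl

theorem HasSet.union {e f : Set (Point d)} (he : HasSet F e) (hf : HasSet F f) :
    HasSet F (e ∪ f) := by
  have h := (he.compl.inter hf.compl).compl
  rwa [Set.compl_inter, compl_compl, compl_compl] at h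

theorem restr_diag {x : F.Free} {τ : Equiv.Perm (Point d)} (hx : F.IsDiag x τ)
    (e : Set (Point d)) (v : Vgrp (Point d)) :
    F.eval x * restr e v * (F.eval x)⁻¹ = restr (τ '' e) v := by
  ext1 z
  obtain ⟨⟨f, s⟩, rfl⟩ := (F.eval x).surjective z
  rw [Equiv.Perm.mul_apply, Equiv.Perm.mul_apply, Equiv.Perm.inv_eq_iff_eq.2 rfl]
  obtain ⟨g, hg⟩ := vgrp_fib v f
  rw [hx f s]
  by_cases hs : s ∈ e
  · rw [restr_in (x := (f, s)) hs, hg, hx,
      restr_in (x := (f, τ s)) (Set.mem_image_of_mem τ hs), hg]
  · have hs' : τ s ∉ τ '' e := fun ⟨t, ht, e'⟩ => hs (τ.injective e' ▸ ht)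
    rw [restr_out (x := (f, s)) hs, hx, restr_out (x := (f, τ s)) hs']

theorem HasSet.image {x : F.Free} {τ : Equiv.Perm (Point d)} (hx : F.IsDiag x τ)
    {e : Set (Point d)} (he : HasSet F e) : HasSet F (τ '' e) := fun v => by
  obtain ⟨y, hy⟩ := he v
  exact ⟨x * y * x⁻¹, by rw [map_mul, map_mul, map_inv, hy, restr_diag hx]⟩

theorem eval_setWord_of {e : Set (Point d)} (he : HasSet F e) (j : Fin F.m) :
    F.eval (setWord F e j) = restr e (F.vgen j) := by
  rw [setWord, dif_pos (he _)]
  exact (he (F.vgen j)).choose_spec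

/-! ### Their fields -/

theorem ev_phi : F.Ev fun M => Frame.IsPhi M (phi M) :=
  Frame.ev_full.mono fun M ⟨φ, hφ, _⟩ => by
    have h : ∃ ψ : Vgrp (Point d) →* M.P, Frame.IsPhi M ψ := ⟨φ, hφ⟩
    rw [phi, dif_pos h]
    exact h.choose_spec

/-- The field of a set with words. -/
theorem ev_setFld {e : Set (Point d)} (he : HasSet F e) : F.Ev fun M =>
    Frame.IsPhi M (phi M) ∧ (∀ j, setFld M e (F.vgen j) = M.f (setWord F e j)) ∧
      (∀ v, M.π (setFld M e v) = restr e v) ∧ Frame.Good M (phi M) (setFld M e) := by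
  refine ((ev_phi.and (Frame.exists_hom (restr e) (setWord F e) (eval_setWord_of he))).and
    (Frame.ev_good (setWord F e) (eval_setWord_of he))).mono ?_
  rintro M ⟨⟨hφ, Ψ, hΨ, hπ⟩, hg⟩
  have h : ∃ Φ : Vgrp (Point d) →* M.P, ∀ j, Φ (F.vgen j) = M.f (setWord F e j) := ⟨Ψ, hΨ⟩
  have hs : ∀ j, setFld M e (F.vgen j) = M.f (setWord F e j) := by
    rw [setFld, dif_pos h]; exact h.choose_spec
  have e1 : setFld M e = Ψ := Frame.hom_ext (F := F) fun j => (hs j).trans (hΨ j).symm
  exact ⟨hφ, hs, fun v => e1 ▸ hπ v, hg _ _ hφ hs⟩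

/-- A field given by other words of the same restrictions is the same field. -/
theorem ev_setFld_eq {e : Set (Point d)} (he : HasSet F e) (w : Fin F.m → F.Free)
    (hw : ∀ j, F.eval (w j) = restr e (F.vgen j)) :
    F.Ev fun M => ∀ j, setFld M e (F.vgen j) = M.f (w j) := by
  refine ((ev_setFld he).and (Frame.Ev.all fun j => Frame.Ev.rel (F := F)
    (a := setWord F e j) (b := w j) (by rw [eval_setWord_of he, hw]))).mono ?_
  exact fun M ⟨⟨_, h, _⟩, hr⟩ j => (h j).trans (hr j)

theorem ev_univ : F.Ev fun M => setFld M (Set.univ : Set (Point d)) = phi M := by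
  refine (ev_phi.and (ev_setFld_eq hasSet_univ Frame.fullWord Frame.eval_fullWord)).mono ?_
  exact fun M ⟨hφ, h⟩ => Frame.hom_ext (F := F) fun j => (h j).trans (hφ j).symm

/-- Smaller sets have smaller fields. -/
theorem ev_le {e f : Set (Point d)} (he : HasSet F e) (hf : HasSet F f) (h : e ⊆ f) :
    F.Ev fun M => Calc.Le (setFld M e) (setFld M f) :=
  (((ev_setFld he).and (ev_setFld hf)).and (Frame.ev_normalizes (restr f) (restr e) (setWord F f)
    (setWord F e) (eval_setWord_of hf) (eval_setWord_of he) (restr_conj_sub h))).mono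
    fun _ ⟨⟨⟨_, h1, _⟩, _, h2, _⟩, hn⟩ => hn _ _ h2 h1

/-- Disjoint sets have disjoint fields. -/
theorem ev_disj_fld {e f : Set (Point d)} (he : HasSet F e) (hf : HasSet F f) (h : Disjoint e f) :
    F.Ev fun M => Calc.Disj (setFld M e) (setFld M f) :=
  (((ev_setFld he).and (ev_setFld hf)).and (Frame.ev_homDisj (restr e) (restr f) (setWord F e)
    (setWord F f) (eval_setWord_of he) (eval_setWord_of hf) (restr_commute h))).mono
    fun _ ⟨⟨⟨_, h1, _⟩, _, h2, _⟩, hn⟩ => hn _ _ h1 h2

/-- The field of a disjoint union is the product. -/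
theorem ev_join {e f : Set (Point d)} (he : HasSet F e) (hf : HasSet F f) (h : Disjoint e f) :
    F.Ev fun M => ∀ v, setFld M (e ∪ f) v = setFld M e v * setFld M f v := by
  refine ((((ev_setFld he).and (ev_setFld hf)).and (ev_disj_fld he hf h)).and
    (ev_setFld_eq (he.union hf) (fun j => setWord F e j * setWord F f j) fun j => by
      rw [map_mul, eval_setWord_of he, eval_setWord_of hf, restr_union h])).mono ?_
  rintro M ⟨⟨⟨⟨_, h1, _⟩, _, h2, _⟩, hd⟩, hu⟩ v
  have : setFld M (e ∪ f) = Calc.join (setFld M e) (setFld M f) hd :=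
    Frame.hom_ext (F := F) fun j => by rw [hu j, map_mul, join_apply, h1, h2]
  rw [this, join_apply]

theorem ev_empty : F.Ev fun M => setFld M (∅ : Set (Point d)) = 1 := by
  have he : HasSet F (∅ : Set (Point d)) := Set.compl_univ ▸ (hasSet_univ (F := F)).compl
  refine (ev_setFld_eq he (fun _ => 1) fun j => by rw [map_one, restr_empty]; rfl).mono ?_
  exact fun M h => Frame.hom_ext (F := F) fun j => by rw [h j, map_one]; rfl

/-- Any two fields of sets are compatible. -/
theorem ev_compat_fld {e f : Set (Point d)} (he : HasSet F e) (hf : HasSet F f) :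
    F.Ev fun M => Compat (phi M) (setFld M e) (setFld M f) :=
  (((ev_setFld he).and (ev_setFld hf)).and (Frame.ev_compat_fields (setWord F e) (setWord F f)
    (eval_setWord_of he) (eval_setWord_of hf) commutator_vgrp)).mono
    fun _ ⟨⟨⟨hφ, h1, _⟩, _, h2, _⟩, hc⟩ => hc _ _ _ hφ h1 h2

/-- The part of a field inside a second set. -/
theorem ev_split {e f : Set (Point d)} (he : HasSet F e) (hf : HasSet F f) :
    F.Ev fun M => (∀ v, setFld M e v = setFld M (e ∩ f) v * setFld M (e \ f) v) ∧
      Calc.Disj (setFld M (e \ f)) (setFld M f) ∧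
      Calc.Le (setFld M (e ∩ f)) (setFld M f) :=
  (((ev_join (he.inter hf) (he.diff hf) Set.disjoint_sdiff_inter.symm).and
    (ev_disj_fld (he.diff hf) hf disjoint_sdiff_self_left)).and
    (ev_le (he.inter hf) hf Set.inter_subset_right)).mono fun M ⟨⟨h1, h2⟩, h3⟩ =>
      ⟨fun v => by rw [← h1 v, Set.inter_union_sdiff], h2, h3⟩

/-- A diagonal word carries the field of a set to the field of the image. -/
theorem ev_image {x : F.Free} {τ : Equiv.Perm (Point d)} (hx : F.IsDiag x τ)
    {e : Set (Point d)} (he : HasSet F e) :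
    F.Ev fun M => cj (M.f x) (setFld M e) = setFld M (τ '' e) := by
  refine ((ev_setFld he).and (ev_setFld_eq (he.image hx) (fun j => x * setWord F e j * x⁻¹)
    fun j => by rw [map_mul, map_mul, map_inv, eval_setWord_of he, restr_diag hx])).mono ?_
  rintro M ⟨⟨_, h1, _⟩, h2⟩
  exact Frame.hom_ext (F := F) fun j => by rw [h2 j, cj_apply, h1, map_mul, map_mul, map_inv]

/-- Two diagonal words that agree on a set act in the same way on the good fields below it. -/
theorem ev_agree_fld {x y : F.Free} {τ υ : Equiv.Perm (Point d)} (hx : F.IsDiag x τ)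
    (hy : F.IsDiag y υ) {D : Set (Point d)} (hD : HasSet F D) (h : ∀ s ∈ D, τ s = υ s) :
    F.Ev fun M => ∀ f, Frame.Good M (phi M) f → Calc.Le f (setFld M D) →
      cj (M.f x) f = cj (M.f y) f :=
  ((ev_setFld hD).and (Frame.ev_agree hx hy h (setWord F D) (eval_setWord_of hD))).mono
    fun _ ⟨⟨hφ, h1, _⟩, ha⟩ _ hf hle => ha _ _ _ hφ h1 hf hle

/-- A diagonal word keeps good fields good and commutes with the full field. -/
theorem ev_diag {x : F.Free} {τ : Equiv.Perm (Point d)} (hx : F.IsDiag x τ) :
    F.Ev fun M => M.f x ∈ Frame.moveSub M (phi M) ∧ ∀ v, Commute (M.f x) (phi M v) :=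
  (ev_phi.and (Frame.ev_move hx)).mono fun _ ⟨hφ, h⟩ => ⟨h _ hφ, (h _ hφ).1⟩

theorem good_cj {M : F.Model} {φ f : Vgrp (Point d) →* M.P} {a : M.P}
    (ha : a ∈ Frame.moveSub M φ) (hf : Frame.Good M φ f) : Frame.Good M φ (cj a f) :=
  hf.conj ha

/-- Generators commute with the second half. -/
theorem ev_gen_right (i : F.ι) : F.Ev fun M =>
    ∀ n ∈ Frame.rightSub F M, Commute (M.f (FreeGroup.of (Sum.inr i))) n := by
  have := F.fin_ι
  refine (Frame.Ev.all fun g : Fin F.m ⊕ F.ι => Frame.Ev.rel (F := F)
    (a := FreeGroup.of (Sum.inr i) * Frame.lpWord [true] (FreeGroup.of g))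
    (b := Frame.lpWord [true] (FreeGroup.of g) * FreeGroup.of (Sum.inr i)) ?_).mono ?_
  · rw [map_mul, map_mul, Frame.eval_inr, Frame.eval_lpWord]
    refine (Equiv.Perm.Disjoint.commute fun z => ?_).eq
    by_cases hz : ∃ y, z = (hv (Point d)).pre [true] y
    · obtain ⟨y, rfl⟩ := hz
      exact Or.inl (gswap_fix_out _
        (fun w => (apart_heads (c := true) (d := false) (by decide) [] [false]).incomp _ w)
        fun w => (apart_heads (c := true) (d := false) (by decide) [] [true]).incomp _ w)
    · exact Or.inr (lp_out _ _ hz)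
  rintro M hM _ ⟨z, rfl⟩
  induction z using FreeGroup.induction_on with
  | C1 => rw [map_one]; exact Commute.one_right _
  | of g => have := hM g; rw [map_mul, map_mul] at this; exact this
  | inv_of g hg => rw [map_inv]; exact hg.inv_right
  | mul a b ha hb => rw [map_mul]; exact ha.mul_right hb

end Vale.Agent.P193.Core.Inst
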