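import Vale.Agent.P193.Full.Core.Inst.Words
import Vale.Agent.P193.Full.Core.Inst.SetFields
import Vale.Agent.P193.Full.Core.Facts.ZTree
import Vale.Agent.P193.Full.Calc.Far
import Vale.Agent.P193.Full.Calc.Algebra
import Vale.Agent.P193.Full.Calc.VFacts

/-! The tree of seen offsets in the core instance.

Over a set `C` kept by every outer translation, the cones and points of the seen offset are the
words of a tree of fields. Finitely many relations make every outer translation keep the algebra
of fields generated by this tree, so all translates of the front and point predicates over `C`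
are eventually pairwise compatible. -/

namespace Vale.Agent.P193.Calc

variable {W P : Type} [Group W] [Group P]

/-- The decomposition of the full field by a larger and a smaller field. -/
def atomsLe {φ e f : W →* P} (he : Le e φ) (hf : Le f φ) (h : Le e f) : Atoms φ f e where
  a := e
  b := quo f e h
  c := 1
  o := cmpl φ f hf
  ab := quo_disj h
  ac := fun _ _ => Commute.one_right _
  ao := Le.disj_cmpl he hf h
  bc := fun _ _ => Commute.one_right _
  bo := fun v w => by
    have h1 : Commute (f v) (cmpl φ f hf w) := quo_disj hf v w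
    exact ((Le.disj_cmpl he hf h v w).inv_left).mul_left h1
  co := fun _ _ => Commute.one_left _
  he := fun v => mul_quo f e h v
  hf := fun v => (mul_one _).symm
  hone := fun v => by
    show φ v = e v * quo f e h v * 1 * cmpl φ f hf v
    rw [mul_one, ← mul_quo f e h v]
    exact mul_quo φ f hf v

theorem Gen.quo_mem {φ e f : W →* P} {A : Set (W →* P)} (he : Gen φ A e) (hf : Gen φ A f)
    (he' : Le e φ) (hf' : Le f φ) (h : Le e f) : Gen φ A (quo f e h) :=
  Gen.diff (atomsLe he' hf' h) hf he

theorem Gen.join_mem {φ e f : W →* P} {A : Set (W →* P)} (h1 : φ ∈ A) (he : Gen φ A e)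
    (hf : Gen φ A f) (he' : Le e φ) (hf' : Le f φ) (hd : Disj e f) :
    Gen φ A (join e f hd) := by
  have e1 : Gen φ A (cmpl φ e he') := Gen.quo_mem he (.base h1) he' (Le.refl _) he'
  have l1 : Le f (cmpl φ e he') := by
    intro v w
    show (e v)⁻¹ * φ v * f w * ((e v)⁻¹ * φ v)⁻¹ = f (v * w * v⁻¹)
    calc (e v)⁻¹ * φ v * f w * ((e v)⁻¹ * φ v)⁻¹
        = (e v)⁻¹ * (φ v * f w * (φ v)⁻¹) * e v := by simp [mul_assoc]
      _ = f (v * w * v⁻¹) := by
          rw [hf' v w, ((hd v _).inv_left).eq, inv_mul_cancel_right]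
  have e2 : Gen φ A (quo (cmpl φ e he') f l1) :=
    Gen.quo_mem hf e1 hf' (cmpl_le he') l1
  have hj : Le (join e f hd) φ := Le.join hd he' hf'
  have hval : ∀ v, quo (cmpl φ e he') f l1 v = cmpl φ (join e f hd) hj v := fun v => by
    show (f v)⁻¹ * ((e v)⁻¹ * φ v) = (e v * f v)⁻¹ * φ v
    rw [mul_inv_rev, mul_assoc]
  have e2' : quo (cmpl φ e he') f l1 = cmpl φ (join e f hd) hj := MonoidHom.ext hval
  rw [e2'] at e2
  have l2 : Le (cmpl φ (join e f hd) hj) φ := cmpl_le hj
  have e3 := Gen.quo_mem e2 (.base h1) l2 (Le.refl _) l2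
  have e3' : quo φ (cmpl φ (join e f hd) hj) l2 = join e f hd := MonoidHom.ext fun v => by
    show ((join e f hd v)⁻¹ * φ v)⁻¹ * φ v = join e f hd v
    rw [mul_inv_rev, inv_inv, mul_assoc]
    have h2 := hj v v
    rw [mul_inv_eq_iff_eq_mul, show v * v * v⁻¹ = v by simp] at h2
    rw [← h2, inv_mul_cancel_left]
  rwa [e3'] at e3

end Vale.Agent.P193.Calc

namespace Vale.Agent.P193.Core.Inst

open Calc Facts

open Classical

set_option linter.unusedSectionVars false

/-! ### Conjugation of the generated fields -/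

section
variable {W K : Type} [Group W] [Group K]

/-- The image of a decomposition. -/
def atomsCj {φ e f : W →* K} {x : K} (hx : ∀ v, Commute x (φ v)) (t : Atoms φ e f) :
    Atoms φ (cj x e) (cj x f) where
  a := cj x t.a
  b := cj x t.b
  c := cj x t.c
  o := cj x t.o
  ab := disj_cj x t.ab
  ac := disj_cj x t.ac
  ao := disj_cj x t.ao
  bc := disj_cj x t.bc
  bo := disj_cj x t.bo
  co := disj_cj x t.co
  he := fun v => by simp [t.he v, mul_assoc]
  hf := fun v => by simp [t.hf v, mul_assoc]
  hone := fun v => by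
    refine ((DFunLike.congr_fun (cj_of_commute hx) v).symm).trans ?_
    simp [t.hone v, mul_assoc]

theorem gen_cj {φ : W →* K} {A B : Set (W →* K)} {x : K} (hx : ∀ v, Commute x (φ v))
    (hA : ∀ a ∈ A, Calc.Gen φ B (cj x a)) {h : W →* K} (hh : Calc.Gen φ A h) :
    Calc.Gen φ B (cj x h) := by
  induction hh with
  | base hm => exact hA _ hm
  | meet t _ _ ihe ihf => exact Calc.Gen.meet (atomsCj hx t) ihe ihf
  | diff t _ _ ihe ihf => exact Calc.Gen.diff (atomsCj hx t) ihe ihf

/-- The elements that carry a generated algebra of fields into itself. -/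
def keep (φ : W →* K) (A : Set (W →* K)) : Submonoid K where
  carrier := {x | (∀ v, Commute x (φ v)) ∧ ∀ a ∈ A, Calc.Gen φ A (cj x a)}
  one_mem' := ⟨fun v => Commute.one_left _, fun a ha => by rw [cj_one]; exact .base ha⟩
  mul_mem' := by
    rintro x y ⟨hx, hx'⟩ ⟨hy, hy'⟩
    refine ⟨fun v => (hx v).mul_left (hy v), fun a ha => ?_⟩
    rw [cj_mul]
    exact gen_cj hx hx' (hy' a ha)

end

/-! ### Words of the letters -/

variable {d : Data} [DecidableEq d.M.A] {F : Calc.Frame (Point d)}

/-- The branching of the tree: a signed letter, or the trivial offset. -/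
abbrev ZL (d : Data) := Option (Ltr d × Bool)

variable (F) in
/-- The word of a left translation by a signed letter. -/
noncomputable def lshW (s : Ltr d × Bool) : F.Free := outHom₁ F (FreeGroup.mk [s])

variable (F) in
/-- The word of a right translation by a signed letter. -/
noncomputable def rshW (s : Ltr d × Bool) : F.Free := outHom₂ F (FreeGroup.mk [s])⁻¹

section Core

variable (hG : Good d) (hF : IsCore F)
include hG hF

theorem eval_outHom₀ (u : FreeGroup {x // x ∈ d.subGens}) :
    F.eval (outHom₀ F u) =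
      diag (outPerm ((FreeGroup.lift Subtype.val u, 1, 1) : Outer d)) := by
  let j0 : d.Γ₀ →* Outer d := MonoidHom.inl _ _
  have e0 : F.eval.comp (outHom₀ F) =
      diag.comp (outPerm.comp (j0.comp (FreeGroup.lift Subtype.val))) :=
    FreeGroup.ext_hom _ _ fun x => by
      simp only [MonoidHom.comp_apply, outHom₀, FreeGroup.lift_apply_of, map_inv,
        eval_tr_hT hF (gen_hT₀ x.1 x.2), inv_inv]
      rfl
  exact DFunLike.congr_fun e0 u

theorem eval_outHom₁ (u : FA d) :
    F.eval (outHom₁ F u) = diag (outPerm ((1, u, 1) : Outer d)) := by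
  let j1 : FA d →* Outer d := (MonoidHom.inr _ _).comp (MonoidHom.inl _ _)
  have e1 : F.eval.comp (outHom₁ F) = diag.comp (outPerm.comp j1) :=
    FreeGroup.ext_hom _ _ fun a => by
      simp only [MonoidHom.comp_apply, outHom₁, FreeGroup.lift_apply_of, map_inv,
        eval_tr_hT hF (gen_hT₁ a), inv_inv]
      rfl
  exact DFunLike.congr_fun e1 u

theorem eval_outHom₂ (u : FA d) :
    F.eval (outHom₂ F u) = diag (outPerm ((1, 1, u) : Outer d)) := by
  let j2 : FA d →* Outer d := (MonoidHom.inr _ _).comp (MonoidHom.inr _ _)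
  have e2 : F.eval.comp (outHom₂ F) = diag.comp (outPerm.comp j2) :=
    FreeGroup.ext_hom _ _ fun a => by
      simp only [MonoidHom.comp_apply, outHom₂, FreeGroup.lift_apply_of, map_inv,
        eval_tr_hT hF (gen_hT₂ a), inv_inv]
      rfl
  exact DFunLike.congr_fun e2 u

theorem isDiag_outHom₀_word (u : FreeGroup {x // x ∈ d.subGens}) :
    F.IsDiag (outHom₀ F u) (outPerm ((FreeGroup.lift Subtype.val u, 1, 1) : Outer d)) :=
  fun f s => by rw [eval_outHom₀ hG hF]; rfl

theorem isDiag_lshW (s : Ltr d × Bool) :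
    F.IsDiag (lshW F s) (outPerm ((1, FreeGroup.mk [s], 1) : Outer d)) :=
  fun f x => by rw [lshW, eval_outHom₁ hG hF]; rfl

theorem isDiag_rshW (s : Ltr d × Bool) :
    F.IsDiag (rshW F s) (outPerm ((1, 1, (FreeGroup.mk [s])⁻¹) : Outer d)) :=
  fun f x => by rw [rshW, eval_outHom₂ hG hF]; rfl

theorem lshW_image (s : Ltr d × Bool) (X : Set (Point d)) :
    outPerm ((1, FreeGroup.mk [s], 1) : Outer d) '' X = gimg (hT (lsh s)) X := by
  rw [outPerm_image]
  congr 2
  simp [lsh]

theorem rshW_image (s : Ltr d × Bool) (X : Set (Point d)) :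
    outPerm ((1, 1, (FreeGroup.mk [s])⁻¹) : Outer d) '' X = gimg (hT (rsh s)) X := by
  rw [outPerm_image]
  congr 2
  simp [rsh]

end Core

/-! ### The tree -/

/-- The sets of the one-letter words over `C`. -/
def zset (C : Set (Point d)) : ZL d → Set (Point d)
  | none => C ∩ zOneS
  | some s => C ∩ zFrontS s

/-- The field of a one-letter word. -/
noncomputable def zbase (C : Set (Point d)) (M : F.Model) (x : ZL d) : Vgrp (Point d) →* M.P :=
  setFld M (zset C x)

/-- The field of a word of the tree. -/
noncomputable def zK (C : Set (Point d)) (M : F.Model) : List (ZL d) → (Vgrp (Point d) →* M.P)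
  | [] => setFld M C
  | [x] => zbase C M x
  | some a :: y :: r => cj (M.f (lshW F a)) (zK C M (y :: r))
  | none :: _ :: _ => 1

/-- The reduced words, the trivial offset only last. -/
def ZOk : List (ZL d) → Prop
  | [] => False
  | [_] => True
  | some a :: y :: r => y ≠ some (flp a) ∧ ZOk (y :: r)
  | none :: _ :: _ => False

/-- The full field, the field of `C` and the fields of the tree. -/
def zAll (C : Set (Point d)) (M : F.Model) : Set (Vgrp (Point d) →* M.P) :=
  {phi M, setFld M C} ∪ zK C M '' {w | ZOk w}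

/-- The finitely many facts on the tree over `C`. -/
structure ZRules (C : Set (Point d)) (M : F.Model) : Prop where
  good_C : Frame.Good M (phi M) (setFld M C)
  good : ∀ x, Frame.Good M (phi M) (zbase C M x)
  le_C : ∀ x, Calc.Le (zbase C M x) (setFld M C)
  disj : ∀ x y, x ≠ y → Calc.Disj (zbase C M x) (zbase C M y)
  two : ∀ a x, x ≠ some (flp a) →
    Calc.Le (cj (M.f (lshW F a)) (zbase C M x)) (zbase C M (some a))
  move_l : ∀ a, M.f (lshW F a) ∈ Frame.moveSub M (phi M)
  move_r : ∀ s, M.f (rshW F s) ∈ Frame.moveSub M (phi M)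
  move_0 : ∀ g, M.f (outHom₀ F (FreeGroup.of g)) ∈ Frame.moveSub M (phi M)
  l_C : ∀ a, cj (M.f (lshW F a)) (setFld M C) = setFld M C
  l_flp : ∀ a v, cj (M.f (lshW F a)) (zbase C M (some (flp a))) v =
    (zbase C M (some a) v)⁻¹ * setFld M C v
  r_comm : ∀ s a, Commute (M.f (rshW F s)) (M.f (lshW F a))
  r_C : ∀ s, cj (M.f (rshW F s)) (setFld M C) = setFld M C
  r_none : ∀ s, cj (M.f (rshW F s)) (zbase C M none) = cj (M.f (lshW F s)) (zbase C M none)
  r_other : ∀ s t, t ≠ s → t ≠ flp s →
    cj (M.f (rshW F s)) (zbase C M (some t)) = zbase C M (some t)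
  r_self : ∀ s v, cj (M.f (rshW F s)) (zbase C M (some s)) v =
    (cj (M.f (lshW F s)) (zbase C M none) v)⁻¹ * zbase C M (some s) v
  r_flp : ∀ s v, cj (M.f (rshW F s)) (zbase C M (some (flp s))) v =
    zbase C M (some (flp s)) v * zbase C M none v
  g_comm : ∀ g a, Commute (M.f (outHom₀ F (FreeGroup.of g))) (M.f (lshW F a))
  g_C : ∀ g, cj (M.f (outHom₀ F (FreeGroup.of g))) (setFld M C) = setFld M C
  g_fix : ∀ g x, cj (M.f (outHom₀ F (FreeGroup.of g))) (zbase C M x) = zbase C M x

section Ev

variable (hG : Good d) (hF : IsCore F)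
include hG hF

omit hG in
theorem hasSet_zset {C : Set (Point d)} (hC : HasSet F C) : ∀ x : ZL d, HasSet F (zset C x)
  | none => hC.inter (hF.hasSet gen_zOneS)
  | some s => hC.inter (hF.hasSet (gen_zFrontS s))

theorem ev_zrules {C : Set (Point d)} (hC : HasSet F C)
    (hinv : ∀ t : Outer d, outPerm t '' C = C) : F.Ev (ZRules C) := by
  have := Facts.finite_ltr (d := d)
  have hz := hasSet_zset hF hC
  have dl := isDiag_lshW (F := F) hG hF
  have dr := isDiag_rshW (F := F) hG hF
  have dg := fun g : {x // x ∈ d.subGens} => isDiag_outHom₀_word (F := F) hG hF (FreeGroup.of g)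
  have img : ∀ (t : Outer d) (X : Set (Point d)), outPerm t '' (C ∩ X) = C ∩ outPerm t '' X :=
    fun t X => by rw [Set.image_inter (outPerm t).injective, hinv]
  have il : ∀ (a : Ltr d × Bool) (X : Set (Point d)),
      outPerm ((1, FreeGroup.mk [a], 1) : Outer d) '' (C ∩ X) = C ∩ gimg (hT (lsh a)) X :=
    fun a X => by rw [img, lshW_image hG hF]
  have ir : ∀ (s : Ltr d × Bool) (X : Set (Point d)),
      outPerm ((1, 1, (FreeGroup.mk [s])⁻¹) : Outer d) '' (C ∩ X) = C ∩ gimg (hT (rsh s)) X :=
    fun s X => by rw [img, rshW_image hG hF]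
  have hl : ∀ a x, HasSet F (outPerm ((1, FreeGroup.mk [a], 1) : Outer d) '' zset C x) :=
    fun a x => (hz x).image (dl a)
  have ev_comm : ∀ {x y : F.Free}, Commute (F.eval x) (F.eval y) →
      F.Ev fun M => Commute (M.f x) (M.f y) := fun {x y} h =>
    (Frame.Ev.rel (F := F) (a := x * y) (b := y * x)
      (by rw [map_mul, map_mul]; exact h.eq)).mono fun M e => by
        show _ * _ = _ * _
        rw [← map_mul, ← map_mul]; exact e
  have h1 := (ev_setFld hC).and (Frame.Ev.all fun x : ZL d => ev_setFld (hz x))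
  have h2 := Frame.Ev.all fun x : ZL d => ev_le (hz x) hC
    (by cases x <;> exact Set.inter_subset_left)
  have h3 := Frame.Ev.all fun p : {p : ZL d × ZL d // p.1 ≠ p.2} =>
    ev_disj_fld (hz p.1.1) (hz p.1.2) (by
      obtain ⟨⟨x, y⟩, hne⟩ := p
      obtain ⟨h0, h00⟩ := zTree_disjoint (d := d)
      cases x with
      | none => cases y with
        | none => exact absurd rfl hne
        | some t => exact (h0 t).mono Set.inter_subset_right Set.inter_subset_right
      | some s => cases y with
        | none => exact (h0 s).symm.mono Set.inter_subset_right Set.inter_subset_right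
        | some t =>
          exact (h00 s t fun e => hne (e ▸ rfl)).mono Set.inter_subset_right Set.inter_subset_right)
  have h4 := Frame.Ev.all fun p : {p : (Ltr d × Bool) × ZL d // p.2 ≠ some (flp p.1)} =>
    (ev_image (dl p.1.1) (hz p.1.2)).and (ev_le (hl p.1.1 p.1.2) (hz (some p.1.1)) (by
      obtain ⟨⟨a, x⟩, hne⟩ := p
      cases x with
      | none =>
        show outPerm _ '' (C ∩ zOneS) ⊆ C ∩ zFrontS a
        rw [il, lsh_img_zOne]
        exact Set.inter_subset_inter_right _ fun x hx => by
          simp [zFrontS, (zS_mk_single a x).1 hx]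
      | some t =>
        show outPerm _ '' (C ∩ zFrontS t) ⊆ C ∩ zFrontS a
        rw [il, lsh_img_zFrontS a t fun e => hne (e ▸ rfl)]
        exact Set.inter_subset_inter_right _ fun x ⟨r, hr⟩ => by
          simp [zFrontS, ← hr]))
  have h5 := ((Frame.Ev.all fun a : Ltr d × Bool => ev_diag (dl a)).and
    (Frame.Ev.all fun a : Ltr d × Bool => ev_diag (dr a))).and
    (Frame.Ev.all fun g : {x // x ∈ d.subGens} => ev_diag (dg g))
  have h6 := ((Frame.Ev.all fun a : Ltr d × Bool => ev_image (dl a) hC).and
    (Frame.Ev.all fun a : Ltr d × Bool => ev_image (dr a) hC)).and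
    (Frame.Ev.all fun g : {x // x ∈ d.subGens} => ev_image (dg g) hC)
  have h7 := Frame.Ev.all fun a : Ltr d × Bool =>
    (ev_image (dl a) (hz (some (flp a)))).and
      (ev_join (hz (some a)) (hC.diff (hz (some a))) disjoint_sdiff_self_right)
  have h8 := Frame.Ev.all fun p : (Ltr d × Bool) × (Ltr d × Bool) =>
    ev_comm (x := rshW F p.1) (y := lshW F p.2) (by
      rw [rshW, lshW, eval_outHom₂ hG hF, eval_outHom₁ hG hF]
      refine Commute.map (Commute.map ?_ outPerm) diag
      show _ * _ = _ * _
      simp)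
  have h9 := Frame.Ev.all fun p : {x // x ∈ d.subGens} × (Ltr d × Bool) =>
    ev_comm (x := outHom₀ F (FreeGroup.of p.1)) (y := lshW F p.2) (by
      rw [lshW, eval_outHom₀ hG hF, eval_outHom₁ hG hF]
      refine Commute.map (Commute.map ?_ outPerm) diag
      show _ * _ = _ * _
      simp)
  have h10 := Frame.Ev.all fun s : Ltr d × Bool =>
    ((ev_image (dr s) (hz none)).and (ev_image (dl s) (hz none))).and
      (((ev_image (dr s) (hz (some s))).and
        (ev_join (hl s none) ((hz (some s)).diff (hl s none)) disjoint_sdiff_self_right)).and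
      ((ev_image (dr s) (hz (some (flp s)))).and
        (ev_join (hz (some (flp s))) (hz none)
          ((zTree_disjoint.1 (flp s)).symm.mono Set.inter_subset_right Set.inter_subset_right))))
  have h11 := Frame.Ev.all fun p : {p : (Ltr d × Bool) × (Ltr d × Bool) //
      p.2 ≠ p.1 ∧ p.2 ≠ flp p.1} => ev_image (dr p.1.1) (hz (some p.1.2))
  have h12 := Frame.Ev.all fun p : {x // x ∈ d.subGens} × ZL d =>
    ev_image (dg p.1) (hz p.2)
  refine ((((h1.and h2).and (h3.and h4)).and ((h5.and h6).and (h7.and h8))).and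
    ((h9.and h10).and (h11.and h12))).mono ?_
  rintro M ⟨⟨⟨⟨⟨e1C, e1⟩, e2⟩, e3, e4⟩, ⟨⟨⟨e5l, e5r⟩, e5g⟩, ⟨e6l, e6r⟩, e6g⟩, e7, e8⟩,
    ⟨e9, e10⟩, e11, e12⟩
  refine
    { good_C := e1C.2.2.2
      good := fun x => (e1 x).2.2.2
      le_C := e2
      disj := fun x y h => e3 ⟨(x, y), h⟩
      two := fun a x h => by
        obtain ⟨h', h''⟩ := e4 ⟨(a, x), h⟩
        rw [zbase, h']; exact h''
      move_l := fun a => (e5l a).1
      move_r := fun a => (e5r a).1
      move_0 := fun g => (e5g g).1
      l_C := fun a => by rw [e6l a, hinv]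
      l_flp := fun a v => ?_
      r_comm := fun s a => e8 (s, a)
      r_C := fun a => by rw [e6r a, hinv]
      r_none := fun s => ?_
      r_other := fun s t h h' => ?_
      r_self := fun s v => ?_
      r_flp := fun s v => ?_
      g_comm := fun g a => e9 (g, a)
      g_C := fun g => by rw [e6g g, hinv]
      g_fix := fun g x => ?_ }
  · obtain ⟨h', h''⟩ := e7 a
    have u : zset C (some a) ∪ C \ zset C (some a) = C :=
      Set.union_sdiff_cancel Set.inter_subset_left
    rw [u] at h''
    have i : outPerm ((1, FreeGroup.mk [a], 1) : Outer d) '' zset C (some (flp a)) =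
        C \ zset C (some a) := by
      show outPerm _ '' (C ∩ zFrontS (flp a)) = C \ (C ∩ zFrontS a)
      rw [il, lsh_img_zFrontS_flp, Set.sdiff_self_inter, Set.sdiff_eq]
    rw [zbase, h', i, zbase, h'' v, inv_mul_cancel_left]
  · obtain ⟨⟨hr, hl'⟩, -⟩ := e10 s
    rw [zbase, hr, hl']
    congr 1
    show outPerm _ '' (C ∩ zOneS) = outPerm _ '' (C ∩ zOneS)
    rw [ir, il, lsh_img_zOne, rsh_img_zOne]
  · have hr := e11 ⟨(s, t), h, h'⟩
    rw [zbase, hr]
    congr 1
    show outPerm _ '' (C ∩ zFrontS t) = C ∩ zFrontS t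
    rw [ir, rsh_img_zFrontS s t h h']
  · obtain ⟨⟨-, hl'⟩, ⟨hr, hj⟩, -⟩ := e10 s
    have hsub : outPerm ((1, FreeGroup.mk [s], 1) : Outer d) '' zset C none ⊆
        zset C (some s) := by
      show outPerm _ '' (C ∩ zOneS) ⊆ C ∩ zFrontS s
      rw [il, lsh_img_zOne]
      exact Set.inter_subset_inter_right _ fun x hx => by
        simp [zFrontS, (zS_mk_single s x).1 hx]
    rw [Set.union_sdiff_cancel hsub] at hj
    have i : outPerm ((1, 1, (FreeGroup.mk [s])⁻¹) : Outer d) '' zset C (some s) =
        zset C (some s) \ outPerm ((1, FreeGroup.mk [s], 1) : Outer d) '' zset C none := by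
      show outPerm _ '' (C ∩ zFrontS s) = (C ∩ zFrontS s) \ outPerm _ '' (C ∩ zOneS)
      rw [ir, il, rsh_img_zFrontS_self, lsh_img_zOne]
      ext x
      simp only [Set.mem_inter_iff, Set.mem_sdiff]
      tauto
    rw [zbase, hr, i, zbase, hl', hj v, inv_mul_cancel_left]
  · obtain ⟨-, -, hr, hj⟩ := e10 s
    have i : outPerm ((1, 1, (FreeGroup.mk [s])⁻¹) : Outer d) '' zset C (some (flp s)) =
        zset C (some (flp s)) ∪ zset C none := by
      show outPerm _ '' (C ∩ zFrontS (flp s)) = C ∩ zFrontS (flp s) ∪ C ∩ zOneS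
      rw [ir, rsh_img_zFrontS_flp, Set.inter_union_distrib_left]
    rw [zbase, hr, i, hj v]
    rfl
  · rw [zbase, e12 (g, x)]
    congr 1
    cases x with
    | none =>
      show outPerm _ '' (C ∩ zOneS) = C ∩ zOneS
      rw [img, outPerm_image, hT_img_zOne_of (by simp)]
    | some t =>
      show outPerm _ '' (C ∩ zFrontS t) = C ∩ zFrontS t
      rw [img, outPerm_image]
      congr 1
      simpa [zFrontS] using
        hT₀_img (d := d) ((FreeGroup.lift Subtype.val (FreeGroup.of g))⁻¹)
          (p := fun z => z.toWord.head? = some t)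

end Ev

namespace ZRules

variable {C : Set (Point d)} {M : F.Model} (Z : ZRules C M)
include Z

theorem good_K : ∀ w, ZOk w → Frame.Good M (phi M) (zK C M w)
  | [], h => h.elim
  | [x], _ => Z.good x
  | some a :: y :: r, h => good_cj (Z.move_l a) (good_K (y :: r) h.2)
  | none :: _ :: _, h => h.elim

/-- The tree of fields over `C`. -/
noncomputable def tree : TreeFields (farRel (Point d)) (phi M) (ZL d) where
  Ok := ZOk
  K := zK C M
  nil := id
  tail {a b r} h := by cases a with
    | none => exact h.elim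
    | some a => exact h.2
  head {a r} _ := trivial
  two {a b r} h := by cases a with
    | none => exact h.elim
    | some a => exact ⟨h.1, trivial⟩
  full {w} h := (Z.good_K w h).le
  far {w v} h h' := (Z.good_K w h).farComm (Z.good_K v h')
  base_disj _ _ hne := Z.disj _ _ hne
  base_le {a b} h := by cases a with
    | none => exact h.elim
    | some a => exact Z.two a b h.1
  push_le {a w v} ha hb hw hv hle := by cases a with
    | none => cases w with
      | nil => exact hw.elim
      | cons => exact ha.elim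
    | some a => cases w with
      | nil => exact hw.elim
      | cons => cases v with
        | nil => exact hv.elim
        | cons => exact le_cj _ hle
  push_disj {a w v} ha hb hw hv hd := by cases a with
    | none => cases w with
      | nil => exact hw.elim
      | cons => exact ha.elim
    | some a => cases w with
      | nil => exact hw.elim
      | cons => cases v with
        | nil => exact hv.elim
        | cons => exact disj_cj _ hd

theorem le_phi {h : Vgrp (Point d) →* M.P} (hh : h ∈ zAll C M) : Calc.Le h (phi M) := by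
  rcases hh with (rfl | rfl) | ⟨w, hw, rfl⟩
  · exact Le.refl _
  · exact Z.good_C.le
  · exact (Z.good_K w hw).le

/-- The fields of the tree are pairwise compatible. -/
theorem compat_all {h k : Vgrp (Point d) →* M.P} (hh : h ∈ zAll C M) (hk : k ∈ zAll C M) :
    Compat (phi M) h k := by
  have base : ∀ w, ZOk w → Compat (phi M) (zK C M w) (setFld M C) := fun w hw =>
    compat_of_le (Z.good_K w hw).le Z.good_C.le
      (Z.tree.le_root Z.good_C.le (fun a _ => Z.le_C a)
        (fun w hw => (Z.good_K w hw).farComm Z.good_C) w hw)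
  rcases hk with (rfl | rfl) | ⟨v, hv, rfl⟩
  · exact compat_full (Z.le_phi hh)
  · rcases hh with (rfl | rfl) | ⟨w, hw, rfl⟩
    · exact (compat_full Z.good_C.le).symm
    · exact compat_of_le Z.good_C.le Z.good_C.le (Le.refl _)
    · exact base w hw
  · rcases hh with (rfl | rfl) | ⟨w, hw, rfl⟩
    · exact (compat_full (Z.good_K v hv).le).symm
    · exact (base v hv).symm
    · exact Z.tree.compat hw hv

theorem mem_K {w : List (ZL d)} (h : ZOk w) : Calc.Gen (phi M) (zAll C M) (zK C M w) :=
  .base (Or.inr ⟨w, h, rfl⟩)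

theorem mem_C : Calc.Gen (phi M) (zAll C M) (setFld M C) := .base (Or.inl (Or.inr rfl))

theorem lsh_keep (a : Ltr d × Bool) : M.f (lshW F a) ∈ keep (phi M) (zAll C M) := by
  refine ⟨(Z.move_l a).1, ?_⟩
  rintro _ ((rfl | rfl) | ⟨w, hw, rfl⟩)
  · rw [cj_of_commute (Z.move_l a).1]; exact .base (Or.inl (Or.inl rfl))
  · rw [Z.l_C a]; exact Z.mem_C
  match w, hw with
  | [], h => exact h.elim
  | [x], _ =>
    by_cases h : x = some (flp a)
    · subst h
      have hle : Calc.Le (zbase C M (some a)) (setFld M C) := Z.le_C _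
      have e : cj (M.f (lshW F a)) (zbase C M (some (flp a))) =
          quo (setFld M C) (zbase C M (some a)) hle := MonoidHom.ext fun v => Z.l_flp a v
      show Calc.Gen _ _ (cj (M.f (lshW F a)) (zbase C M (some (flp a))))
      rw [e]
      exact Gen.quo_mem (Z.mem_K (w := [some a]) trivial) Z.mem_C (Z.good _).le Z.good_C.le hle
    · exact Z.mem_K (w := [some a, x]) ⟨h, trivial⟩
  | none :: _ :: _, h => exact h.elim
  | some b :: y :: r, h =>
    by_cases hb : b = flp a
    · subst hb
      have e : M.f (lshW F a) * M.f (lshW F (flp a)) = 1 := by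
        rw [← map_mul, lshW, lshW, ← map_mul]
        have : (FreeGroup.mk [a] * FreeGroup.mk [flp a] : FA d) = 1 := by
          rw [show flp a = (a.1, !a.2) from rfl, show FreeGroup.mk [(a.1, !a.2)] =
            (FreeGroup.mk [a] : FA d)⁻¹ by rw [FreeGroup.inv_mk]; rfl, mul_inv_cancel]
        rw [this, map_one, map_one]
      show Calc.Gen _ _ (cj (M.f (lshW F a)) (cj (M.f (lshW F (flp a))) (zK C M (y :: r))))
      rw [← cj_mul, e, cj_one]
      exact Z.mem_K h.2
    · exact Z.mem_K (w := some a :: some b :: y :: r) ⟨fun e => hb (Option.some.inj e), h⟩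

/-- An element commuting with the left letters keeps the algebra if it keeps the one-letter
fields. -/
theorem keep_of_base {x : M.P} (hx : ∀ v, Commute x (phi M v))
    (hc : ∀ a, Commute x (M.f (lshW F a)))
    (hC : Calc.Gen (phi M) (zAll C M) (cj x (setFld M C)))
    (hb : ∀ y, Calc.Gen (phi M) (zAll C M) (cj x (zbase C M y))) :
    x ∈ keep (phi M) (zAll C M) := by
  refine ⟨hx, ?_⟩
  rintro _ ((rfl | rfl) | ⟨w, hw, rfl⟩)
  · rw [cj_of_commute hx]; exact .base (Or.inl (Or.inl rfl))
  · exact hC
  induction w with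
  | nil => exact (hw : False).elim
  | cons b w ih =>
    cases w with
    | nil => exact hb b
    | cons y r => cases b with
      | none => exact (hw : False).elim
      | some b =>
        show Calc.Gen _ _ (cj x (cj (M.f (lshW F b)) (zK C M (y :: r))))
        rw [← cj_mul, (hc b).eq, cj_mul]
        exact gen_cj (Z.lsh_keep b).1 (Z.lsh_keep b).2 (ih hw.2)

theorem rsh_keep (s : Ltr d × Bool) : M.f (rshW F s) ∈ keep (phi M) (zAll C M) := by
  refine Z.keep_of_base (Z.move_r s).1 (Z.r_comm s) ?_ fun y => ?_
  · rw [Z.r_C s]; exact Z.mem_C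
  have hle : Calc.Le (cj (M.f (lshW F s)) (zbase C M none)) (zbase C M (some s)) :=
    Z.two s none (Option.some_ne_none _).symm
  cases y with
  | none => rw [Z.r_none s]; exact Z.mem_K (w := [some s, none]) ⟨(Option.some_ne_none _).symm, trivial⟩
  | some t =>
    by_cases h : t = s
    · subst h
      have e : cj (M.f (rshW F t)) (zbase C M (some t)) =
          quo (zbase C M (some t)) (cj (M.f (lshW F t)) (zbase C M none)) hle :=
        MonoidHom.ext fun v => Z.r_self t v
      rw [e]
      exact Gen.quo_mem (Z.mem_K (w := [some t, none]) ⟨(Option.some_ne_none _).symm, trivial⟩)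
        (Z.mem_K (w := [some t]) trivial) (good_cj (Z.move_l t) (Z.good none)).le (Z.good _).le hle
    · by_cases h' : t = flp s
      · subst h'
        have hd := Z.disj (some (flp s)) none (Option.some_ne_none _)
        have e : cj (M.f (rshW F s)) (zbase C M (some (flp s))) =
            join (zbase C M (some (flp s))) (zbase C M none) hd :=
          MonoidHom.ext fun v => Z.r_flp s v
        rw [e]
        exact Gen.join_mem (Or.inl (Or.inl rfl)) (Z.mem_K (w := [some (flp s)]) trivial)
          (Z.mem_K (w := [none]) trivial) (Z.good _).le (Z.good _).le hd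
      · rw [Z.r_other s t h h']; exact Z.mem_K (w := [some t]) trivial

theorem keep₀ (u : FreeGroup {x // x ∈ d.subGens}) :
    M.f (outHom₀ F u) ∈ keep (phi M) (zAll C M) := by
  induction u using FreeGroup.induction_on with
  | C1 => rw [map_one, map_one]; exact one_mem _
  | of g =>
    exact Z.keep_of_base (Z.move_0 g).1 (Z.g_comm g)
      (by rw [Z.g_C g]; exact Z.mem_C)
      fun y => by rw [Z.g_fix g y]; exact Z.mem_K (w := [y]) trivial
  | inv_of g _ =>
    rw [map_inv, map_inv]
    refine Z.keep_of_base (fun v => ((Z.move_0 g).1 v).inv_left)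
      (fun a => (Z.g_comm g a).inv_left) ?_ fun y => ?_
    · nth_rewrite 1 [← Z.g_C g]; rw [cj_inv_cancel]; exact Z.mem_C
    · nth_rewrite 1 [← Z.g_fix g y]; rw [cj_inv_cancel]; exact Z.mem_K (w := [y]) trivial
  | mul a b ha hb => rw [map_mul, map_mul]; exact mul_mem ha hb

theorem keep₁ (u : FA d) : M.f (outHom₁ F u) ∈ keep (phi M) (zAll C M) := by
  induction u using FreeGroup.induction_on with
  | C1 => rw [map_one, map_one]; exact one_mem _
  | of a => exact Z.lsh_keep (a, true)
  | inv_of a _ =>
    have := Z.lsh_keep (a, false)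
    rwa [lshW, show (FreeGroup.mk [(a, false)] : FA d) = (FreeGroup.of a)⁻¹ by
      simp [FreeGroup.of, FreeGroup.inv_mk, FreeGroup.invRev]] at this
  | mul a b ha hb => rw [map_mul, map_mul]; exact mul_mem ha hb

theorem keep₂ (u : FA d) : M.f (outHom₂ F u) ∈ keep (phi M) (zAll C M) := by
  induction u using FreeGroup.induction_on with
  | C1 => rw [map_one, map_one]; exact one_mem _
  | of a =>
    have := Z.rsh_keep (a, false)
    rwa [rshW, show (FreeGroup.mk [(a, false)] : FA d)⁻¹ = FreeGroup.of a by
      simp [FreeGroup.of, FreeGroup.inv_mk, FreeGroup.invRev]] at this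
  | inv_of a _ => exact Z.rsh_keep (a, true)
  | mul a b ha hb => rw [map_mul, map_mul]; exact mul_mem ha hb

/-- Every outer translation keeps the algebra of the tree. -/
theorem outWord_keep (k : Outer d) : M.f (outWord F k) ∈ keep (phi M) (zAll C M) := by
  rw [outWord, map_mul, map_mul]
  refine mul_mem (mul_mem ?_ (Z.keep₁ _)) (Z.keep₂ _)
  split_ifs
  · exact Z.keep₀ _
  · rw [map_one]; exact one_mem _

/-- Translated fields of the algebra stay in it. -/
theorem outWord_gen (k : Outer d) {h : Vgrp (Point d) →* M.P}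
    (hh : Calc.Gen (phi M) (zAll C M) h) :
    Calc.Gen (phi M) (zAll C M) (cj (M.f (outWord F k)) h) :=
  gen_cj (Z.outWord_keep k).1 (Z.outWord_keep k).2 hh

/-- The fields of the algebra are pairwise compatible. -/
theorem compat_gen [Nonempty (Point d)] {h k : Vgrp (Point d) →* M.P}
    (hh : Calc.Gen (phi M) (zAll C M) h) (hk : Calc.Gen (phi M) (zAll C M) k) :
    Compat (phi M) h k :=
  Calc.gen_compat vgrp_centralSplit vgrp_perfect vgrp_avoids (Or.inl (Or.inl rfl))
    (fun _ ha _ hb => Z.compat_all ha hb) hh hk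

/-- All outer translates of the point and front predicates over `C` are pairwise compatible. -/
theorem compat_translates [Nonempty (Point d)] (k k' : Outer d) (x y : ZL d) :
    Compat (phi M) (cj (M.f (outWord F k)) (zbase C M x))
      (cj (M.f (outWord F k')) (zbase C M y)) :=
  Z.compat_gen (Z.outWord_gen k (Z.mem_K (w := [x]) trivial))
    (Z.outWord_gen k' (Z.mem_K (w := [y]) trivial))

end ZRules

/-- The states, the tags and their meets are kept by the outer translations. -/
theorem outPerm_atS_tagIs (t : Outer d) (s : State d) (b : Bool) :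
    outPerm t '' (atS s ∩ tagIs b) = atS s ∩ tagIs b := by
  rw [outPerm_image]
  ext x
  rw [mem_gimg_hT]
  rfl

theorem outPerm_univ (t : Outer d) : outPerm t '' (Set.univ : Set (Point d)) = Set.univ :=
  Set.image_univ_of_surjective (outPerm t).surjective

theorem hasSet_tagIs (hF : IsCore F) : ∀ b : Bool, HasSet F (tagIs (d := d) b)
  | true => hF.hasSet gen_tagS
  | false => by
    have e : tagIs (d := d) false = tagSᶜ := Set.ext fun x => by simp [tagIs, tagS]
    rw [e]; exact (hF.hasSet gen_tagS).compl

/-- Over every state and tag, eventually all outer translates of the point and front predicates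
are pairwise compatible. -/
theorem ev_ztree (hG : Good d) (hF : IsCore F) [Nonempty (Point d)] (s : State d) (b : Bool) :
    F.Ev fun M => ZRules (atS s ∩ tagIs b) M ∧ ∀ k k' x y,
      Compat (phi M) (cj (M.f (outWord F k)) (zbase (atS s ∩ tagIs b) M x))
        (cj (M.f (outWord F k')) (zbase (atS s ∩ tagIs b) M y)) :=
  (ev_zrules hG hF ((hF.hasSet (gen_atS s)).inter (hasSet_tagIs hF b))
    fun t => outPerm_atS_tagIs t s b).mono fun _ Z => ⟨Z, Z.compat_translates⟩


theorem bfld_zOne (M : F.Model) (s : State d) (b : Bool) :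
    bfld M ⟨s, b, .zOne⟩ = zbase (atS s ∩ tagIs b) M none := rfl

theorem bfld_zFront (M : F.Model) (s : State d) (b : Bool) (a : Ltr d × Bool) :
    bfld M ⟨s, b, .zFront a⟩ = zbase (atS s ∩ tagIs b) M (some a) := rfl

theorem bfld_full (M : F.Model) (s : State d) (b : Bool) :
    bfld M ⟨s, b, .full⟩ = setFld M (atS s ∩ tagIs b) :=
  congrArg (setFld M) (Set.inter_univ _)

end Vale.Agent.P193.Core.Inst
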