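import Vale.Agent.P193.Full.Core.Inst.Slices
import Vale.Agent.P193.Full.Core.Inst.ZTree
import Vale.Agent.P193.Full.Calc.Algebra

/-! Translated offset predicates: against each other, against the trivial outer coordinate, and
at the final state.

The part of a tree field inside an edge out of the guess is the same tree field at the target, and
the part of the trivial outer coordinate there is its translate by the label. So compatibility with
a tree field pulls back along a junk edge to the field of one more letter, and along a reach edge to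
every state. -/

namespace Vale.Agent.P193.Core.Inst

open Calc Facts Classical

set_option linter.unusedSectionVars false

variable {d : Data} [DecidableEq d.M.A] {F : Calc.Frame (Point d)}

theorem lsh_flp_mul (a : Ltr d × Bool) : lsh (flp a) * lsh a = (1 : Outer d) := by
  have h : (FreeGroup.mk [flp a] : FA d) = (FreeGroup.mk [a])⁻¹ := by
    rw [show flp a = (a.1, !a.2) from rfl, FreeGroup.inv_mk]
    rfl
  refine Prod.ext (by simp [lsh]) (Prod.ext ?_ (by simp [lsh]))
  show (FreeGroup.mk [flp a])⁻¹ * (FreeGroup.mk [a])⁻¹ = (1 : FA d)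
  rw [h, inv_inv, mul_inv_cancel]

/-- The edge out of the guess by one junk letter. -/
def junkE (s : Ltr d × Bool) : OEdge d := ⟨_, Edge.OK.gjunk s⟩

/-- The edge from the guess to another state. -/
def reachE (t : State d) (h : t ≠ .guess) : OEdge d := ⟨_, Edge.OK.reach t h⟩

theorem junkE_label (s : Ltr d × Bool) :
    (((1, (junkE (d := d) s).1.pval, (junkE s).1.qval) : Outer d))⁻¹ = lsh s := by
  simp [junkE, lsh, Edge.pval, Edge.qval, ← FreeGroup.one_eq_mk]

theorem reachE_label (t : State d) (h : t ≠ .guess) :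
    (((1, (reachE t h).1.pval, (reachE t h).1.qval) : Outer d))⁻¹ = 1 := by
  simp [reachE, Edge.pval, Edge.qval, ← FreeGroup.one_eq_mk]

/-- An offset predicate cut by an edge. -/
theorem zset_inter_edge (e : OEdge d) (b : Bool) (x : ZL d) :
    zset (atS e.1.src ∩ tagIs b) x ∩ edgeTS e b =
      gimg (edgeG e.1 e.2) (zset (atS e.1.tgt ∩ tagIs b) x) := by
  ext y
  constructor
  · rintro ⟨hy, he, hb⟩
    obtain ⟨he', σ, b', w, g, h, rfl⟩ := he
    refine ⟨⟨e.1.tgt, σ, b', w, g, ((1, e.1.pval, e.1.qval) : Outer d)⁻¹ * h⟩, ?_,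
      σ, b', w, g, _, rfl, by simp [← mul_assoc]⟩
    have hz := zval_edge e.2 σ b' w g (((1, e.1.pval, e.1.qval) : Outer d)⁻¹ * h)
    rw [mul_inv_cancel_left] at hz
    cases x with
    | none => exact ⟨⟨rfl, hb⟩, show _ = _ from hz ▸ hy.2⟩
    | some s => exact ⟨⟨rfl, hb⟩, show _ = _ from hz ▸ hy.2⟩
  · rintro ⟨z, hz, σ, b', w, g, h, h1, h2⟩
    simp only at h1 h2
    subst h1 h2
    have he := zval_edge e.2 σ b' w g h
    cases x with
    | none =>
      exact ⟨⟨⟨rfl, hz.1.2⟩, show _ = _ from he.symm ▸ hz.2⟩,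
        ⟨e.2, σ, b', w, g, _, rfl⟩, hz.1.2⟩
    | some s =>
      exact ⟨⟨⟨rfl, hz.1.2⟩, show _ = _ from he.symm ▸ hz.2⟩,
        ⟨e.2, σ, b', w, g, _, rfl⟩, hz.1.2⟩

/-- The trivial outer coordinate cut by an edge. -/
theorem hOne_inter_edge (e : OEdge d) (b : Bool) :
    (⟨e.1.src, b, .hOne⟩ : Base d).set ∩ edgeTS e b =
      gimg (edgeG e.1 e.2) (gimg (hT ((1, e.1.pval, e.1.qval) : Outer d)⁻¹)
        (⟨e.1.tgt, b, .hOne⟩ : Base d).set) := by
  ext y
  constructor
  · rintro ⟨hy, he, hb⟩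
    obtain ⟨he', σ, b', w, g, h, rfl⟩ := he
    refine ⟨⟨e.1.tgt, σ, b', w, g, ((1, e.1.pval, e.1.qval) : Outer d)⁻¹ * h⟩, ?_,
      σ, b', w, g, _, rfl, by simp [← mul_assoc]⟩
    rw [mem_gimg_hT]
    exact ⟨⟨rfl, hb⟩, show _ * _⁻¹ = 1 by rw [show h = 1 from hy.2]; simp⟩
  · rintro ⟨z, hz, σ, b', w, g, h, h1, h2⟩
    simp only at h1 h2
    subst h1 h2
    rw [mem_gimg_hT] at hz
    refine ⟨⟨⟨rfl, hz.1.2⟩, ?_⟩, ⟨⟨e.2, σ, b', w, g, _, rfl⟩, hz.1.2⟩⟩
    show _ * h = (1 : Outer d)
    have := hz.2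
    simp only [Pred.set, hOneS, Set.mem_ofPred_eq, inv_inv] at this
    exact mul_eq_one_comm.1 this

variable {M : F.Model}

/-- `g`, moved by the edge, is the part of `f` inside it. -/
def SplitsTo (M : F.Model) (e : OEdge d) (b : Bool) (f g : Vgrp (Point d) →* M.P) : Prop :=
  ∃ rest, Frame.Good M (phi M) rest ∧ Calc.Disj (cj (edgeX M e) g) rest ∧
    (∀ v, f v = cj (edgeX M e) g v * rest v) ∧ Calc.Disj rest (setFld M (edgeTS e b))

/-- The finitely many facts used for the offset predicates. -/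
structure ZFacts (M : F.Model) : Prop where
  rules : ∀ (s : State d) b, ZRules (atS s ∩ tagIs b) M
  lsh_eq : ∀ a : Ltr d × Bool, M.f (lshW F a) = outX M (lsh a)
  h0 : ∀ (s : State d) b x, Compat (phi M) (bfld M ⟨s, b, .hOne⟩)
    (zbase (atS s ∩ tagIs b) M x)
  cut_z : ∀ (e : OEdge d) b x, SplitsTo M e b (zbase (atS e.1.src ∩ tagIs b) M x)
    (zbase (atS e.1.tgt ∩ tagIs b) M x)
  cut_h : ∀ (e : OEdge d) b, SplitsTo M e b (bfld M ⟨e.1.src, b, .hOne⟩)
    (cj (outX M ((1, e.1.pval, e.1.qval) : Outer d)⁻¹) (bfld M ⟨e.1.tgt, b, .hOne⟩))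
  phi_good : Frame.Good M (phi M) (phi M)
  root_le : ∀ b, Calc.Le (bfld M (rootB (d := d) b)) (zbase (atS .fin ∩ tagIs b) M none)

namespace ZFacts

variable (Z : ZFacts M) (R : Rig M)
include Z R

theorem le_top (s : State d) (b : Bool) {w : List (ZL d)} (h : ZOk w) :
    Calc.Le (zK (atS s ∩ tagIs b) M w) (bfld M (stB s b)) := by
  have Zs := Z.rules s b
  rw [show bfld M (stB s b) = setFld M (atS s ∩ tagIs b) from bfld_full M s b]
  exact Zs.tree.le_root Zs.good_C.le (fun a _ => Zs.le_C a)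
    (fun w hw => (Zs.good_K w hw).farComm Zs.good_C) w h

/-- A tree field cut by an edge is the same tree field at the target. -/
theorem cut (e : OEdge d) (b : Bool) : ∀ w, ZOk w →
    SplitsTo M e b (zK (atS e.1.src ∩ tagIs b) M w) (zK (atS e.1.tgt ∩ tagIs b) M w)
  | [], h => h.elim
  | [x], _ => Z.cut_z e b x
  | none :: _ :: _, h => h.elim
  | some a :: y :: r, h => by
    obtain ⟨rest, gr, d0, hf, dE⟩ := cut e b (y :: r) h.2
    have hL := R.out_mem (lsh a)
    have comm : cj (edgeX M e) (cj (outX M (lsh a)) (zK (atS e.1.tgt ∩ tagIs b) M (y :: r))) =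
        cj (outX M (lsh a)) (cj (edgeX M e) (zK (atS e.1.tgt ∩ tagIs b) M (y :: r))) :=
      R.edge_out e b (lsh a) _ ((Z.rules e.1.tgt b).good_K _ h.2) (Z.le_top R e.1.tgt b h.2)
    show SplitsTo M e b (cj (M.f (lshW F a)) (zK _ M (y :: r)))
      (cj (M.f (lshW F a)) (zK _ M (y :: r)))
    rw [Z.lsh_eq]
    refine ⟨cj (outX M (lsh a)) rest, good_cj hL gr, comm ▸ disj_cj _ d0, fun v => ?_,
      R.out_fix_edgeT (lsh a) e b ▸ disj_cj _ dE⟩
    rw [comm, cj_apply, cj_apply, cj_apply, hf v]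
    simp [mul_assoc]

/-- Compatibility pulled back along an edge. -/
theorem pull {e : OEdge d} {b : Bool} {f f' g g' : Vgrp (Point d) →* M.P}
    (gg : Frame.Good M (phi M) g) (lg : Calc.Le g (bfld M (stB e.1.tgt b)))
    (gg' : Frame.Good M (phi M) g') (lg' : Calc.Le g' (bfld M (stB e.1.tgt b)))
    (hf : Frame.Good M (phi M) f) (hf' : Frame.Good M (phi M) f')
    (s : SplitsTo M e b f g) (s' : SplitsTo M e b f' g') (h : Compat (phi M) f f') :
    Compat (phi M) g g' := by
  obtain ⟨r, gr, d0, e0, dE⟩ := s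
  obtain ⟨r', gr', d0', e0', dE'⟩ := s'
  obtain ⟨t, ht⟩ := atoms_of_split (good_cj (R.edge_mem e) gg) gr (R.edgeT_good e b) d0 e0 dE
    (R.edge_img e b ▸ le_cj _ lg)
  obtain ⟨t', ht'⟩ := atoms_of_split (good_cj (R.edge_mem e) gg') gr' (R.edgeT_good e b) d0' e0'
    dE' (R.edge_img e b ▸ le_cj _ lg')
  exact compat_pull (R.edge_mem e).1 hf hf' (R.edgeT_good e b) t t' ht ht' h

theorem le_hTrans (k : Outer d) (s : State d) (b : Bool) :
    Calc.Le (cj (outX M k) (bfld M ⟨s, b, .hOne⟩)) (bfld M (stB s b)) := by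
  have := le_cj (outX M k) (R.base_le (⟨s, b, .hOne⟩ : Base d))
  rwa [R.out_fix_st] at this

/-- Compatibility with a tree field, pulled back along an edge. -/
theorem h_edge (e : OEdge d) {src tgt : State d} (h1 : e.1.src = src) (h2 : e.1.tgt = tgt)
    {k : Outer d} (hk : ((1, e.1.pval, e.1.qval) : Outer d)⁻¹ = k) (b : Bool) {w : List (ZL d)}
    (hw : ZOk w)
    (h : Compat (phi M) (bfld M (⟨src, b, .hOne⟩ : Base d)) (zK (atS src ∩ tagIs b) M w)) :
    Compat (phi M) (cj (outX M k) (bfld M (⟨tgt, b, .hOne⟩ : Base d)))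
      (zK (atS tgt ∩ tagIs b) M w) := by
  subst h1 h2 hk
  exact Z.pull R (good_cj (R.out_mem _) (R.bfld_good _)) (Z.le_hTrans R _ _ b)
    ((Z.rules _ b).good_K _ hw) (Z.le_top R _ b hw) (R.bfld_good _) ((Z.rules _ b).good_K _ hw)
    (Z.cut_h e b) (Z.cut R e b w hw) h

/-- The trivial outer coordinate at the guess against the tree. -/
theorem h_guess (L : GroupLaws M) (b : Bool) : ∀ w, ZOk w →
    Compat (phi M) (bfld M (⟨.guess, b, .hOne⟩ : Base d)) (zK (atS .guess ∩ tagIs b) M w) := by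
  intro w
  induction w with
  | nil => exact fun h => h.elim
  | cons x r ih =>
    intro h
    cases r with
    | nil => exact Z.h0 _ b x
    | cons y r =>
      cases x with
      | none => exact h.elim
      | some a =>
        have h1 := Z.h_edge R (junkE (flp a)) (src := .guess) (tgt := .guess) rfl rfl
          (junkE_label (flp a)) b h.2 (ih h.2)
        have h2 := compat_cj (R.out_mem (lsh a)).1 h1
        rw [L.out_mul _ _ _ (R.bfld_good _), lsh_flp_mul, R.out_one, cj_one] at h2
        show Compat (phi M) _ (cj (M.f (lshW F a)) (zK _ M (y :: r)))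
        rw [Z.lsh_eq]
        exact h2

/-- The trivial outer coordinate against the tree at every state. -/
theorem h_state (L : GroupLaws M) (s : State d) (b : Bool) (w : List (ZL d)) (hw : ZOk w) :
    Compat (phi M) (bfld M (⟨s, b, .hOne⟩ : Base d)) (zK (atS s ∩ tagIs b) M w) := by
  by_cases hs : s = .guess
  · subst hs; exact Z.h_guess R L b w hw
  have h1 := Z.h_edge R (reachE s hs) (src := .guess) (tgt := s) rfl rfl (reachE_label s hs) b hw
    (Z.h_guess R L b w hw)
  rwa [R.out_one, cj_one] at h1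

/-- The trivial outer coordinate against every field of the algebra of the tree. -/
theorem h_gen (L : GroupLaws M) (s : State d) (b : Bool) {f : Vgrp (Point d) →* M.P}
    (hf : Calc.Gen (phi M) (zAll (atS s ∩ tagIs b) M) f) :
    Compat (phi M) (bfld M (⟨s, b, .hOne⟩ : Base d)) f := by
  have Zs := Z.rules s b
  have gH := R.bfld_good (⟨s, b, .hOne⟩ : Base d)
  have key : ∀ k ∈ zAll (atS s ∩ tagIs b) M,
      Compat (phi M) (bfld M (⟨s, b, .hOne⟩ : Base d)) k := by
    rintro _ ((rfl | rfl) | ⟨w, hw, rfl⟩)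
    · exact compat_full gH.le
    · rw [← bfld_full]
      exact compat_of_le gH.le (R.bfld_good _).le (R.base_le _)
    · exact Z.h_state R L s b w hw
  refine Calc.gen_compat (one := phi M) vgrp_centralSplit vgrp_perfect vgrp_avoids
    (A := insert (bfld M (⟨s, b, .hOne⟩ : Base d)) (zAll (atS s ∩ tagIs b) M))
    (Or.inr (Or.inl (Or.inl rfl))) ?_ (.base (Or.inl rfl)) ?_
  · rintro x (rfl | hx) y (rfl | hy)
    · exact compat_of_le gH.le gH.le (Calc.Le.refl _)
    · exact key y hy
    · exact (key x hx).symm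
    · exact Zs.compat_all hx hy
  · induction hf with
    | base h => exact .base (Or.inr h)
    | meet t _ _ ih ih' => exact .meet t ih ih'
    | diff t _ _ ih ih' => exact .diff t ih ih'

/-- At the final state the root is inside or outside every field of the algebra of the tree. -/
theorem root_gen (b : Bool) {f : Vgrp (Point d) →* M.P}
    (hf : Calc.Gen (phi M) (zAll (atS .fin ∩ tagIs b) M) f) :
    Frame.Good M (phi M) f ∧
      (Calc.Le (bfld M (rootB (d := d) b)) f ∨ Calc.Disj (bfld M (rootB (d := d) b)) f) := by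
  have Zs := Z.rules .fin b
  have gr := R.bfld_good (rootB (d := d) b)
  induction hf with
  | base h =>
    rcases h with (rfl | rfl) | ⟨w, hw, rfl⟩
    · exact ⟨Z.phi_good, Or.inl gr.le⟩
    · refine ⟨Zs.good_C, Or.inl ?_⟩
      rw [← bfld_full]
      exact R.base_le _
    · have gw := Zs.good_K w hw
      have gn := Zs.good none
      refine ⟨gw, ?_⟩
      by_cases h1 : [none] <+: w
      · obtain ⟨r, rfl⟩ := h1
        cases r with
        | nil => exact Or.inl (Z.root_le b)
        | cons c r => exact hw.elim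
      · by_cases h2 : w <+: [none]
        · match w, hw, h2 with
          | [], hw, _ => exact hw.elim
          | [c], _, h2 =>
            obtain rfl : c = none := (List.cons_prefix_cons.1 h2).1
            exact Or.inl (Z.root_le b)
          | c :: c' :: r, _, h2 => exact absurd h2.length_le (by simp)
        · exact Or.inr (gr.disj_le gw (Z.root_le b)
            ((Zs.tree.le_and_disj [none] w trivial hw).2 h1 h2))
  | meet t _ _ ihe ihf =>
    obtain ⟨ge, he⟩ := ihe
    obtain ⟨gf, hf⟩ := ihf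
    have ga := ge.meet gf t
    refine ⟨ga, ?_⟩
    rcases he with he | he
    · rcases hf with hf | hf
      · refine Or.inl (Calc.Le.of_join_left t.ab ?_ ?_)
        · have : Calc.join t.a t.b t.ab = _ := MonoidHom.ext fun v => (t.he v).symm
          rw [this]; exact he
        · refine gr.disj_le (ge.rest_left gf t) hf ?_
          intro v w
          rw [t.hf]
          exact ((t.ab v w).mul_left (t.bc w v).symm)
      · exact Or.inr ((ga.disj_le gr (Frame.atoms_le_right t) hf.symm).symm)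
    · exact Or.inr ((ga.disj_le gr (Frame.atoms_le_left t) he.symm).symm)
  | diff t _ _ ihe ihf =>
    obtain ⟨ge, he⟩ := ihe
    obtain ⟨gf, hf⟩ := ihf
    have ga := ge.meet gf t
    have gb := ge.rest_left gf t
    refine ⟨gb, ?_⟩
    rcases he with he | he
    · rcases hf with hf | hf
      · refine Or.inr (gr.disj_le gb hf ?_)
        intro v w
        rw [t.hf]
        exact ((t.ab v w).mul_left (t.bc w v).symm)
      · refine Or.inl (Calc.Le.of_join_left t.ab.symm ?_
          (ga.disj_le gr (Frame.atoms_le_right t) hf.symm).symm)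
        have : Calc.join t.b t.a t.ab.symm = _ :=
          MonoidHom.ext fun v => ((t.ab v v).eq.symm.trans (t.he v).symm)
        rw [this]; exact he
    · exact Or.inr ((gb.disj_le gr (Frame.atoms_rest_left t) he.symm).symm)

/-- The laws of the translated offset predicates. -/
theorem zLaws (L : GroupLaws M) : ZLaws M := by
  have hz : ∀ (s : State d) b (p : Pred d), p.IsZ →
      ∃ x, bfld M ⟨s, b, p⟩ = zbase (atS s ∩ tagIs b) M x := by
    intro s b p hp
    cases p with
    | zOne => exact ⟨none, rfl⟩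
    | zFront a => exact ⟨some a, rfl⟩
    | _ => exact hp.elim
  have shift : ∀ (s : State d) b x (k k' : Outer d),
      cj (outX M k') (zbase (atS s ∩ tagIs b) M x) =
        cj (outX M k) (cj (outX M (k' * k⁻¹)) (zbase (atS s ∩ tagIs b) M x)) := fun s b x k k' => by
    rw [L.out_mul _ _ _ ((Z.rules s b).good x), inv_mul_cancel_right]
  refine ⟨?_, ?_, ?_⟩
  · intro s b p p' k k' hp hp'
    obtain ⟨x, hx⟩ := hz s b p hp
    obtain ⟨y, hy⟩ := hz s b p' hp'
    rw [hx, hy]
    exact (Z.rules s b).compat_translates k k' x y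
  · intro s b p k k' hp
    obtain ⟨x, hx⟩ := hz s b p hp
    rw [hx, shift s b x k k']
    exact compat_cj (R.out_mem k).1 (Z.h_gen R L s b
      ((Z.rules s b).outWord_gen _ ((Z.rules s b).mem_K (w := [x]) trivial)))
  · intro b p k k' hp
    obtain ⟨x, hx⟩ := hz .fin b p hp
    rw [hx, shift .fin b x k k']
    rcases (Z.root_gen R b
      ((Z.rules .fin b).outWord_gen (k' * k⁻¹) ((Z.rules .fin b).mem_K (w := [x]) trivial))).2
      with h | h
    · exact Or.inl (le_cj _ h)
    · exact Or.inr (disj_cj _ h)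

end ZFacts

section Core

variable (hG : Good d) (hF : IsCore F)
include hG hF

theorem ev_cut {e : OEdge d} {b : Bool} {A B : Set (Point d)} {x : F.Free}
    {τ : Equiv.Perm (Point d)} (hx : F.IsDiag x τ) (hA : HasSet F A) (hB : HasSet F B)
    (hE : HasSet F (edgeTS e b)) (h : A ∩ edgeTS e b = τ '' B) :
    F.Ev fun M => ∃ rest, Frame.Good M (phi M) rest ∧
      Calc.Disj (cj (M.f x) (setFld M B)) rest ∧
      (∀ v, setFld M A v = cj (M.f x) (setFld M B) v * rest v) ∧
      Calc.Disj rest (setFld M (edgeTS e b)) := by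
  refine (((ev_split hA hE).and (ev_setFld (hA.diff hE))).and ((ev_image hx hB).and
    (ev_disj_fld (hA.inter hE) (hA.diff hE) Set.disjoint_sdiff_inter.symm))).mono ?_
  rintro M ⟨⟨⟨h1, h2, -⟩, -, -, -, g⟩, h3, h4⟩
  rw [← h] at h3
  exact ⟨_, g, h3 ▸ h4, fun v => h3 ▸ h1 v, h2⟩

theorem ev_zFacts : F.Ev fun M => ZFacts M := by
  have := finite_state (d := d)
  have := finite_ltr (d := d)
  have : Finite (OEdge d) := (Facts.finite_edges (d := d)).to_subtype
  have : Finite (ZL d) := by unfold ZL; infer_instance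
  have hB : ∀ B : Base d, HasSet F B.set := fun B v =>
    Calc.Frame.exists_restr_gmem (gmem_base hF B) v
  have hC : ∀ (s : State d) b, HasSet F (atS s ∩ tagIs b) := fun s b =>
    (hF.hasSet (gen_atS s)).inter (hasSet_tagIs hF b)
  have hedge : ∀ (e : OEdge d) (b : Bool), HasSet F (edgeTS e b) := fun e b => by
    obtain ⟨τ, hτ, eτ⟩ := isTr_image hG hF (tr_edge hG hF e) (X := atS e.1.tgt ∩ tagIs b)
      (fun x hx => hx.1) (fun x hx => (gdom_edgeG _ e.2).symm.subset hx.1)
    have : edgeTS e b = τ '' (atS e.1.tgt ∩ tagIs b) := by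
      rw [eτ]
      ext y
      constructor
      · rintro ⟨hy, hb⟩
        obtain ⟨z, hz⟩ := (gran_edgeG e.1 e.2).symm.subset hy
        obtain ⟨σ, b', w, g, h, h1, h2⟩ := hz
        simp only at h1 h2
        subst h1 h2
        exact ⟨⟨e.1.tgt, σ, b', w, g, h⟩, ⟨rfl, hb⟩, σ, b', w, g, h, rfl, rfl⟩
      · rintro ⟨z, ⟨-, hb⟩, σ, b', w, g, h, h1, h2⟩
        simp only at h1 h2
        subst h1 h2
        exact ⟨⟨e.2, σ, b', w, g, _, rfl⟩, hb⟩
    exact this ▸ (hC _ b).image (x := tr F (edgeG e.1 e.2) (atS e.1.tgt))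
      fun f z => by rw [hτ]; rfl
  have h1 : F.Ev fun M => ∀ q : State d × Bool, ZRules (atS q.1 ∩ tagIs q.2) M :=
    Frame.Ev.all fun q => (ev_ztree hG hF q.1 q.2).mono fun M h => h.1
  have h2 : F.Ev fun M => ∀ a : Ltr d × Bool, M.f (lshW F a) = outX M (lsh a) :=
    Frame.Ev.all fun a => Frame.Ev.rel (by
      rw [eval_outWord hG hF, lshW, eval_outHom₁ hG hF]
      simp [lsh])
  have h3 : F.Ev fun M => ∀ q : State d × Bool × ZL d,
      Compat (phi M) (bfld M ⟨q.1, q.2.1, .hOne⟩) (zbase (atS q.1 ∩ tagIs q.2.1) M q.2.2) :=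
    Frame.Ev.all fun q => ev_compat_fld (hB _) (hasSet_zset hF (hC _ _) _)
  have h4 : F.Ev fun M => ∀ q : OEdge d × Bool × ZL d,
      SplitsTo M q.1 q.2.1 (zbase (atS q.1.1.src ∩ tagIs q.2.1) M q.2.2)
        (zbase (atS q.1.1.tgt ∩ tagIs q.2.1) M q.2.2) :=
    Frame.Ev.all fun q => by
      obtain ⟨τ, hτ, eτ⟩ := isTr_image hG hF (tr_edge hG hF q.1)
        (X := zset (atS q.1.1.tgt ∩ tagIs q.2.1) q.2.2)
        (fun x hx => by
          cases hq : q.2.2 <;> rw [hq] at hx <;> exact hx.1.1)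
        (fun x hx => (gdom_edgeG _ q.1.2).symm.subset (by
          cases hq : q.2.2 <;> rw [hq] at hx <;> exact hx.1.1))
      exact ev_cut hG hF (x := edgeW F q.1) (fun f z => by rw [hτ]; rfl)
        (hasSet_zset hF (hC _ _) _) (hasSet_zset hF (hC _ _) _) (hedge _ _)
        ((zset_inter_edge q.1 q.2.1 q.2.2).trans eτ.symm)
  have h5 : F.Ev fun M => ∀ q : OEdge d × Bool,
      SplitsTo M q.1 q.2 (bfld M ⟨q.1.1.src, q.2, .hOne⟩)
        (cj (outX M ((1, q.1.1.pval, q.1.1.qval) : Outer d)⁻¹)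
          (bfld M ⟨q.1.1.tgt, q.2, .hOne⟩)) :=
    Frame.Ev.all fun q => by
      set c : Outer d := ((1, q.1.1.pval, q.1.1.qval) : Outer d)⁻¹
      have hsub : gimg (hT c) (⟨q.1.1.tgt, q.2, .hOne⟩ : Base d).set ⊆ atS q.1.1.tgt :=
        fun x hx => (mem_gimg_hT.1 hx).1.1
      obtain ⟨τ, hτ, eτ⟩ := isTr_image hG hF (tr_edge hG hF q.1) hsub
        (hsub.trans (gdom_edgeG _ q.1.2).symm.subset)
      refine (ev_cut hG hF (e := q.1) (b := q.2) (x := edgeW F q.1 * outWord F c)
        (τ := τ * outPerm c⁻¹) (A := (⟨q.1.1.src, q.2, .hOne⟩ : Base d).set)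
        (B := (⟨q.1.1.tgt, q.2, .hOne⟩ : Base d).set)
        (fun f z => by rw [map_mul, hτ, eval_outWord hG hF]; rfl) (hB _) (hB _) (hedge _ _)
        ?_).mono fun M h => ?_
      · rw [Equiv.Perm.coe_mul, Set.image_comp, outPerm_image, inv_inv, eτ]
        exact hOne_inter_edge q.1 q.2
      · rw [map_mul, cj_mul] at h
        exact h
  have h6 : F.Ev fun M => ∀ b : Bool,
      Calc.Le (bfld M (rootB (d := d) b)) (zbase (atS .fin ∩ tagIs b) M none) :=
    Frame.Ev.all fun b => ev_le (hB _) (hasSet_zset hF (hC _ _) _) fun x hx =>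
      ⟨hx.1, fin_hOne_subset_zOne ⟨hx.1.1, hx.2⟩⟩
  have h7 : F.Ev fun M => Frame.Good M (phi M) (phi M) :=
    (ev_univ.and (ev_setFld (hasSet_univ (F := F)))).mono fun M h => by
      have := h.2.2.2.2
      rwa [h.1] at this
  refine (h1.and (h2.and (h3.and (h4.and (h5.and (h6.and h7)))))).mono ?_
  rintro M ⟨h1, h2, h3, h4, h5, h6, h7⟩
  exact ⟨fun s b => h1 (s, b), h2, fun s b x => h3 (s, b, x), fun e b x => h4 (e, b, x),
    fun e b => h5 (e, b), h7, h6⟩

/-- The laws of the translated offset predicates hold eventually. -/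
theorem ev_zLaws : F.Ev fun M => Rig M → GroupLaws M → ZLaws M :=
  (ev_zFacts hG hF).mono fun _ Z R L => Z.zLaws R L

end Core

end Vale.Agent.P193.Core.Inst
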