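import Vale.Agent.P193.Full.Core.Inst.Defs
import Vale.Agent.P193.Full.Core.Facts.Rules
import Vale.Agent.P193.Full.Calc.Close

/-! The predicates of the core instance are closed under the generating graphs: domains, ranges
and images of the sets of the atoms are Boolean combinations of such sets. -/

namespace Vale.Agent.P193.Core.Inst

open Calc Facts

open Classical

set_option linter.unusedSectionVars false

variable {d : Data} [DecidableEq d.M.A]

/-- The Boolean combinations of the sets of the predicates. -/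
inductive DefK : Set (Point d) → Prop
  | full : DefK Set.univ
  | var (A : Kappa d) : DefK (kset A)
  | inter {a b : Set (Point d)} : DefK a → DefK b → DefK (a ∩ b)
  | diff {a b : Set (Point d)} : DefK a → DefK b → DefK (a \ b)

theorem DefK.atom {A : Atom d} (hA : A.Ok) : DefK A.set := .var ⟨A, hA⟩

theorem DefK.empty : DefK (∅ : Set (Point d)) := by
  have h := DefK.diff (DefK.full (d := d)) DefK.full
  simpa using h

theorem DefK.union {a b : Set (Point d)} (ha : DefK a) (hb : DefK b) : DefK (a ∪ b) := by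
  have e : a ∪ b = Set.univ \ ((Set.univ \ a) ∩ (Set.univ \ b)) := by
    ext x; simp [or_iff_not_imp_left]
  rw [e]
  exact .diff .full (.inter (.diff .full ha) (.diff .full hb))

theorem DefK.iUnion {ι : Type*} [Finite ι] {f : ι → Set (Point d)} (h : ∀ i, DefK (f i)) :
    DefK (⋃ i, f i) := by
  have := Fintype.ofFinite ι
  have key : ∀ s : Finset ι, DefK (⋃ i ∈ s, f i) := fun s => by
    induction s using Finset.cons_induction with
    | empty => simpa using DefK.empty
    | cons a s _ ih => simpa using (h a).union ih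
  simpa using key Finset.univ

/-! ### Images under graphs -/

section
variable {S : Type}

theorem isPB_ginv {m : Set (S × S)} (hp : IsPB m) : IsPB (ginv m) :=
  ⟨fun x y z h1 h2 => hp.2 y z x h1 h2, fun x y z h1 h2 => hp.1 z x y h1 h2⟩

theorem gimg_sdiff {m : Set (S × S)} (hm : IsPB m) (a b : Set S) :
    gimg m (a \ b) = gimg m a \ gimg m b := by
  ext t
  constructor
  · rintro ⟨s, ⟨ha, hb⟩, h⟩
    exact ⟨⟨s, ha, h⟩, fun ⟨s', hs', h'⟩ => hb (hm.2 _ _ _ h' h ▸ hs')⟩
  · rintro ⟨⟨s, ha, h⟩, hb⟩
    exact ⟨s, ⟨ha, fun hs => hb ⟨s, hs, h⟩⟩, h⟩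

theorem gimg_iUnion {ι : Sort*} (m : Set (S × S)) (f : ι → Set S) :
    gimg m (⋃ i, f i) = ⋃ i, gimg m (f i) := by
  ext t
  simp only [mem_gimg, Set.mem_iUnion]
  exact ⟨fun ⟨s, ⟨i, hi⟩, h⟩ => ⟨i, s, hi, h⟩, fun ⟨i, s, hi, h⟩ => ⟨s, ⟨i, hi⟩, h⟩⟩

theorem gimg_subset_gran (m : Set (S × S)) (a : Set S) : gimg m a ⊆ gran m :=
  fun _ ⟨s, _, hm⟩ => ⟨s, hm⟩

theorem gimg_eq_empty {m : Set (S × S)} {a : Set S} (h : ∀ x ∈ a, x ∉ gdom m) :
    gimg m a = ∅ :=
  Set.eq_empty_iff_forall_notMem.2 fun t ⟨s, hs, hm⟩ => h s hs ⟨t, hm⟩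

theorem gimg_inter_dom {m : Set (S × S)} {a D : Set S} (h : gdom m ⊆ D) :
    gimg m a = gimg m (a ∩ D) :=
  Set.Subset.antisymm (fun t ⟨s, hs, hm⟩ => ⟨s, ⟨hs, h ⟨t, hm⟩⟩, hm⟩)
    (fun _ ⟨s, hs, hm⟩ => ⟨s, hs.1, hm⟩)

theorem gimg_eq_gran {m : Set (S × S)} {a : Set S} (h : gdom m ⊆ a) : gimg m a = gran m :=
  Set.Subset.antisymm (gimg_subset_gran m a) fun t ⟨s, hm⟩ => ⟨s, h ⟨t, hm⟩, hm⟩

/-- A set pushed forward along a graph and pulled back again. -/
theorem gimg_ginv_gimg {m : Set (S × S)} (hm : IsPB m) (a : Set S) :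
    gimg (ginv m) (gimg m a) = gdom m ∩ a :=
  gimg_preimage (m := ginv m) (isPB_ginv hm) a

theorem gimg_ginv_comm {m T : Set (S × S)} (h : gcomp m T = gcomp T m) (a : Set S) :
    gimg (ginv m) (gimg (ginv T) a) = gimg (ginv T) (gimg (ginv m) a) := by
  have e : gcomp (ginv T) (ginv m) = gcomp (ginv m) (ginv T) := by
    ext ⟨x, y⟩
    constructor
    · rintro ⟨z, h1, h2⟩
      obtain ⟨z', h3, h4⟩ : (y, x) ∈ gcomp T m := h ▸ ⟨z, h2, h1⟩
      exact ⟨z', h4, h3⟩
    · rintro ⟨z, h1, h2⟩
      obtain ⟨z', h3, h4⟩ : (y, x) ∈ gcomp m T := h.symm ▸ ⟨z, h2, h1⟩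
      exact ⟨z', h4, h3⟩
  rw [← gimg_comp, e, gimg_comp]

end

/-! ### Translations and paths -/

theorem gimg_hT_one (X : Set (Point d)) : gimg (hT (1 : Outer d)) X = X := by
  rw [hT_one, gimg_gid, Set.inter_univ]

theorem gimg_gT_one (X : Set (Point d)) : gimg (gT (1 : Inner d)) X = X := by
  rw [gT_one, gimg_gid, Set.inter_univ]

theorem gimg_hT_hT (s t : Outer d) (X : Set (Point d)) :
    gimg (hT t) (gimg (hT s) X) = gimg (hT (s * t)) X := by
  rw [← gimg_comp, hT_mul]

theorem gimg_gT_gT (s t : Inner d) (X : Set (Point d)) :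
    gimg (gT t) (gimg (gT s) X) = gimg (gT (s * t)) X := by
  rw [← gimg_comp, gT_mul]

theorem gimg_gT_hT (s : Outer d) (t : Inner d) (X : Set (Point d)) :
    gimg (gT t) (gimg (hT s) X) = gimg (hT s) (gimg (gT t) X) := by
  rw [← gimg_comp, hT_gT_comm, gimg_comp]

/-- A set moved by the translations and then along a path. -/
def moved (π : List (OEdge d)) (k : Outer d) (m : Inner d) (X : Set (Point d)) : Set (Point d) :=
  pathImg π (gimg (hT k) (gimg (gT m) X))

theorem Atom.set_base (π : List (OEdge d)) (k : Outer d) (m : Inner d) (B : Base d) :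
    (Atom.base π k m B).set = moved π k m B.set := rfl

theorem Atom.set_push (π : List (OEdge d)) (k : Outer d) (m : Inner d) (p : Push) (A : Atom d) :
    (Atom.push π k m p A).set = moved π k m (gimg p.graph A.set) := rfl

theorem pathImg_cons (e : OEdge d) (π : List (OEdge d)) (X : Set (Point d)) :
    pathImg (e :: π) X = gimg (edgeG e.1 e.2) (pathImg π X) := rfl

theorem moved_cons (e : OEdge d) (π : List (OEdge d)) (k : Outer d) (m : Inner d)
    (X : Set (Point d)) : moved (e :: π) k m X = gimg (edgeG e.1 e.2) (moved π k m X) := rfl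

theorem moved_one (X : Set (Point d)) : moved [] 1 1 X = X := by
  show gimg (hT 1) (gimg (gT 1) X) = X
  rw [gimg_gT_one, gimg_hT_one]

theorem hT_pathImg (t : Outer d) (π : List (OEdge d)) (X : Set (Point d)) :
    gimg (hT t) (pathImg π X) = pathImg π (gimg (hT t) X) := by
  induction π with
  | nil => rfl
  | cons e π ih => rw [pathImg_cons, pathImg_cons, ← ih, ← gimg_comp, edgeG_hT_comm, gimg_comp]

theorem gT_pathImg (t : Inner d) (π : List (OEdge d)) (X : Set (Point d)) :
    gimg (gT t) (pathImg π X) = pathImg π (gimg (gT t) X) := by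
  induction π with
  | nil => rfl
  | cons e π ih => rw [pathImg_cons, pathImg_cons, ← ih, ← gimg_comp, edgeG_gT_comm, gimg_comp]

theorem hT_moved (t : Outer d) (π : List (OEdge d)) (k : Outer d) (m : Inner d)
    (X : Set (Point d)) : gimg (hT t) (moved π k m X) = moved π (k * t) m X := by
  rw [moved, hT_pathImg, gimg_hT_hT]; rfl

theorem gT_moved (t : Inner d) (π : List (OEdge d)) (k : Outer d) (m : Inner d)
    (X : Set (Point d)) : gimg (gT t) (moved π k m X) = moved π k (m * t) X := by
  rw [moved, gT_pathImg, gimg_gT_hT, gimg_gT_gT]; rfl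

theorem mem_moved_nil {k : Outer d} {m : Inner d} {X : Set (Point d)} {x : Point d} :
    x ∈ moved [] k m X ↔ { x with g := x.g * m⁻¹, h := x.h * k⁻¹ } ∈ X := by
  show x ∈ gimg (hT k) (gimg (gT m) X) ↔ _
  rw [mem_gimg_hT, mem_gimg_gT]

theorem moved_atS (π : List (OEdge d)) (k : Outer d) (m : Inner d) {X : Set (Point d)}
    {c : State d} (hX : X ⊆ atS c) : moved π k m X ⊆ atS (top π c) := by
  cases π with
  | nil =>
    intro x hx
    have h := hX (mem_moved_nil.1 hx)
    exact h
  | cons e π =>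
    rw [moved_cons]
    exact (gimg_subset_gran _ _).trans ((gran_edgeG e.1 e.2).trans_subset (edgeS_subset e.1))

theorem moved_tagIs (π : List (OEdge d)) (k : Outer d) (m : Inner d) {X : Set (Point d)}
    {b : Bool} (hX : X ⊆ tagIs b) : moved π k m X ⊆ tagIs b := by
  induction π with
  | nil =>
    intro x hx
    have h := hX (mem_moved_nil.1 hx)
    exact h
  | cons e π ih =>
    rw [moved_cons]
    rintro _ ⟨y, hy, σ, b', w, g, h, rfl, rfl⟩
    have h' := ih hy
    exact h'

theorem Push.gran_sub_fin : ∀ q : Push,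
    gran q.graph ⊆ (atS .fin ∩ hOneS ∩ tagIs q.tag : Set (Point d))
  | .theta => by
    rintro x ⟨y, h⟩
    have h' : x = _ := h
    rw [h']; exact ⟨⟨rfl, rfl⟩, rfl⟩
  | .omC => by rintro x ⟨y, s, σ, c, g, h, -, rfl⟩; exact ⟨⟨rfl, rfl⟩, rfl⟩
  | .omD => by rintro x ⟨y, s, σ, c, g, h, -, rfl⟩; exact ⟨⟨rfl, rfl⟩, rfl⟩
  | .omK => by rintro x ⟨y, σ, c, g, h, -, rfl⟩; exact ⟨⟨rfl, rfl⟩, rfl⟩
  | .tMap => by rintro x ⟨y, c, g, -, rfl⟩; exact ⟨⟨rfl, rfl⟩, rfl⟩

/-- The set of an atom lies at its state and tag. -/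
theorem Atom.set_sub_stTag (A : Atom d) : A.set ⊆ atS A.st ∩ tagIs A.tag := by
  cases A with
  | base π k m B =>
    rw [Atom.set_base]
    exact Set.subset_inter (moved_atS π k m fun x hx => hx.1.1)
      (moved_tagIs π k m fun x hx => hx.1.2)
  | push π k m p A =>
    rw [Atom.set_push]
    have h := (gimg_subset_gran p.graph A.set).trans (Push.gran_sub_fin p)
    exact Set.subset_inter (moved_atS π k m fun x hx => (h hx).1.1)
      (moved_tagIs π k m fun x hx => (h hx).2)

/-! ### Boolean combinations that need no maps -/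

theorem defK_base (B : Base d) : DefK B.set := by
  have h : DefK (Atom.base [] 1 1 B).set := .atom (show Chain [] B.s from trivial)
  rwa [Atom.set_base, moved_one] at h

theorem defK_pred (p : Pred d) : DefK p.set := by
  have := finite_state (d := d)
  have e : p.set = ⋃ q : State d × Bool, Base.set ⟨q.1, q.2, p⟩ := by
    ext x
    simp only [Set.mem_iUnion]
    exact ⟨fun hx => ⟨(x.st, x.tag), ⟨rfl, rfl⟩, hx⟩, fun ⟨_, _, hx⟩ => hx⟩
  rw [e]
  exact .iUnion fun q => defK_base _

theorem defK_atS (s : State d) : DefK (atS s) := by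
  have e : atS s = ⋃ b : Bool, Base.set ⟨s, b, .full⟩ := by
    ext x
    simp only [Set.mem_iUnion]
    exact ⟨fun hx => ⟨x.tag, ⟨hx, rfl⟩, trivial⟩, fun ⟨_, ⟨hx, _⟩, _⟩ => hx⟩
  rw [e]
  exact .iUnion fun b => defK_base _

theorem defK_tagIs (b : Bool) : DefK (tagIs (d := d) b) := by
  have := finite_state (d := d)
  have e : tagIs b = ⋃ s : State d, Base.set ⟨s, b, .full⟩ := by
    ext x
    simp only [Set.mem_iUnion]
    exact ⟨fun hx => ⟨x.st, ⟨rfl, hx⟩, trivial⟩, fun ⟨_, ⟨_, hx⟩, _⟩ => hx⟩
  rw [e]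
  exact .iUnion fun s => defK_base _

theorem defK_tagS : DefK (tagS (d := d)) := defK_tagIs true

theorem defK_tagS_compl : DefK (tagSᶜ : Set (Point d)) := by
  have e : (tagSᶜ : Set (Point d)) = Set.univ \ tagS := by ext x; simp
  rw [e]
  exact .diff .full defK_tagS

theorem defK_hOneS : DefK (hOneS : Set (Point d)) := defK_pred .hOne
theorem defK_zOneS : DefK (zOneS : Set (Point d)) := defK_pred .zOne
theorem defK_zFrontS (s : Ltr d × Bool) : DefK (zFrontS s) := defK_pred (.zFront s)
theorem defK_cleanS : DefK (cleanS : Set (Point d)) := defK_pred .clean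
theorem defK_gOneS : DefK (gOneS : Set (Point d)) := defK_pred .gOne
theorem defK_kOneS : DefK (kOneS : Set (Point d)) := defK_pred .kSet

/-! ### Closure under one graph -/

/-- The images of the atoms under a graph are Boolean combinations of atoms. -/
def Img (γ : Set (Point d × Point d)) : Prop := ∀ A : Atom d, A.Ok → DefK (gimg γ A.set)

theorem Img.univ {γ : Set (Point d × Point d)} (hγ : Img γ) : DefK (gimg γ Set.univ) := by
  have := finite_state (d := d)
  have e : (Set.univ : Set (Point d)) =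
      ⋃ q : State d × Bool, (Atom.base [] 1 1 ⟨q.1, q.2, .full⟩ : Atom d).set := by
    ext x
    simp only [Set.mem_univ, Set.mem_iUnion, true_iff, Atom.set_base, moved_one]
    exact ⟨(x.st, x.tag), ⟨rfl, rfl⟩, trivial⟩
  rw [e, gimg_iUnion]
  exact .iUnion fun q => hγ _ (show Chain [] q.1 from trivial)

theorem DefK.gimg {γ : Set (Point d × Point d)} (hp : IsPB γ) (hγ : Img γ) {X : Set (Point d)}
    (hX : DefK X) : DefK (Facts.gimg γ X) := by
  induction hX with
  | full => exact hγ.univ
  | var A => exact hγ A.1 A.2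
  | inter _ _ ha hb => rw [gimg_inter hp]; exact .inter ha hb
  | diff _ _ ha hb => rw [gimg_sdiff hp]; exact .diff ha hb

theorem img_gid {a : Set (Point d)} (ha : DefK a) : Img (gid a) := fun A hA => by
  rw [gimg_gid]; exact .inter (.atom hA) ha

theorem ginv_gid (a : Set (Point d)) : ginv (gid a) = gid a := by
  ext ⟨x, y⟩
  constructor
  · rintro ⟨h1, h2⟩
    simp only at h1 h2
    subst h1; exact ⟨rfl, h2⟩
  · rintro ⟨h1, h2⟩
    simp only at h1 h2
    subst h1; exact ⟨rfl, h2⟩

theorem img_hT (t : Outer d) : Img (hT t) := by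
  intro A hA
  cases A with
  | base π k m B => rw [Atom.set_base, hT_moved, ← Atom.set_base]; exact .atom hA
  | push π k m p A => rw [Atom.set_push, hT_moved, ← Atom.set_push]; exact .atom hA

theorem img_gT (t : Inner d) : Img (gT t) := by
  intro A hA
  cases A with
  | base π k m B => rw [Atom.set_base, gT_moved, ← Atom.set_base]; exact .atom hA
  | push π k m p A => rw [Atom.set_push, gT_moved, ← Atom.set_push]; exact .atom hA

theorem DefK.hT {X : Set (Point d)} (hX : DefK X) (t : Outer d) :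
    DefK (Facts.gimg (Facts.hT t) X) := hX.gimg (isPB_hT t) (img_hT t)

theorem DefK.gT {X : Set (Point d)} (hX : DefK X) (t : Inner d) :
    DefK (Facts.gimg (Facts.gT t) X) := hX.gimg (isPB_gT t) (img_gT t)

theorem defK_hS (t : Outer d) : DefK (hS t) := by
  have h := defK_hOneS.hT t
  rwa [← hS_one, hT_img_hS, one_mul] at h

theorem defK_gS (k : Inner d) : DefK (gS k) := by
  have h := defK_gOneS.gT k
  rwa [← gS_one, gT_img_gS, one_mul] at h

theorem defK_kS (k : Inner d) : DefK (kS k) := by
  have h := defK_kOneS.gT k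
  rwa [← kS_one, gT_img_kS, one_mul] at h

/-! ### Edges -/

theorem img_edgeG (e : Edge d) (he : e.OK) : Img (edgeG e he) := by
  intro A hA
  by_cases hs : e.tgt = A.st
  · cases A with
    | base π k m B =>
      have h : DefK (Atom.base (⟨e, he⟩ :: π) k m B).set := .atom ⟨hs, hA⟩
      exact h
    | push π k m p A =>
      obtain ⟨h1, h2⟩ := hA
      have h : DefK (Atom.push (⟨e, he⟩ :: π) k m p A).set := .atom ⟨⟨hs, h1⟩, h2⟩
      exact h
  · have h : ∀ x ∈ A.set, x ∉ gdom (edgeG e he) := fun x hx hd =>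
      hs (((gdom_edgeG e he).subset hd : x.st = e.tgt).symm.trans (A.set_sub_stTag hx).1)
    rw [gimg_eq_empty h]
    exact .empty

theorem DefK.edge {X : Set (Point d)} (hX : DefK X) (e : Edge d) (he : e.OK) :
    DefK (Facts.gimg (edgeG e he) X) := hX.gimg (isPB_edgeG e he) (img_edgeG e he)

theorem defK_edge_pre_pred (e : Edge d) (he : e.OK) (p : Pred d) :
    DefK (gimg (ginv (edgeG e he)) p.set) := by
  have hp := isPB_ginv (isPB_edgeG e he)
  have hh : DefK (gimg (ginv (edgeG e he)) hOneS) := by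
    rw [← hS_one, edge_pre_hS]; exact .inter (defK_atS _) (defK_hS _)
  have hg : DefK (gimg (ginv (edgeG e he)) gOneS) := by
    rw [← gS_one, edge_pre_gS]; exact .inter (defK_atS _) (defK_gS _)
  cases p with
  | full =>
    show DefK (gimg _ Set.univ)
    rw [gimg_univ]
    show DefK (gdom (edgeG e he))
    rw [gdom_edgeG]; exact defK_atS _
  | hOne => exact hh
  | zOne =>
    show DefK (gimg _ zOneS)
    rw [← zS_one, edge_pre_zS, zS_one]; exact .inter (defK_atS _) defK_zOneS
  | zFront s =>
    show DefK (gimg _ (zFrontS s))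
    rw [edge_pre_zFrontS]; exact .inter (defK_atS _) (defK_zFrontS s)
  | clean =>
    show DefK (gimg _ cleanS)
    by_cases hs : e.src = .guess
    · cases hk : e.kind with
      | letter j =>
        obtain rfl := edge_letter_eq he hk
        rw [edge_pre_cleanS_letter]; exact .inter (defK_atS _) defK_cleanS
      | junk => rw [edge_pre_cleanS_junk he hk]; exact .empty
      | other => rw [edge_pre_cleanS_other he hs hk]; exact defK_atS _
    · rw [edge_pre_cleanS_ne he hs]; exact .empty
  | gOne => exact hg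
  | kSet =>
    show DefK (gimg _ kOneS)
    rw [← kS_one]
    by_cases hs : e.src = .guess
    · by_cases hk : ∃ j, e.kind = .letter j
      · obtain ⟨j, hk⟩ := hk
        obtain rfl := edge_letter_eq he hk
        rw [edge_pre_kS_letter]; exact .inter (defK_atS _) (defK_kS _)
      · rw [edge_pre_kS_other he hs (fun j h => hk ⟨j, h⟩)]
        exact .inter (defK_atS _) (defK_gS _)
    · rw [edge_pre_kS_ne he hs]; exact .empty
  | gHOne =>
    show DefK (gimg _ (gOneS ∩ hOneS))
    rw [gimg_inter hp]; exact .inter hg hh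

theorem defK_edge_pre_base (e : Edge d) (he : e.OK) (B : Base d) :
    DefK (gimg (ginv (edgeG e he)) B.set) := by
  have hp := isPB_ginv (isPB_edgeG e he)
  have hs : DefK (gimg (ginv (edgeG e he)) (atS B.s)) := by
    by_cases hs : e.src = B.s
    · rw [← hs, edge_pre_atS_src]; exact defK_atS _
    · rw [edge_pre_atS_ne he hs]; exact .empty
  have hb : DefK (gimg (ginv (edgeG e he)) (tagIs B.b)) := by
    rw [edge_pre he (C := tagIs B.b) fun _ _ _ _ _ => Iff.rfl]
    exact .inter (defK_atS _) (defK_tagIs _)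
  rw [Base.set, gimg_inter hp, gimg_inter hp]
  exact .inter (.inter hs hb) (defK_edge_pre_pred e he B.p)

theorem edge_inv_hT (e : Edge d) (he : e.OK) (k : Outer d) (X : Set (Point d)) :
    gimg (ginv (edgeG e he)) (gimg (hT k) X) = gimg (hT k) (gimg (ginv (edgeG e he)) X) := by
  have h := gimg_ginv_comm (edgeG_hT_comm e he k⁻¹) X
  rwa [hT_inv, inv_inv] at h

theorem edge_inv_gT (e : Edge d) (he : e.OK) (m : Inner d) (X : Set (Point d)) :
    gimg (ginv (edgeG e he)) (gimg (gT m) X) = gimg (gT m) (gimg (ginv (edgeG e he)) X) := by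
  have h := gimg_ginv_comm (edgeG_gT_comm e he m⁻¹) X
  rwa [gT_inv, inv_inv] at h

/-- Pulling a set moved along a path back along an edge. -/
theorem defK_edge_inv_moved (e : Edge d) (he : e.OK) {π : List (OEdge d)} {c : State d}
    (hc : Chain π c) (k : Outer d) (m : Inner d) {X : Set (Point d)}
    (hnil : DefK (gimg (ginv (edgeG e he)) X))
    (htail : ∀ π', Chain π' c → DefK (moved π' k m X)) :
    DefK (gimg (ginv (edgeG e he)) (moved π k m X)) := by
  cases π with
  | nil =>
    show DefK (gimg _ (gimg (hT k) (gimg (gT m) X)))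
    rw [edge_inv_hT, edge_inv_gT]
    exact (hnil.gT m).hT k
  | cons e' π =>
    rw [moved_cons]
    by_cases h : e'.1 = e
    · subst h
      rw [gimg_ginv_gimg (isPB_edgeG _ _), gdom_edgeG]
      exact .inter (defK_atS _) (htail π hc.2)
    · have h' : ∀ x ∈ gimg (edgeG e'.1 e'.2) (moved π k m X), x ∉ gdom (ginv (edgeG e he)) :=
        fun x hx hd => Set.disjoint_left.1 (edgeS_disjoint h)
          ((gran_edgeG e'.1 e'.2).subset (gimg_subset_gran _ _ hx))
          ((gran_edgeG e he).subset hd)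
      rw [gimg_eq_empty h']
      exact .empty

theorem img_edgeG_inv (e : Edge d) (he : e.OK) : Img (ginv (edgeG e he)) := by
  intro A hA
  cases A with
  | base π k m B =>
    rw [Atom.set_base]
    refine defK_edge_inv_moved e he hA k m (defK_edge_pre_base e he B) ?_
    intro π' hπ
    exact DefK.atom (A := .base π' k m B) hπ
  | push π k m p A =>
    obtain ⟨h1, h2⟩ := hA
    rw [Atom.set_push]
    have hfin : ∀ x ∈ gimg p.graph A.set, x.st = .fin :=
      fun x hx => ((Push.gran_sub_fin p) (gimg_subset_gran _ _ hx)).1.1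
    refine defK_edge_inv_moved e he h1 k m ?_ ?_
    · have h' : ∀ x ∈ gimg p.graph A.set, x ∉ gdom (ginv (edgeG e he)) := fun x hx hd =>
        Path.src_ne_fin he
          ((edgeS_subset e ((gran_edgeG e he).subset hd)).symm.trans (hfin x hx))
      rw [gimg_eq_empty h']
      exact .empty
    · intro π' hπ
      exact DefK.atom (A := .push π' k m p A) ⟨hπ, h2⟩

/-! ### Guessed-value maps -/

theorem uG_inv_img_of (j : Fin 3) {B : Set (Point d)}
    (hB : ∀ (x : Point d) (g : Inner d), { x with g := g } ∈ B ↔ x ∈ B) :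
    gimg (ginv (uG j)) B = atS .guess ∩ tagS ∩ B := by
  ext x
  constructor
  · rintro ⟨y, hy, h1, h2, h3⟩
    simp only at h3 h1 h2
    subst h3
    exact ⟨⟨h1, h2⟩, (hB x _).1 hy⟩
  · rintro ⟨⟨h1, h2⟩, hx⟩
    exact ⟨_, (hB x _).2 hx, uG_apply j h1 h2⟩

theorem edge_uG_inv_letter (i : Fin d.n) (j : Fin 3) (Y : Set (Point d)) :
    gimg (ginv (uG j)) (gimg (edgeG (letterE i) (letterE_ok i)) Y) =
      gimg (edgeG (letterE i) (letterE_ok i))
        (gimg (gT (proj j (d.gen i))⁻¹) (gimg (ginv (uG j)) Y)) := by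
  have key : ∀ σ : Path d .guess, proj j (guessVal d (.cons _ (letterE_ok i) σ)) =
      proj j (d.gen i) * proj j (guessVal d σ) := fun σ => proj_mul j _ _
  ext x
  constructor
  · rintro ⟨y, ⟨z, hz, σ, b, w, g, h, rfl, rfl⟩, h1, h2, h3⟩
    obtain ⟨st, τ, b', w', g', h'⟩ := x
    simp only [Point.mk.injEq] at h3
    obtain ⟨rfl, h4, rfl, h5, h6, rfl⟩ := h3
    obtain rfl := eq_of_heq h4
    obtain rfl := eq_of_heq h5
    simp only at h2
    refine ⟨⟨_, σ, b, w, g', h⟩,
      ⟨⟨_, σ, b, w, g' * proj j (d.gen i), h⟩, ⟨⟨_, σ, b, w, g, h⟩, hz, rfl, h2, ?_⟩, ?_⟩,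
      σ, b, w, g', h, rfl, rfl⟩
    · rw [h6, key σ]
      simp [mul_assoc]
      rfl
    · simp [gT]
  · rintro ⟨z, ⟨z', ⟨y, hy, h1, h2, h3⟩, h4⟩, σ, b, w, g, h, rfl, rfl⟩
    simp only [gT, Set.mem_ofPred_eq] at h4
    obtain ⟨st, τ, b', w', g', h'⟩ := z'
    simp only [Point.mk.injEq] at h4
    obtain ⟨rfl, h5, rfl, h6, rfl, rfl⟩ := h4
    obtain rfl := eq_of_heq h5
    obtain rfl := eq_of_heq h6
    simp only at h2 h3
    subst h3
    refine ⟨_, ⟨_, hy, σ, b, w, g' * proj j (guessVal d σ), h, rfl, rfl⟩, rfl, h2, ?_⟩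
    simp only [Point.mk.injEq, heq_eq_eq, and_true, true_and, mul_assoc]
    exact (congrArg (g' * ·) ((congrArg ((proj j (d.gen i))⁻¹ * ·) (key σ)).trans
      (inv_mul_cancel_left _ _))).symm

theorem edge_uG_inv_other {e : Edge d} (he : e.OK) (hs : e.src = .guess)
    (hk : ∀ i, e.kind ≠ .letter i) (j : Fin 3) (Y : Set (Point d)) :
    gimg (ginv (uG j)) (gimg (edgeG e he) Y) = gimg (edgeG e he) (Y ∩ tagS) := by
  ext x
  constructor
  · rintro ⟨y, ⟨z, hz, σ, b, w, g, h, rfl, rfl⟩, h1, h2, h3⟩
    obtain ⟨st, τ, b', w', g', h'⟩ := x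
    simp only [Point.mk.injEq] at h3
    obtain ⟨rfl, h4, rfl, h5, h6, rfl⟩ := h3
    obtain rfl := eq_of_heq h4
    obtain rfl := eq_of_heq h5
    simp only [guessVal_cons_not_letter he hk, proj_one, mul_one] at h6
    subst h6
    exact ⟨_, ⟨hz, h2⟩, σ, b, w, g, h, rfl, rfl⟩
  · rintro ⟨z, ⟨hz, hb⟩, σ, b, w, g, h, rfl, rfl⟩
    refine ⟨_, ⟨_, hz, σ, b, w, g, h, rfl, rfl⟩, hs, hb, ?_⟩
    simp [guessVal_cons_not_letter he hk, proj_one]

/-- A base at the tag without point predicate does not look at the inner coordinate. -/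
theorem Base.set_g {B : Base d} (hb : B.b = true) (x : Point d) (g : Inner d) :
    ({ x with g := g } : Point d) ∈ B.set ↔ x ∈ B.set := by
  obtain ⟨s, b, p⟩ := B
  simp only at hb
  subst hb
  cases p with
  | gOne =>
    constructor <;> rintro ⟨⟨-, h⟩, h', -⟩ <;> exact Bool.noConfusion (h.symm.trans h')
  | kSet =>
    constructor <;> rintro ⟨⟨-, h⟩, h', -⟩ <;> exact Bool.noConfusion (h.symm.trans h')
  | gHOne =>
    constructor <;> rintro ⟨⟨-, h⟩, ⟨h', -⟩, -⟩ <;> exact Bool.noConfusion (h.symm.trans h')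
  | _ => exact Iff.rfl

theorem moved_nil_g {B : Base d} (hb : B.b = true) (k : Outer d) (m : Inner d) (x : Point d)
    (g : Inner d) :
    ({ x with g := g } : Point d) ∈ moved [] k m B.set ↔ x ∈ moved [] k m B.set := by
  rw [mem_moved_nil, mem_moved_nil]
  exact Base.set_g hb { x with g := x.g * m⁻¹, h := x.h * k⁻¹ } _

/-- The images of a moved set under a guessed-value map, from those at the empty path. -/
theorem defK_uG_moved (j : Fin 3) {c : State d} {X : Set (Point d)}
    (hnil : ∀ (k : Outer d) (m : Inner d), DefK (gimg (uG j) (moved [] k m X)) ∧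
      DefK (gimg (ginv (uG j)) (moved [] k m X)))
    (hatom : ∀ π, Chain π c → ∀ (k : Outer d) (m : Inner d), DefK (moved π k m X)) :
    ∀ (π : List (OEdge d)), Chain π c → ∀ (k : Outer d) (m : Inner d),
      DefK (gimg (uG j) (moved π k m X)) ∧ DefK (gimg (ginv (uG j)) (moved π k m X)) := by
  intro π
  induction π with
  | nil => exact fun _ => hnil
  | cons e π ih =>
    intro hc k m
    obtain ⟨e, he⟩ := e
    rw [moved_cons]
    by_cases hs : e.src = .guess
    · by_cases hk : ∃ i, e.kind = .letter i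
      · obtain ⟨i, hk⟩ := hk
        obtain rfl := edge_letter_eq he hk
        constructor
        · rw [← gimg_comp, edge_uG_letter, gimg_comp, gimg_comp, gT_moved]
          exact ((ih hc.2 k _).1).edge _ _
        · rw [edge_uG_inv_letter]
          exact (((ih hc.2 k m).2).gT _).edge _ _
      · have hk' : ∀ i, e.kind ≠ .letter i := fun i h => hk ⟨i, h⟩
        have h : DefK (moved π k m X ∩ tagS) := .inter (hatom π hc.2 k m) defK_tagS
        constructor
        · rw [← gimg_comp, edge_uG_other he hs hk', gimg_comp, gimg_gid]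
          exact h.edge e he
        · rw [edge_uG_inv_other he hs hk']
          exact h.edge e he
    · have h : ∀ x ∈ gimg (edgeG e he) (moved π k m X), x.st ≠ .guess := by
        rintro _ ⟨y, -, σ, b, w, g, h, rfl, rfl⟩
        exact hs
      rw [gimg_eq_empty fun x hx hd => h x hx ((gdom_uG j).subset hd).1,
        gimg_eq_empty fun x hx hd => h x hx ((gran_uG j).subset hd).1]
      exact ⟨.empty, .empty⟩

theorem img_uG_both (j : Fin 3) (A : Atom d) (hA : A.Ok) :
    DefK (gimg (uG j) A.set) ∧ DefK (gimg (ginv (uG j)) A.set) := by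
  cases A with
  | base π k m B =>
    refine defK_uG_moved j (fun k m => ?_)
      (fun π' h k m => DefK.atom (A := .base π' k m B) h) π hA k m
    by_cases hb : B.b = true
    · rw [uG_img_of j (moved_nil_g hb k m), uG_inv_img_of j (moved_nil_g hb k m)]
      have h : DefK (atS .guess ∩ tagS ∩ (Atom.base [] k m B).set) :=
        .inter (.inter (defK_atS _) defK_tagS) (.atom (show Chain [] B.s from trivial))
      exact ⟨h, h⟩
    · have h : ∀ x ∈ moved [] k m B.set, x.tag ≠ true := fun x hx hx' =>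
        hb ((moved_tagIs [] k m (fun y hy => hy.1.2) hx).symm.trans hx')
      rw [gimg_eq_empty fun x hx hd => h x hx ((gdom_uG j).subset hd).2,
        gimg_eq_empty fun x hx hd => h x hx ((gran_uG j).subset hd).2]
      exact ⟨.empty, .empty⟩
  | push π k m p A =>
    obtain ⟨h1, h2⟩ := hA
    refine defK_uG_moved j (fun k m => ?_)
      (fun π' h k m => DefK.atom (A := .push π' k m p A) ⟨h, h2⟩) π h1 k m
    have h : ∀ x ∈ moved [] k m (gimg p.graph A.set), x.st ≠ .guess := fun x hx hx' => by
      have h' : x.st = .fin :=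
        (Push.gran_sub_fin p (gimg_subset_gran _ _ (mem_moved_nil.1 hx))).1.1
      rw [hx'] at h'
      cases h'
    rw [gimg_eq_empty fun x hx hd => h x hx ((gdom_uG j).subset hd).1,
      gimg_eq_empty fun x hx hd => h x hx ((gran_uG j).subset hd).1]
    exact ⟨.empty, .empty⟩

theorem img_uG (j : Fin 3) : Img (uG (d := d) j) := fun A hA => (img_uG_both j A hA).1

theorem img_uG_inv (j : Fin 3) : Img (ginv (uG (d := d) j)) := fun A hA => (img_uG_both j A hA).2

/-! ### Pushes -/

theorem Push.isPB (hG : Good d) : ∀ q : Push, IsPB (q.graph (d := d))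
  | .theta => isPB_thetaG hG
  | .omC => isPB_omCG
  | .omD => isPB_omDG
  | .omK => isPB_omKG
  | .tMap => isPB_tG

/-- The exposed part of the final state at one tag. -/
def finS (b : Bool) : Set (Point d) := atS .fin ∩ hOneS ∩ tagIs b

theorem finS_eq (b : Bool) : finS (d := d) b = Base.set ⟨.fin, b, .hOne⟩ := by
  ext x
  exact ⟨fun ⟨⟨h1, h2⟩, h3⟩ => ⟨⟨h1, h3⟩, h2⟩, fun ⟨⟨h1, h3⟩, h2⟩ => ⟨⟨h1, h2⟩, h3⟩⟩

theorem gHOne_moved (m : Inner d) :
    gimg (gT m) (Base.set ⟨.fin, false, .gHOne⟩) = finS false ∩ gS m := by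
  have e : (Base.set ⟨.fin, false, .gHOne⟩ : Set (Point d)) = finS false ∩ gS 1 := by
    ext x
    exact ⟨fun ⟨⟨h1, h3⟩, h4, h2⟩ => ⟨⟨⟨h1, h2⟩, h3⟩, h4⟩,
      fun ⟨⟨⟨h1, h2⟩, h3⟩, h4⟩ => ⟨⟨h1, h3⟩, h4, h2⟩⟩
  have h : gimg (gT m) (finS (d := d) false) = finS false := gT_img_of m fun _ _ => Iff.rfl
  rw [e, gimg_inter (isPB_gT m), h, gT_img_gS, one_mul]

/-- On the exposed final state a moved base is empty, everything or one inner value. -/
theorem moved_fin_cases (k : Outer d) (m : Inner d) (b : Bool) (p : Pred d) :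
    moved [] k m (Base.set ⟨.fin, b, p⟩) ∩ finS b = ∅ ∨
    moved [] k m (Base.set ⟨.fin, b, p⟩) ∩ finS b = finS b ∨
    moved [] k m (Base.set ⟨.fin, b, p⟩) ∩ finS b = finS b ∩ gS m := by
  have key : (∃ c : Prop, ∀ x ∈ finS b, x ∈ moved [] k m (Base.set ⟨.fin, b, p⟩) ↔ c) ∨
      ∃ c : Prop, ∀ x ∈ finS b,
        x ∈ moved [] k m (Base.set ⟨.fin, b, p⟩) ↔ c ∧ x ∈ gS m := by
    have pre : ∀ x ∈ finS b, (x ∈ moved [] k m (Base.set ⟨.fin, b, p⟩) ↔
        ({ x with g := x.g * m⁻¹, h := k⁻¹ } : Point d) ∈ p.set) := by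
      rintro x ⟨⟨h1, h2⟩, h3⟩
      rw [mem_moved_nil, show x.h = 1 from h2, one_mul]
      exact ⟨fun h => h.2, fun h => ⟨⟨h1, h3⟩, h⟩⟩
    have hz : ∀ x ∈ finS b, zval d ({ x with g := x.g * m⁻¹, h := k⁻¹ } : Point d) =
        (k⁻¹).2.1⁻¹ * (k⁻¹).2.2 := by
      rintro ⟨st, σ, t, w, g, h⟩ ⟨⟨h1, -⟩, -⟩
      cases (show st = .fin from h1)
      simp [zval, path_fin σ, offset]
    have hg : ∀ x ∈ finS b, (({ x with g := x.g * m⁻¹, h := k⁻¹ } : Point d) ∈ gOneS ↔
        x ∈ gS m) := fun x _ =>
      ⟨fun h => ⟨h.1, mul_inv_eq_one.1 h.2⟩, fun h => ⟨h.1, mul_inv_eq_one.2 h.2⟩⟩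
    cases p with
    | full => exact .inl ⟨True, fun x hx => (pre x hx).trans ⟨fun _ => trivial, fun _ => trivial⟩⟩
    | hOne => exact .inl ⟨k⁻¹ = 1, fun x hx => (pre x hx).trans Iff.rfl⟩
    | zOne =>
      exact .inl ⟨(k⁻¹).2.1⁻¹ * (k⁻¹).2.2 = 1, fun x hx =>
        (pre x hx).trans (by simp only [Pred.set, zOneS, Set.mem_ofPred_eq, hz x hx])⟩
    | zFront s =>
      exact .inl ⟨((k⁻¹).2.1⁻¹ * (k⁻¹).2.2).toWord.head? = some s, fun x hx =>
        (pre x hx).trans (by simp only [Pred.set, zFrontS, Set.mem_ofPred_eq, hz x hx])⟩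
    | clean =>
      refine .inl ⟨False, fun x hx => (pre x hx).trans (iff_false_intro ?_)⟩
      rintro ⟨h, -⟩
      exact absurd ((show x.st = .guess from h).symm.trans hx.1.1) (by simp)
    | gOne =>
      exact .inr ⟨True, fun x hx => (pre x hx).trans ((hg x hx).trans ⟨fun h => ⟨trivial, h⟩, fun h => h.2⟩)⟩
    | kSet =>
      refine .inl ⟨False, fun x hx => (pre x hx).trans (iff_false_intro ?_)⟩
      rintro ⟨-, h, -⟩
      exact absurd ((show x.st = .guess from h).symm.trans hx.1.1) (by simp)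
    | gHOne =>
      exact .inr ⟨k⁻¹ = 1, fun x hx => (pre x hx).trans
        ⟨fun h => ⟨h.2, (hg x hx).1 h.1⟩, fun h => ⟨(hg x hx).2 h.2, h.1⟩⟩⟩
  rcases key with ⟨c, hc⟩ | ⟨c, hc⟩
  · by_cases h : c
    · exact .inr (.inl (Set.inter_eq_right.2 fun x hx => (hc x hx).2 h))
    · exact .inl (Set.eq_empty_iff_forall_notMem.2 fun x hx => h ((hc x hx.2).1 hx.1))
  · by_cases h : c
    · refine .inr (.inr (Set.ext fun x => ?_))
      exact ⟨fun hx => ⟨hx.2, ((hc x hx.2).1 hx.1).2⟩, fun hx => ⟨(hc x hx.1).2 ⟨h, hx.2⟩, hx.1⟩⟩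
    · exact .inl (Set.eq_empty_iff_forall_notMem.2 fun x hx => h ((hc x hx.2).1 hx.1).1)

theorem defK_gdom_push : ∀ q : Push, DefK (gdom (q.graph (d := d)))
  | .theta => by
    show DefK (gdom thetaG)
    rw [gdom_thetaG]; exact .full
  | .omC => by
    show DefK (gdom omCG)
    rw [gdom_omCG]; exact defK_tagS
  | .omD => by
    show DefK (gdom omDG)
    rw [gdom_omDG]; exact defK_tagS_compl
  | .omK => by
    show DefK (gdom omKG)
    rw [gdom_omKG]; exact (defK_atS _).inter defK_tagS_compl
  | .tMap => by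
    show DefK (gdom tG)
    rw [gdom_tG]; exact ((defK_atS _).inter defK_hOneS).inter defK_tagS_compl

theorem tag_of_not_tagS {x : Point d} (h : x ∈ tagSᶜ) : x.tag = false :=
  Bool.eq_false_iff.2 h

theorem defK_push_atom {q : Push} {A : Atom d} (hA : A.Ok) (hD : Atom.Dom q A) :
    DefK (gimg q.graph A.set) := by
  have h : DefK (Atom.push [] 1 1 q A).set := .atom ⟨trivial, hA, hD⟩
  rwa [Atom.set_push, moved_one] at h

theorem img_push (q : Push) : Img (q.graph (d := d)) := by
  intro A hA
  by_cases hD : Atom.Dom q A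
  · exact defK_push_atom hA hD
  have none : (∀ x ∈ A.set, x ∉ gdom q.graph) → DefK (gimg q.graph A.set) := fun h => by
    rw [gimg_eq_empty h]; exact .empty
  cases q with
  | theta => exact absurd trivial hD
  | omC =>
    refine none fun x hx hd => hD ?_
    exact (A.set_sub_stTag hx).2.symm.trans ((gdom_omCG (d := d)).subset hd : x ∈ tagS)
  | omD =>
    refine none fun x hx hd => hD ?_
    exact (A.set_sub_stTag hx).2.symm.trans (tag_of_not_tagS ((gdom_omDG (d := d)).subset hd))
  | omK =>
    refine none fun x hx hd => hD ?_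
    have hd' : x ∈ atS .guess ∩ tagSᶜ := (gdom_omKG (d := d)).subset hd
    exact ⟨(A.set_sub_stTag hx).2.symm.trans (tag_of_not_tagS hd'.2),
      (A.set_sub_stTag hx).1.symm.trans hd'.1⟩
  | tMap =>
    have hdom : gdom (Push.tMap.graph (d := d)) ⊆ finS false := fun x hd => by
      have hd' : x ∈ atS .fin ∩ hOneS ∩ tagSᶜ := (gdom_tG (d := d)).subset hd
      exact ⟨hd'.1, tag_of_not_tagS hd'.2⟩
    by_cases ht : A.tag = false
    · by_cases hs : A.st = .fin
      · cases A with
        | base π k m B =>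
          cases π with
          | cons e π => exact absurd hs (Path.src_ne_fin e.2)
          | nil =>
            obtain ⟨s, b, p⟩ := B
            obtain rfl : s = .fin := hs
            obtain rfl : b = false := ht
            rw [Atom.set_base, gimg_inter_dom hdom]
            rcases moved_fin_cases k m false p with h | h | h <;> rw [h]
            · rw [gimg_empty]; exact .empty
            · have h' := defK_push_atom (q := .tMap) (A := (Atom.base [] 1 1 ⟨.fin, false, .hOne⟩ : Atom d))
                trivial ⟨rfl, rfl, rfl, rfl, Or.inl rfl⟩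
              rwa [Atom.set_base, moved_one, ← finS_eq] at h'
            · have h' := defK_push_atom (q := .tMap) (A := (Atom.base [] 1 m ⟨.fin, false, .gHOne⟩ : Atom d))
                trivial ⟨rfl, rfl, rfl, rfl, Or.inr rfl⟩
              have e : moved [] 1 m (Base.set ⟨.fin, false, .gHOne⟩) =
                  finS (d := d) false ∩ gS m := (gimg_hT_one _).trans (gHOne_moved m)
              rwa [Atom.set_base, e] at h'
        | push π k m p A =>
          cases π with
          | cons e π => exact absurd hs (Path.src_ne_fin e.2)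
          | nil =>
            refine none fun x hx hd => hD ⟨ht, rfl, ?_⟩
            rw [Atom.set_push] at hx
            have h1 : x.h * k⁻¹ = 1 :=
              (Push.gran_sub_fin p (gimg_subset_gran _ _ (mem_moved_nil.1 hx))).1.2
            have h2 : x.h = 1 := (hdom hd).1.2
            rwa [h2, one_mul, inv_eq_one] at h1
      · exact none fun x hx hd => hs ((A.set_sub_stTag hx).1.symm.trans (hdom hd).1.1)
    · exact none fun x hx hd => ht ((A.set_sub_stTag hx).2.symm.trans (hdom hd).2)

/-- The push that made the top of a stack. -/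
def wkind : {b : Bool} → Wd d b → Option Push
  | _, .omC _ _ _ => some .omC
  | _, .tpush _ => some .tMap
  | _, .base => none
  | _, .theta _ _ _ _ => some .theta
  | _, .omD _ _ _ => some .omD
  | _, .omK _ _ _ => some .omK

theorem Push.wkind_gran : ∀ q : Push, gran q.graph ⊆ {x : Point d | wkind x.w = some q}
  | .theta => by
    rintro x ⟨y, h⟩
    have h' : x = _ := h
    rw [h']; rfl
  | .omC => by rintro x ⟨y, s, σ, c, g, h, -, rfl⟩; rfl
  | .omD => by rintro x ⟨y, s, σ, c, g, h, -, rfl⟩; rfl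
  | .omK => by rintro x ⟨y, σ, c, g, h, -, rfl⟩; rfl
  | .tMap => by rintro x ⟨y, c, g, -, rfl⟩; rfl

theorem gran_theta_g {x : Point d} (h : x ∈ gran (thetaG (d := d))) : x.g ∈ innerR d := by
  obtain ⟨y, h⟩ := h
  have h' : x = _ := h
  rw [h']
  exact ⟨y.h, rfl⟩

theorem defK_push_pre_gS (hG : Good d) (q : Push) (hq : q.tag = false) (m : Inner d) :
    DefK (gimg (ginv q.graph) (gS m)) := by
  cases q with
  | theta =>
    show DefK (gimg (ginv thetaG) (gS m))
    by_cases hm : m ∈ innerR d
    · obtain ⟨t, rfl⟩ := hm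
      rw [theta_pre_gS hG]; exact defK_hS t
    · rw [theta_pre_gS_out hm]; exact .empty
  | omC => cases hq
  | omD =>
    show DefK (gimg (ginv omDG) (gS m))
    rw [omD_pre_gS]; exact defK_gS m
  | omK =>
    show DefK (gimg (ginv omKG) (gS m))
    rw [omK_pre_gS]; exact defK_kS m
  | tMap => cases hq

/-- Pulling a translated push back. -/
theorem defK_push_pull (hG : Good d) (q : Push) {A : Atom d} (hA : A.Ok) (m : Inner d) :
    DefK (gimg (ginv q.graph) (gimg (gT m) (gimg q.graph A.set))) := by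
  have key : ∀ t, DefK (gdom q.graph ∩ gimg (gT t) A.set) := fun t =>
    (defK_gdom_push q).inter ((DefK.atom hA).gT t)
  cases q with
  | theta =>
    show DefK (gimg (ginv thetaG) (gimg (gT m) (gimg thetaG A.set)))
    by_cases hm : m ∈ innerR d
    · obtain ⟨t, rfl⟩ := hm
      rw [← gimg_comp thetaG, ← theta_equiv, gimg_comp, gimg_ginv_gimg (isPB_thetaG hG),
        gdom_thetaG]
      exact DefK.full.inter ((DefK.atom hA).hT t)
    · rw [gimg_eq_empty fun x hx hd => hm (by
        have h1 : x.g * m⁻¹ ∈ innerR d :=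
          gran_theta_g (gimg_subset_gran _ _ (mem_gimg_gT.1 hx))
        have h2 : x.g ∈ innerR d := gran_theta_g hd
        simpa using (innerR d).mul_mem ((innerR d).inv_mem h1) h2)]
      exact .empty
  | omC =>
    show DefK (gimg (ginv omCG) (gimg (gT m) (gimg omCG A.set)))
    rw [← gimg_comp omCG, omCG_gT_comm, gimg_comp, gimg_ginv_gimg isPB_omCG]
    exact key m
  | omD =>
    show DefK (gimg (ginv omDG) (gimg (gT m) (gimg omDG A.set)))
    rw [← gimg_comp omDG, omDG_gT_comm, gimg_comp, gimg_ginv_gimg isPB_omDG]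
    exact key m
  | omK =>
    show DefK (gimg (ginv omKG) (gimg (gT m) (gimg omKG A.set)))
    rw [← gimg_comp omKG, omKG_gT_comm, gimg_comp, gimg_ginv_gimg isPB_omKG]
    exact key m
  | tMap =>
    show DefK (gimg (ginv tG) (gimg (gT m) (gimg tG A.set)))
    rw [← gimg_comp tG, tG_gT_comm, gimg_comp, gimg_ginv_gimg isPB_tG]
    exact key m

theorem img_push_inv (hG : Good d) (q : Push) : Img (ginv (q.graph (d := d))) := by
  intro A hA
  have hdom : gdom (ginv (q.graph (d := d))) ⊆ finS q.tag := Push.gran_sub_fin q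
  have none : (∀ x ∈ A.set, x ∉ gdom (ginv q.graph)) →
      DefK (gimg (ginv q.graph) A.set) := fun h => by
    rw [gimg_eq_empty h]; exact .empty
  by_cases ht : A.tag = q.tag
  · by_cases hs : A.st = .fin
    · cases A with
      | base π k m B =>
        cases π with
        | cons e π => exact absurd hs (Path.src_ne_fin e.2)
        | nil =>
          obtain ⟨s, b, p⟩ := B
          obtain rfl : s = .fin := hs
          obtain rfl : b = q.tag := ht
          rw [Atom.set_base, gimg_inter_dom hdom]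
          rcases moved_fin_cases k m q.tag p with h | h | h <;> rw [h]
          · rw [gimg_empty]; exact .empty
          · rw [gimg_eq_gran hdom]
            exact defK_gdom_push q
          · cases hq : q.tag with
            | true =>
              rw [gimg_eq_empty fun x hx _ => Bool.noConfusion (hx.1.2.symm.trans hx.2.1)]
              exact .empty
            | false =>
              rw [gimg_inter (isPB_ginv (Push.isPB hG q)), gimg_eq_gran (hq ▸ hdom)]
              exact (defK_gdom_push q).inter (defK_push_pre_gS hG q hq m)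
      | push π k m p A =>
        cases π with
        | cons e π => exact absurd hs (Path.src_ne_fin e.2)
        | nil =>
          obtain ⟨-, hA', -⟩ := hA
          rw [Atom.set_push] at none ⊢
          by_cases hk : k = 1
          · subst hk
            by_cases hp : p = q
            · subst hp
              show DefK (gimg _ (gimg (hT 1) (gimg (gT m) (gimg p.graph A.set))))
              rw [gimg_hT_one]
              exact defK_push_pull hG p hA' m
            · refine none fun x hx hd => hp ?_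
              have h0 := mem_moved_nil.1 hx
              have h0' := Push.wkind_gran p (gimg_subset_gran _ _ h0)
              have h1 : wkind x.w = some p := h0'
              have h2 : wkind x.w = some q := Push.wkind_gran q hd
              exact Option.some.inj (h1.symm.trans h2)
          · refine none fun x hx hd => hk ?_
            have h1 : x.h * k⁻¹ = 1 :=
              (Push.gran_sub_fin p (gimg_subset_gran _ _ (mem_moved_nil.1 hx))).1.2
            have h2 : x.h = 1 := (hdom hd).1.2
            rwa [h2, one_mul, inv_eq_one] at h1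
    · exact none fun x hx hd => hs ((A.set_sub_stTag hx).1.symm.trans (hdom hd).1.1)
  · exact none fun x hx hd => ht ((A.set_sub_stTag hx).2.symm.trans (hdom hd).2)

/-! ### The generating family -/

theorem img_pair_gid {a : Set (Point d)} (ha : DefK a) :
    Img (gid a) ∧ Img (ginv (gid a)) :=
  ⟨img_gid ha, (ginv_gid a).symm ▸ img_gid ha⟩

theorem img_pair_hT (t : Outer d) : Img (hT t) ∧ Img (ginv (hT t)) :=
  ⟨img_hT t, (hT_inv t).symm ▸ img_hT t⁻¹⟩

theorem img_pair_gT (t : Inner d) : Img (gT t) ∧ Img (ginv (gT t)) :=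
  ⟨img_gT t, (gT_inv t).symm ▸ img_gT t⁻¹⟩

theorem img_gen (hG : Good d) {γ : Set (Point d × Point d)} (h : Gen d γ) :
    Img γ ∧ Img (ginv γ) := by
  cases h with
  | atState s => exact img_pair_gid (defK_atS s)
  | edge e he => exact ⟨img_edgeG e he, img_edgeG_inv e he⟩
  | outer₀ k _ => exact img_pair_hT (k, 1, 1)
  | outer₁ a => exact img_pair_hT (1, FreeGroup.of a, 1)
  | outer₂ a => exact img_pair_hT (1, 1, FreeGroup.of a)
  | inner i => exact img_pair_gT (d.gen i)
  | zOne => exact img_pair_gid defK_zOneS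
  | @zFront s inst =>
    rw [Subsingleton.elim inst instDecidableEqProd]
    exact img_pair_gid (defK_zFrontS s)
  | hOne => exact img_pair_gid defK_hOneS
  | tagC => exact img_pair_gid defK_tagS
  | cleanSet => exact img_pair_gid defK_cleanS
  | gOne => exact img_pair_gid defK_gOneS
  | kSet => exact img_pair_gid defK_kOneS
  | uMap₀ => exact ⟨img_uG 0, img_uG_inv 0⟩
  | uMap₁ => exact ⟨img_uG 1, img_uG_inv 1⟩
  | uMap₂ => exact ⟨img_uG 2, img_uG_inv 2⟩
  | theta => exact ⟨img_push .theta, img_push_inv hG .theta⟩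
  | omC => exact ⟨img_push .omC, img_push_inv hG .omC⟩
  | omD => exact ⟨img_push .omD, img_push_inv hG .omD⟩
  | omK => exact ⟨img_push .omK, img_push_inv hG .omK⟩
  | tMap => exact ⟨img_push .tMap, img_push_inv hG .tMap⟩

theorem img_genSet (hG : Good d) {γ : Set (Point d × Point d)} (h : γ ∈ genSet d) : Img γ := by
  rcases h with h | h
  · exact (img_gen hG h).1
  · exact (img_gen hG h).2

/-- Images of Boolean combinations under the graphs of the frame. -/
theorem defK_gimg (hG : Good d) {γ : Set (Point d × Point d)} (h : γ ∈ genSet d)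
    {X : Set (Point d)} (hX : DefK X) : DefK (gimg γ X) :=
  hX.gimg (isPB_genSet hG h) (img_genSet hG h)

theorem defK_gran (hG : Good d) {γ : Set (Point d × Point d)} (h : γ ∈ genSet d) :
    DefK (gran γ) := by
  rw [← gimg_univ]
  exact defK_gimg hG h .full

theorem defK_gdom (hG : Good d) {γ : Set (Point d × Point d)} (h : γ ∈ genSet d) :
    DefK (gdom γ) :=
  defK_gran (γ := ginv γ) hG (genSet_ginv h)

/-! ### Field systems on the predicates -/

section
variable {F : Calc.Frame (Point d)} (K : F.FieldSys)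

/-- Boolean combinations of the predicates are definable in a system having them. -/
theorem DefK.toDef (hk : ∀ A : Kappa d, ∃ i, K.set i = kset A) {X : Set (Point d)}
    (hX : DefK X) : K.Def X := by
  induction hX with
  | full => exact ⟨.full, rfl⟩
  | var A =>
    obtain ⟨i, hi⟩ := hk A
    exact ⟨.var i, hi⟩
  | inter _ _ ha hb =>
    obtain ⟨s, rfl⟩ := ha
    obtain ⟨t, rfl⟩ := hb
    exact ⟨.inter s t, rfl⟩
  | diff _ _ ha hb =>
    obtain ⟨s, rfl⟩ := ha
    obtain ⟨t, rfl⟩ := hb
    exact ⟨.diff s t, rfl⟩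

/-- The predicates are closed under the graphs of a core frame. -/
theorem closed (hG : Good d) (hF : IsCore F) (ek : K.κ ≃ Kappa d)
    (hs : ∀ i, K.set i = kset (ek i)) : K.Closed := by
  have hk : ∀ A : Kappa d, ∃ i, K.set i = kset A := fun A =>
    ⟨ek.symm A, by rw [hs, Equiv.apply_symm_apply]⟩
  have hg : ∀ i, F.g i ∈ genSet d := fun i => hF ▸ Set.mem_range_self i
  refine ⟨fun i => (defK_gdom hG (hg i)).toDef K hk, fun i => (defK_gran hG (hg i)).toDef K hk,
    fun i k => ?_⟩
  show K.Def (gimg (F.g i) (K.set k))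
  rw [hs k]
  exact (defK_gimg hG (hg i) (.var (ek k))).toDef K hk

end

end Vale.Agent.P193.Core.Inst
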