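import Vale.Agent.P193.Full.Core.Inst.Defs
import Vale.Agent.P193.Full.Core.Facts.Push
import Vale.Agent.P193.Full.Calc.Close

/-! The translating words of the core instance: each is a diagonal permutation moving points along
its graph, so every predicate has a field given by words. -/

namespace Vale.Agent.P193.Calc

open Classical

set_option linter.unusedSectionVars false

variable {S : Type}

/-- A permutation of the points acting on every stream alike. -/
def diag : Equiv.Perm S →* Equiv.Perm (Sp S) where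
  toFun τ := (Equiv.refl Cn).prodCongr τ
  map_one' := by ext1 ⟨f, s⟩; rfl
  map_mul' a b := by ext1 ⟨f, s⟩; rfl

@[simp] theorem diag_apply (τ : Equiv.Perm S) (f : Cn) (s : S) : diag τ (f, s) = (f, τ s) := rfl

/-- Trivial-coefficient elements commute with diagonal permutations. -/
theorem diag_vgrp (τ : Equiv.Perm S) (v : Vgrp S) :
    Commute (diag τ) (v : Equiv.Perm (Sp S)) := by
  refine Equiv.ext fun ⟨f, s⟩ => ?_
  obtain ⟨g, hg⟩ := vgrp_fib v f
  simp [Equiv.Perm.mul_apply, hg]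

/-- A diagonal permutation carries restrictions to restrictions. -/
theorem diag_restr (τ : Equiv.Perm S) (e : Set S) (v : Vgrp S) :
    diag τ * restr e v * (diag τ)⁻¹ = restr (τ '' e) v := by
  refine mul_inv_eq_iff_eq_mul.2 (Equiv.ext fun ⟨f, s⟩ => ?_)
  obtain ⟨g, hg⟩ := vgrp_fib v f
  show diag τ (restr e v (f, s)) = restr (τ '' e) v (f, τ s)
  by_cases hs : s ∈ e
  · rw [restr_in (x := (f, s)) hs, restr_in (x := (f, τ s)) (Set.mem_image_of_mem τ hs), hg, hg]
    rfl
  · rw [restr_out (x := (f, s)) hs,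
      restr_out (x := (f, τ s)) (by rwa [show ((f, τ s) : Sp S).2 = τ s from rfl,
        Function.Injective.mem_set_image τ.injective])]
    rfl

theorem lift_gcomp (m n : Set (S × S)) : lift (gcomp m n) = gcomp (lift m) (lift n) := by
  ext ⟨⟨f, s⟩, g, t⟩
  constructor
  · rintro ⟨h, u, h1, h2⟩
    exact ⟨(f, u), ⟨rfl, h1⟩, h, h2⟩
  · rintro ⟨⟨k, u⟩, ⟨h1, h2⟩, h3, h4⟩
    exact ⟨h1.trans h3, u, h2, h4⟩

theorem lift_union (m n : Set (S × S)) : lift (m ∪ n) = lift m ∪ lift n := by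
  ext ⟨⟨f, s⟩, g, t⟩
  simp only [lift, Set.mem_union, Set.mem_ofPred_eq, and_or_left]

theorem lift_gid (e : Set S) : lift (gid e) = gid (fib e) := by
  ext ⟨⟨f, s⟩, g, t⟩
  exact ⟨fun ⟨h1, h2, h3⟩ => ⟨Prod.ext h1 h2, h3⟩,
    fun ⟨h1, h2⟩ => ⟨congrArg Prod.fst h1, congrArg Prod.snd h1, h2⟩⟩

namespace Frame

variable {F : Frame S}

/-- The lift of a graph is a coefficient. -/
def GMem (F : Frame S) (m : Set (S × S)) : Prop := InMon (Set.range F.g) (lift m)

theorem GMem.gen {m : Set (S × S)} {i : F.ι} (h : F.g i = m) : F.GMem m :=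
  h ▸ InMon.of ⟨i, rfl⟩ (F.g_pb i)

theorem GMem.univ : F.GMem (gid Set.univ) := by
  unfold GMem
  rw [lift_gid, show fib (Set.univ : Set S) = Set.univ from rfl]
  exact InMon.one

theorem GMem.ginv {m : Set (S × S)} (h : F.GMem m) : F.GMem (P193.ginv m) := by
  unfold GMem
  rw [show lift (P193.ginv m) = P193.ginv (lift m) from lift_ginv m]
  exact InMon.inv h

theorem GMem.comp {m n : Set (S × S)} (h : F.GMem m) (h' : F.GMem n) : F.GMem (gcomp m n) := by
  unfold GMem
  rw [lift_gcomp]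
  exact InMon.comp h h'

theorem GMem.union {m n : Set (S × S)} (h : F.GMem m) (h' : F.GMem n)
    (hd : Disjoint (gdom m) (gdom n)) (hr : Disjoint (gran m) (gran n)) : F.GMem (m ∪ n) := by
  unfold GMem
  rw [lift_union]
  refine InMon.union h h' ?_ ?_
  · exact Set.disjoint_left.2 fun x ⟨y, hy⟩ ⟨z, hz⟩ =>
      Set.disjoint_left.1 hd ⟨y.2, hy.2⟩ ⟨z.2, hz.2⟩
  · exact Set.disjoint_left.2 fun x ⟨y, hy⟩ ⟨z, hz⟩ =>
      Set.disjoint_left.1 hr ⟨y.2, hy.2⟩ ⟨z.2, hz.2⟩

theorem GMem.compl {e : Set S} (h : F.GMem (gid e)) : F.GMem (gid eᶜ) := by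
  have h' := InMon.compl h
  unfold GMem
  rw [lift_gid]
  rwa [lift_gid, gdom_gid] at h'

theorem GMem.inter {a b : Set S} (ha : F.GMem (gid a)) (hb : F.GMem (gid b)) :
    F.GMem (gid (a ∩ b)) := by
  rw [← gcomp_gid]; exact ha.comp hb

theorem GMem.dom {m : Set (S × S)} (hp : IsPB m) (h : F.GMem m) : F.GMem (gid (gdom m)) := by
  rw [← gcomp_gdom hp]; exact h.comp h.ginv

/-- A diagonal permutation with a coefficient graph is the value of a word. -/
theorem exists_diag_word (τ : Equiv.Perm S) (h : F.GMem {p | τ p.1 = p.2}) :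
    ∃ x : F.Free, F.eval x = diag τ := by
  have hm : diag τ ∈ swapGroup F.M := by
    refine mem_swapGroup_iff.2 ?_
    have e : graphOf (diag τ) = piece (hv S) [] [] (lift {p : S × S | τ p.1 = p.2}) := by
      show _ = id '' _
      rw [Set.image_id]
      ext ⟨⟨f, s⟩, g, t⟩
      show diag τ (f, s) = (g, t) ↔ f = g ∧ τ s = t
      simp
    rw [e]
    exact reg_piece h
  rw [← range_eval] at hm
  exact hm

/-- The restrictions to a coefficient set are values of words. -/
theorem exists_restr_gmem {e : Set S} (h : F.GMem (gid e)) (v : Vgrp S) :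
    ∃ x : F.Free, F.eval x = restr e v := by
  have hi : Idem (coeffOf (Set.range F.g)) (fib e) := by
    show InMon _ (gid (fib e))
    rw [← lift_gid]; exact h
  have hm : restr e v ∈ swapGroup F.M := restr_mem_of_idem hi v
  rw [← range_eval] at hm
  exact hm

/-- The exchange along a graph with disjoint domain and range. -/
theorem exists_swap_word {γ : Set (S × S)} (hp : IsPB γ) (hγ : F.GMem γ)
    (hd : Disjoint (gdom γ) (gran γ)) :
    ∃ (x : F.Free) (τ : Equiv.Perm S), F.eval x = diag τ ∧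
      (∀ p ∈ γ, τ p.1 = p.2) ∧ (∀ p ∈ γ, τ p.2 = p.1) ∧
      ∀ s, s ∉ gdom γ → s ∉ gran γ → τ s = s := by
  let τ : Equiv.Perm S :=
    { toFun := swapFun γ, invFun := swapFun γ
      left_inv := swapFun_invol hp hd, right_inv := swapFun_invol hp hd }
  have e1 : ∀ p ∈ γ, τ p.1 = p.2 := fun p hpγ => by
    have hx : ∃ z, (p.1, z) ∈ γ := ⟨p.2, hpγ⟩
    show swapFun γ p.1 = p.2
    rw [swapFun, dif_pos hx]
    exact hp.1 _ _ _ hx.choose_spec hpγ
  have e2 : ∀ p ∈ γ, τ p.2 = p.1 := fun p hpγ => by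
    rw [← e1 p hpγ]; exact swapFun_invol hp hd p.1
  have e3 : ∀ s, s ∉ gdom γ → s ∉ gran γ → τ s = s := fun s h1 h2 => by
    show swapFun γ s = s
    rw [swapFun, dif_neg (fun h : ∃ y, (s, y) ∈ γ => h1 h),
      dif_neg (fun h : ∃ y, (y, s) ∈ γ => h2 h)]
  have hrest : F.GMem (gid ((gdom γ)ᶜ ∩ (gran γ)ᶜ)) :=
    (GMem.dom hp hγ).compl.inter
      (GMem.dom ⟨fun x y z h h' => hp.2 y z x h h', fun x y z h h' => hp.1 z x y h h'⟩
        hγ.ginv).compl
  have hg : F.GMem {p | τ p.1 = p.2} := by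
    have e : {p : S × S | τ p.1 = p.2} =
        γ ∪ P193.ginv γ ∪ gid ((gdom γ)ᶜ ∩ (gran γ)ᶜ) := by
      ext ⟨s, t⟩
      constructor
      · intro h
        have h' : τ s = t := h
        by_cases h1 : s ∈ gdom γ
        · obtain ⟨u, hu⟩ := h1
          rw [e1 (s, u) hu] at h'
          subst h'
          exact Or.inl (Or.inl hu)
        · by_cases h2 : s ∈ gran γ
          · obtain ⟨u, hu⟩ := h2
            rw [e2 (u, s) hu] at h'
            subst h'
            exact Or.inl (Or.inr hu)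
          · rw [e3 s h1 h2] at h'
            exact Or.inr ⟨h', h1, h2⟩
      · rintro ((h | h) | ⟨h, h1, h2⟩)
        · exact e1 (s, t) h
        · exact e2 (t, s) h
        · show τ s = t
          rw [e3 s h1 h2]; exact h
    rw [e]
    refine (hγ.union hγ.ginv hd hd.symm).union hrest ?_ ?_
    · rw [Set.disjoint_left]
      rintro s ⟨t, h | h⟩ hs <;> rw [gdom_gid] at hs
      · exact hs.1 ⟨t, h⟩
      · exact hs.2 ⟨t, h⟩
    · rw [Set.disjoint_left]
      rintro s ⟨t, h | h⟩ hs <;> rw [gran_gid] at hs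
      · exact hs.2 ⟨t, h⟩
      · exact hs.1 ⟨t, h⟩
  obtain ⟨x, hx⟩ := exists_diag_word τ hg
  exact ⟨x, τ, hx, e1, e2, e3⟩

end Frame

end Vale.Agent.P193.Calc

namespace Vale.Agent.P193.Core.Inst

open Calc Facts

open Classical

set_option linter.unusedSectionVars false

variable {d : Data} [DecidableEq d.M.A] {F : Calc.Frame (Point d)}

theorem isTr_iff {γ : Set (Point d × Point d)} {D : Set (Point d)} {x : F.Free} :
    IsTr F γ D x ↔ ∃ τ : Equiv.Perm (Point d), F.eval x = diag τ ∧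
      ∀ s ∈ D, ∀ t, (s, t) ∈ γ → τ s = t :=
  ⟨fun ⟨τ, h, h'⟩ => ⟨τ, Equiv.ext fun ⟨f, s⟩ => h f s, h'⟩,
    fun ⟨τ, h, h'⟩ => ⟨τ, fun f s => by rw [h]; rfl, h'⟩⟩

theorem tr_spec {γ : Set (Point d × Point d)} {D : Set (Point d)}
    (h : ∃ x, IsTr F γ D x) : IsTr F γ D (tr F γ D) := by
  rw [tr, dif_pos h]; exact h.choose_spec

/-- A word exists for a graph that leaves its domain. -/
theorem exists_tr_direct {γ : Set (Point d × Point d)} {D : Set (Point d)} (hp : IsPB γ)
    (hγ : F.GMem γ) (hD : F.GMem (gid D)) (h : Disjoint D (gimg γ D)) :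
    ∃ x, IsTr F γ D x := by
  have hp' : IsPB (gcomp (gid D) γ) :=
    ⟨fun x y z ⟨a, ha, h1⟩ ⟨b, hb, h2⟩ =>
        hp.1 x y z ((show x = a from ha.1) ▸ h1) ((show x = b from hb.1) ▸ h2),
      fun x y z ⟨a, ha, h1⟩ ⟨b, hb, h2⟩ =>
        hp.2 x y z ((show x = a from ha.1) ▸ h1) ((show y = b from hb.1) ▸ h2)⟩
  have hd : Disjoint (gdom (gcomp (gid D) γ)) (gran (gcomp (gid D) γ)) := by
    rw [Set.disjoint_left]
    rintro s ⟨t, a, ⟨ha, hsD⟩, -⟩ ⟨u, b, ⟨hb, huD⟩, hu⟩
    exact Set.disjoint_left.1 h hsD ⟨u, huD, (show u = b from hb) ▸ hu⟩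
  obtain ⟨x, τ, hx, e1, -, -⟩ := Calc.Frame.exists_swap_word hp' (hD.comp hγ) hd
  exact ⟨x, isTr_iff.2 ⟨τ, hx, fun s hs t ht => e1 (s, t) ⟨s, ⟨rfl, hs⟩, ht⟩⟩⟩

/-- A word exists for a graph with a twin: a second graph moving the domain apart from itself and
from its image. -/
theorem exists_tr_twin {γ η : Set (Point d × Point d)} {D : Set (Point d)} (hp : IsPB γ)
    (hpη : IsPB η) (hγ : F.GMem γ) (hη : F.GMem η) (hD : F.GMem (gid D)) (hdom : D ⊆ gdom η)
    (h1 : Disjoint D (gimg η D)) (h2 : Disjoint (gimg γ D) (gimg η D)) :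
    ∃ x, IsTr F γ D x := by
  obtain ⟨x, hx⟩ := exists_tr_direct hpη hη hD h1
  obtain ⟨τ, hτ, eτ⟩ := isTr_iff.1 hx
  have hη' : IsPB (P193.ginv η) :=
    ⟨fun a b c h h' => hpη.2 b c a h h', fun a b c h h' => hpη.1 c a b h h'⟩
  have hdi : F.GMem (gid (gimg η D)) := by
    have hc : F.GMem (gcomp (gid D) η) := hD.comp hη
    have hpc : IsPB (P193.ginv (gcomp (gid D) η)) := by
      constructor
      · rintro a b c ⟨u, ⟨hu, -⟩, h⟩ ⟨w, ⟨hw, -⟩, h'⟩
        exact hpη.2 b c a ((show b = u from hu) ▸ h) ((show c = w from hw) ▸ h')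
      · rintro a b c ⟨u, ⟨hu, -⟩, h⟩ ⟨w, ⟨hw, -⟩, h'⟩
        exact hpη.1 c a b ((show c = u from hu) ▸ h) ((show c = w from hw) ▸ h')
    have e : gimg η D = gdom (P193.ginv (gcomp (gid D) η)) := by
      ext t
      constructor
      · rintro ⟨s, hs, hst⟩; exact ⟨s, s, ⟨rfl, hs⟩, hst⟩
      · rintro ⟨s, u, ⟨hu, hs⟩, hst⟩; exact ⟨s, hs, (show s = u from hu) ▸ hst⟩
    rw [e]
    exact Calc.Frame.GMem.dom hpc hc.ginv
  have hpb : IsPB (gcomp (P193.ginv η) γ) :=
    ⟨fun a b c ⟨u, h, h'⟩ ⟨w, k, k'⟩ => hp.1 u b c h' ((hη'.1 a w u k h) ▸ k'),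
      fun a b c ⟨u, h, h'⟩ ⟨w, k, k'⟩ => hη'.2 a b u h ((hp.2 w u c k' h') ▸ k)⟩
  have hdis : Disjoint (gimg η D) (gimg (gcomp (P193.ginv η) γ) (gimg η D)) := by
    rw [Set.disjoint_left]
    rintro t ht ⟨u, ⟨s, hs, hsu⟩, s', hus', hst⟩
    obtain rfl : s = s' := hpη.2 s s' u hsu hus'
    exact Set.disjoint_left.1 h2 ⟨s, hs, hst⟩ ht
  obtain ⟨y, hy⟩ := exists_tr_direct hpb (hη.ginv.comp hγ) hdi hdis
  obtain ⟨σ, hσ, eσ⟩ := isTr_iff.1 hy
  refine ⟨y * x, isTr_iff.2 ⟨σ * τ, by rw [map_mul, map_mul, hτ, hσ], fun s hs t ht => ?_⟩⟩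
  obtain ⟨u, hu⟩ := hdom hs
  rw [Equiv.Perm.mul_apply, eτ s hs u hu]
  exact eσ u ⟨s, hs, hu⟩ t ⟨s, hu, ht⟩

section Core

variable (hG : Good d) (hF : IsCore F)
include hG hF

omit hG in
theorem gmem_gen {m : Set (Point d × Point d)} (h : Core.Gen d m) : F.GMem m :=
  let ⟨_, hi⟩ := hF.exists_index h
  Calc.Frame.GMem.gen hi

/-- A graph from one state to one state has a word. -/
theorem exists_tr_state {γ : Set (Point d × Point d)} (hγ : Core.Gen d γ) (s s' : State d)
    (h : gimg γ (atS s) ⊆ atS s') :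
    ∃ x, IsTr F γ (atS s) x := by
  have hp := Facts.Gen.isPB hG hγ
  have hD : F.GMem (gid (atS s)) := gmem_gen hF (gen_atS s)
  by_cases e : s = s'
  · subst e
    by_cases hg : s = .guess
    · subst hg
      have hη : F.GMem (omCG (d := d) ∪ omDG) :=
        (gmem_gen hF gen_omCG).union (gmem_gen hF gen_omDG)
          (by rw [gdom_omCG, gdom_omDG]; exact disjoint_compl_right)
          (Set.disjoint_left.2 fun x h1 h2 => (gran_omD_subset h2).2 (by
            obtain ⟨y, s, σ, c, g, k, -, rfl⟩ := h1; rfl))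
      have hpη : IsPB (omCG (d := d) ∪ omDG) := by
        constructor
        · rintro x y z (h1 | h1) (h2 | h2)
          · exact isPB_omCG.1 _ _ _ h1 h2
          · exact absurd (show x ∈ gdom omCG from ⟨_, h1⟩)
              (fun h => (gdom_omDG.subset ⟨_, h2⟩) (gdom_omCG.subset h))
          · exact absurd (show x ∈ gdom omCG from ⟨_, h2⟩)
              (fun h => (gdom_omDG.subset ⟨_, h1⟩) (gdom_omCG.subset h))
          · exact isPB_omDG.1 _ _ _ h1 h2
        · rintro x y z (h1 | h1) (h2 | h2)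
          · exact isPB_omCG.2 _ _ _ h1 h2
          · obtain ⟨_, _, _, _, _, -, e1⟩ := h1
            obtain ⟨_, _, _, _, _, -, e2⟩ := h2
            simp only at e1 e2; rw [e1] at e2; simp at e2
          · obtain ⟨_, _, _, _, _, -, e1⟩ := h1
            obtain ⟨_, _, _, _, _, -, e2⟩ := h2
            simp only at e1 e2; rw [e1] at e2; simp at e2
          · exact isPB_omDG.2 _ _ _ h1 h2
      have hsub : gimg (omCG (d := d) ∪ omDG) (atS .guess) ⊆ atS .fin := by
        rintro x ⟨y, -, ⟨s, σ, c, g, k, -, e⟩ | ⟨s, σ, c, g, k, -, e⟩⟩ <;>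
          · simp only at e; subst e; rfl
      refine exists_tr_twin hp hpη (gmem_gen hF hγ) hη hD ?_
        ((atS_disjoint (by simp)).mono_right hsub)
        ((atS_disjoint (by simp)).mono h hsub)
      intro x _
      by_cases hx : x ∈ tagS
      · obtain ⟨y, hy⟩ := gdom_omCG.symm.subset hx
        exact ⟨y, Or.inl hy⟩
      · obtain ⟨y, hy⟩ := gdom_omDG.symm.subset hx
        exact ⟨y, Or.inr hy⟩
    · have he := Edge.OK.reach (d := d) s hg
      have hsub : gimg (edgeG _ he) (atS s) ⊆ atS .guess := by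
        rintro x ⟨y, -, σ, b, w, g, k, -, e⟩
        simp only at e; subst e; rfl
      refine exists_tr_twin hp (isPB_edgeG _ he) (gmem_gen hF hγ)
        (gmem_gen hF (gen_edgeG _ he)) hD ?_ ((atS_disjoint hg).mono_right hsub)
        ((atS_disjoint hg).mono h hsub)
      exact (gdom_edgeG _ he).symm.subset
  · exact exists_tr_direct hp (gmem_gen hF hγ) hD ((atS_disjoint e).mono_right h)

/-- The word of an edge. -/
theorem tr_edge (e : OEdge d) : IsTr F (edgeG e.1 e.2) (atS e.1.tgt)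
    (tr F (edgeG e.1 e.2) (atS e.1.tgt)) := by
  refine tr_spec (exists_tr_state hG hF (gen_edgeG e.1 e.2) e.1.tgt e.1.src ?_)
  rintro x ⟨y, -, σ, b, w, g, k, -, hx⟩
  simp only at hx; subst hx; rfl

omit hG hF in
theorem Push.gen : ∀ p : Push, Core.Gen d (p.graph (d := d))
  | .theta => gen_thetaG
  | .omC => gen_omCG
  | .omD => gen_omDG
  | .omK => gen_omKG
  | .tMap => gen_tG

omit hG hF in
theorem Push.gran_subset : ∀ p : Push,
    gran (p.graph (d := d)) ⊆ atS .fin ∩ hOneS ∩ tagIs p.tag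
  | .theta => fun x hx => by
      obtain ⟨h1, h2⟩ := gran_theta_subset hx
      exact ⟨h1, Bool.eq_false_iff.2 h2⟩
  | .omC => by rintro x ⟨y, s, σ, c, g, k, -, e⟩; simp only at e; subst e; exact ⟨⟨rfl, rfl⟩, rfl⟩
  | .omD => fun x hx => by
      obtain ⟨h1, h2⟩ := gran_omD_subset hx
      exact ⟨h1, Bool.eq_false_iff.2 h2⟩
  | .omK => fun x hx => by
      obtain ⟨h1, h2⟩ := gran_omK_subset hx
      exact ⟨h1, Bool.eq_false_iff.2 h2⟩
  | .tMap => by rintro x ⟨y, c, g, -, e⟩; simp only at e; subst e; exact ⟨⟨rfl, rfl⟩, rfl⟩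

/-- The word of a push on one state. -/
theorem tr_push (p : Push) (s : State d) : IsTr F (p.graph (d := d)) (atS s)
    (tr F (p.graph (d := d)) (atS s)) := by
  refine tr_spec (exists_tr_state hG hF (Push.gen p) s .fin ?_)
  rintro x ⟨y, -, hy⟩
  exact (Push.gran_subset p ⟨y, hy⟩).1.1

end Core

/-- Right translation of the inner coordinate by the inverse, a homomorphism. -/
def inPerm : Inner d →* Equiv.Perm (Point d) where
  toFun m :=
    { toFun := fun x => { x with g := x.g * m⁻¹ }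
      invFun := fun x => { x with g := x.g * m }
      left_inv := fun x => by simp
      right_inv := fun x => by simp }
  map_one' := by ext1 x; simp
  map_mul' a b := by ext1 x; simp [mul_assoc]

/-- Right translation of the outer coordinate by the inverse, a homomorphism. -/
def outPerm : Outer d →* Equiv.Perm (Point d) where
  toFun m :=
    { toFun := fun x => { x with h := x.h * m⁻¹ }
      invFun := fun x => { x with h := x.h * m }
      left_inv := fun x => by simp
      right_inv := fun x => by simp }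
  map_one' := by ext1 x; simp
  map_mul' a b := by ext1 x; simp [mul_assoc]

omit [DecidableEq d.M.A] in
theorem inPerm_image (m : Inner d) (X : Set (Point d)) : inPerm m '' X = gimg (gT m⁻¹) X := by
  ext x
  constructor
  · rintro ⟨y, hy, rfl⟩; exact ⟨y, hy, rfl⟩
  · rintro ⟨y, hy, h⟩; exact ⟨y, hy, (show x = _ from h).symm⟩

omit [DecidableEq d.M.A] in
theorem outPerm_image (m : Outer d) (X : Set (Point d)) : outPerm m '' X = gimg (hT m⁻¹) X := by
  ext x
  constructor
  · rintro ⟨y, hy, rfl⟩; exact ⟨y, hy, rfl⟩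
  · rintro ⟨y, hy, h⟩; exact ⟨y, hy, (show x = _ from h).symm⟩

section Core

variable (hG : Good d) (hF : IsCore F)
include hG hF

omit hG in
theorem eval_tr_gT (i : Fin d.n) :
    F.eval (tr F (gT (d.gen i)) Set.univ) = diag (inPerm (d.gen i))⁻¹ := by
  have hex : ∃ x, IsTr F (gT (d.gen i)) Set.univ x := by
    have e : {p : Point d × Point d | (inPerm (d.gen i))⁻¹ p.1 = p.2} = gT (d.gen i) := by
      ext ⟨x, y⟩; exact eq_comm
    obtain ⟨x, hx⟩ := Calc.Frame.exists_diag_word (F := F) (inPerm (d.gen i))⁻¹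
      (e ▸ gmem_gen hF (gen_gT i))
    exact ⟨x, isTr_iff.2 ⟨_, hx, fun s _ t ht => (show t = _ from ht).symm⟩⟩
  obtain ⟨τ, hτ, e⟩ := isTr_iff.1 (tr_spec hex)
  rw [hτ]
  congr 1
  ext1 x
  exact e x (Set.mem_univ x) _ rfl

omit hG in
theorem eval_tr_hT {t : Outer d} (h : Core.Gen d (hT t)) :
    F.eval (tr F (hT t) Set.univ) = diag (outPerm t)⁻¹ := by
  have hex : ∃ x, IsTr F (hT t) Set.univ x := by
    have e : {p : Point d × Point d | (outPerm t)⁻¹ p.1 = p.2} = hT t := by
      ext ⟨x, y⟩; exact eq_comm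
    obtain ⟨x, hx⟩ := Calc.Frame.exists_diag_word (F := F) (outPerm t)⁻¹ (e ▸ gmem_gen hF h)
    exact ⟨x, isTr_iff.2 ⟨_, hx, fun s _ t ht => (show t = _ from ht).symm⟩⟩
  obtain ⟨τ, hτ, e⟩ := isTr_iff.1 (tr_spec hex)
  rw [hτ]
  congr 1
  ext1 x
  exact e x (Set.mem_univ x) _ rfl

theorem eval_inWord (m : Inner d) : F.eval (inWord F m) = diag (inPerm m⁻¹) := by
  have h : ∃ w : List (Fin d.n), (w.map d.gen).prod = m⁻¹ := hG.gen_surj _
  have e : F.eval.comp (inHom F) = diag.comp (inPerm.comp (FreeGroup.lift d.gen)) :=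
    FreeGroup.ext_hom _ _ fun i => by
      simp only [MonoidHom.comp_apply, inHom, FreeGroup.lift_apply_of, map_inv,
        eval_tr_gT hF, inv_inv]
  rw [inWord, dif_pos h]
  refine (DFunLike.congr_fun e _).trans ?_
  rw [MonoidHom.comp_apply, MonoidHom.comp_apply, map_list_prod, List.map_map]
  have := h.choose_spec
  rw [show (⇑(FreeGroup.lift d.gen) ∘ FreeGroup.of) = d.gen from funext fun i =>
    FreeGroup.lift_apply_of, this]

theorem eval_outWord (k : Outer d) : F.eval (outWord F k) = diag (outPerm k⁻¹) := by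
  have h : ∃ w : FreeGroup {x // x ∈ d.subGens}, FreeGroup.lift Subtype.val w = k.1⁻¹ := by
    have : k.1⁻¹ ∈ (FreeGroup.lift (Subtype.val : {x // x ∈ d.subGens} → d.Γ₀)).range := by
      rw [FreeGroup.range_lift_eq_closure, Subtype.range_coe_subtype]
      show k.1⁻¹ ∈ Subgroup.closure (d.subGens : Set d.Γ₀)
      rw [hG.subGens_top]; exact Subgroup.mem_top _
    exact this
  let j0 : d.Γ₀ →* Outer d := MonoidHom.inl _ _
  let j1 : FA d →* Outer d := (MonoidHom.inr _ _).comp (MonoidHom.inl _ _)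
  let j2 : FA d →* Outer d := (MonoidHom.inr _ _).comp (MonoidHom.inr _ _)
  have e0 : F.eval.comp (outHom₀ F) =
      diag.comp (outPerm.comp (j0.comp (FreeGroup.lift Subtype.val))) :=
    FreeGroup.ext_hom _ _ fun x => by
      simp only [MonoidHom.comp_apply, outHom₀, FreeGroup.lift_apply_of, map_inv,
        eval_tr_hT hF (gen_hT₀ x.1 x.2), inv_inv]
      rfl
  have e1 : F.eval.comp (outHom₁ F) = diag.comp (outPerm.comp j1) :=
    FreeGroup.ext_hom _ _ fun a => by
      simp only [MonoidHom.comp_apply, outHom₁, FreeGroup.lift_apply_of, map_inv,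
        eval_tr_hT hF (gen_hT₁ a), inv_inv]
      rfl
  have e2 : F.eval.comp (outHom₂ F) = diag.comp (outPerm.comp j2) :=
    FreeGroup.ext_hom _ _ fun a => by
      simp only [MonoidHom.comp_apply, outHom₂, FreeGroup.lift_apply_of, map_inv,
        eval_tr_hT hF (gen_hT₂ a), inv_inv]
      rfl
  rw [outWord, dif_pos h, map_mul, map_mul,
    show F.eval (outHom₀ F h.choose) = _ from DFunLike.congr_fun e0 _,
    show F.eval (outHom₁ F _) = _ from DFunLike.congr_fun e1 _,
    show F.eval (outHom₂ F _) = _ from DFunLike.congr_fun e2 _]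
  simp only [MonoidHom.comp_apply, h.choose_spec, ← map_mul]
  congr 2
  simp [j0, j1, j2, Prod.ext_iff]

omit hG hF in
theorem trans_image {π : List (OEdge d)} {c : State d} {b : Bool} {X : Set (Point d)}
    (hc : Chain π c) (hX : X ⊆ atS c ∩ tagIs b) : pathImg π X ⊆ atS (top π c) ∩ tagIs b := by
  induction π with
  | nil => exact hX
  | cons e l ih =>
    rintro x ⟨y, hy, σ, b', w, g, k, h1, h2⟩
    simp only at h1 h2
    have hy' := (ih hc.2 hy).2
    subst h1 h2
    exact ⟨rfl, hy'⟩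

omit hG hF in
theorem hT_image_subset {t : Outer d} {c : State d} {b : Bool} {X : Set (Point d)}
    (hX : X ⊆ atS c ∩ tagIs b) : gimg (hT t) X ⊆ atS c ∩ tagIs b := fun x hx => by
  have := hX (mem_gimg_hT.1 hx)
  exact ⟨this.1, this.2⟩

omit hG hF in
theorem gT_image_subset {t : Inner d} {c : State d} {b : Bool} {X : Set (Point d)}
    (hX : X ⊆ atS c ∩ tagIs b) : gimg (gT t) X ⊆ atS c ∩ tagIs b := fun x hx => by
  have := hX (mem_gimg_gT.1 hx)
  exact ⟨this.1, this.2⟩

omit hG hF in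
/-- The set of an atom lies at its state and tag. -/
theorem Atom.set_subset : ∀ A : Atom d, A.Ok → A.set ⊆ atS A.st ∩ tagIs A.tag
  | .base π k m B, h => trans_image h (hT_image_subset (gT_image_subset fun x hx => hx.1))
  | .push π k m p A, h => trans_image h.1 (hT_image_subset (gT_image_subset fun x hx => by
      obtain ⟨y, -, hy⟩ := hx
      obtain ⟨⟨h1, -⟩, h2⟩ := Push.gran_subset p ⟨y, hy⟩
      exact ⟨h1, h2⟩))

omit hG hF in
theorem Atom.atOne_subset : ∀ A : Atom d, A.Ok → A.AtOne → A.set ⊆ atS .fin ∩ hOneS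
  | .base π k m B, _, ⟨hπ, hk, hs, hp⟩ => by
    subst hπ hk
    intro x hx
    have hx' : x ∈ gimg (hT (1 : Outer d)) (gimg (gT m) B.set) := hx
    rw [hT_one, gimg_gid, Set.inter_univ] at hx'
    obtain ⟨⟨h1, -⟩, h2⟩ := mem_gimg_gT.1 hx'
    refine ⟨(show x.st = B.s from h1).trans hs, ?_⟩
    rcases hp with hp | hp <;> rw [hp] at h2
    · exact h2
    · exact h2.2
  | .push π k m p A, _, ⟨hπ, hk⟩ => by
    subst hπ hk
    intro x hx
    have hx' : x ∈ gimg (hT (1 : Outer d)) (gimg (gT m) (gimg p.graph A.set)) := hx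
    rw [hT_one, gimg_gid, Set.inter_univ] at hx'
    obtain ⟨y, -, hy⟩ := mem_gimg_gT.1 hx'
    exact (Push.gran_subset p ⟨y, hy⟩).1

omit hG hF in
theorem Atom.dom_subset (p : Push) (A : Atom d) (h : A.Ok) (hd : Atom.Dom p A) :
    A.set ⊆ gdom (p.graph (d := d)) := by
  have h0 := Atom.set_subset A h
  have nt : A.tag = false → A.set ⊆ tagSᶜ := fun e x hx e' => by
    have := (h0 hx).2
    rw [e] at this
    exact Bool.false_ne_true (this.symm.trans e')
  cases p with
  | theta => exact gdom_thetaG.symm.subset.trans' (Set.subset_univ _)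
  | omC => exact fun x hx => gdom_omCG.symm.subset ((h0 hx).2.trans hd)
  | omD => exact fun x hx => gdom_omDG.symm.subset (nt hd hx)
  | omK =>
    exact fun x hx => gdom_omKG.symm.subset ⟨(h0 hx).1.trans hd.2, nt hd.1 hx⟩
  | tMap =>
    exact fun x hx => gdom_tG.symm.subset ⟨Atom.atOne_subset A h hd.2 hx, nt hd.1 hx⟩

/-- A translating word moves a set inside its domain as the graph does. -/
theorem isTr_image {γ : Set (Point d × Point d)} {D X : Set (Point d)} {x : F.Free}
    (h : IsTr F γ D x) (h1 : X ⊆ D) (h2 : X ⊆ gdom γ) :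
    ∃ τ : Equiv.Perm (Point d), F.eval x = diag τ ∧ τ '' X = gimg γ X := by
  obtain ⟨τ, hτ, e⟩ := isTr_iff.1 h
  refine ⟨τ, hτ, Set.ext fun t => ⟨?_, fun ⟨s, hs, hst⟩ => ⟨s, hs, e s (h1 hs) t hst⟩⟩⟩
  rintro ⟨s, hs, rfl⟩
  obtain ⟨u, hu⟩ := h2 hs
  exact ⟨s, hs, (e s (h1 hs) u hu).symm ▸ hu⟩

theorem eval_pathWord {c : State d} : ∀ {π : List (OEdge d)}, Chain π c → ∀ {X : Set (Point d)},
    (∀ x ∈ X, x.st = c) → ∃ τ : Equiv.Perm (Point d), F.eval (pathWord F π) = diag τ ∧
      τ '' X = pathImg π X ∧ ∀ x ∈ pathImg π X, x.st = top π c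
  | [], _, X, hX => ⟨1, by simp [pathWord], by simp [pathImg], hX⟩
  | e :: l, hc, X, hX => by
    obtain ⟨τ, hτ, eτ, hst⟩ := eval_pathWord hc.2 hX
    have hsub : pathImg l X ⊆ atS e.1.tgt := fun x hx => (hst x hx).trans hc.1.symm
    obtain ⟨σ, hσ, eσ⟩ := isTr_image hG hF (tr_edge hG hF e) hsub
      (hsub.trans (gdom_edgeG _ _).symm.subset)
    refine ⟨σ * τ, ?_, ?_, ?_⟩
    · rw [pathWord, List.map_cons, List.prod_cons, map_mul, map_mul, hσ]
      exact congrArg _ hτ
    · rw [Equiv.Perm.coe_mul, Set.image_comp, eτ, eσ]; rfl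
    · rintro x ⟨y, -, s, b, w, g, k, -, hx⟩
      simp only at hx; subst hx; rfl

/-- The translations of an atom move the set below them. -/
theorem eval_trans {π : List (OEdge d)} {c : State d} (hc : Chain π c) (k : Outer d)
    (m : Inner d) {X : Set (Point d)} (hX : ∀ x ∈ X, x.st = c) :
    ∃ τ : Equiv.Perm (Point d), F.eval (pathWord F π * outWord F k * inWord F m) = diag τ ∧
      τ '' X = pathImg π (gimg (hT k) (gimg (gT m) X)) := by
  obtain ⟨τ, hτ, eτ, -⟩ := eval_pathWord hG hF hc (X := gimg (hT k) (gimg (gT m) X))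
    fun x hx => by
      have h := hX _ (mem_gimg_gT.1 (mem_gimg_hT.1 hx))
      exact h
  refine ⟨τ * outPerm k⁻¹ * inPerm m⁻¹, ?_, ?_⟩
  · rw [map_mul, map_mul, map_mul, map_mul, hτ, eval_outWord hG hF, eval_inWord hG hF]
  · rw [Equiv.Perm.coe_mul, Equiv.Perm.coe_mul, Set.image_comp, Set.image_comp, inPerm_image,
      outPerm_image, inv_inv, inv_inv, eτ]

/-- The translating word of an atom carries its base set to its set. -/
theorem Atom.eval_word : ∀ A : Atom d, A.Ok →
    ∃ τ : Equiv.Perm (Point d), F.eval (A.word F) = diag τ ∧ τ '' A.bot.set = A.set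
  | .base π k m B, h => eval_trans hG hF h k m fun x hx => hx.1.1
  | .push π k m p A, h => by
    obtain ⟨τ, hτ, eτ⟩ := Atom.eval_word A h.2.1
    have hs := Atom.set_subset A h.2.1
    obtain ⟨σ, hσ, eσ⟩ := isTr_image hG hF (tr_push hG hF p A.st) (fun x hx => (hs hx).1)
      (Atom.dom_subset p A h.2.1 h.2.2)
    obtain ⟨ρ, hρ, eρ⟩ := eval_trans hG hF h.1 k m (X := gimg p.graph A.set)
      fun x ⟨y, _, hy⟩ => (Push.gran_subset p ⟨y, hy⟩).1.1
    refine ⟨ρ * σ * τ, ?_, ?_⟩
    · rw [Atom.word, map_mul, map_mul, hσ, hτ, hρ, map_mul, map_mul]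
    · rw [Equiv.Perm.coe_mul, Equiv.Perm.coe_mul, Set.image_comp, Set.image_comp]
      show ρ '' (σ '' (τ '' A.bot.set)) = _
      rw [eτ, eσ, eρ]
      rfl

omit hG in
theorem gmem_pred : ∀ p : Pred d, F.GMem (gid p.set)
  | .full => Calc.Frame.GMem.univ
  | .hOne => gmem_gen hF gen_hOneS
  | .zOne => gmem_gen hF gen_zOneS
  | .zFront s => gmem_gen hF (gen_zFrontS s)
  | .clean => gmem_gen hF gen_cleanS
  | .gOne => gmem_gen hF gen_gOneS
  | .kSet => gmem_gen hF gen_kOneS
  | .gHOne => (gmem_gen hF gen_gOneS).inter (gmem_gen hF gen_hOneS)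

omit hG in
theorem gmem_tagIs : ∀ b : Bool, F.GMem (gid (tagIs (d := d) b))
  | true => gmem_gen hF gen_tagS
  | false => by
    have e : tagIs (d := d) false = tagSᶜ := Set.ext fun x => by simp [tagIs, tagS]
    rw [e]; exact (gmem_gen hF gen_tagS).compl

omit hG in
theorem gmem_base (B : Base d) : F.GMem (gid B.set) :=
  ((gmem_gen hF (gen_atS B.s)).inter (gmem_tagIs hF B.b)).inter (gmem_pred hF B.p)

omit hG hF in
/-- The chosen word of a restriction to a coefficient set. -/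
theorem eval_setWord_gmem {e : Set (Point d)} (h : F.GMem (gid e)) (j : Fin F.m) :
    F.eval (setWord F e j) = restr e (F.vgen j) := by
  have hex := Calc.Frame.exists_restr_gmem h (F.vgen j)
  rw [setWord, dif_pos hex]; exact hex.choose_spec

/-- The field words of the predicates. -/
theorem eval_atomWord (A : Atom d) (h : A.Ok) (j : Fin F.m) :
    F.eval (A.word F * setWord F A.bot.set j * (A.word F)⁻¹) = restr A.set (F.vgen j) := by
  obtain ⟨τ, hτ, eτ⟩ := Atom.eval_word hG hF A h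
  rw [map_mul, map_mul, map_inv, hτ, eval_setWord_gmem (gmem_base hF A.bot), diag_restr, eτ]

/-- The field system of the core instance. -/
noncomputable def coreSys : F.FieldSys where
  κ := Kappa d
  set := kset
  word A j := A.1.word F * setWord F A.1.bot.set j * (A.1.word F)⁻¹
  eval_word A j := eval_atomWord hG hF A.1 A.2 j

end Core

end Vale.Agent.P193.Core.Inst
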