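import Vale.Agent.P193.Full.Core.Inst.SetFields
import Vale.Agent.P193.Full.Core.Inst.Words
import Vale.Agent.P193.Full.Core.CovBase

/-! In almost every model the fields of the core field system are the chosen ones, and good. -/

namespace Vale.Agent.P193.Core.Inst

open Calc Classical Facts

set_option linter.unusedSectionVars false

variable {d : Data} [DecidableEq d.M.A]

theorem finite_base : Finite (Base d) := by
  have := Facts.finite_state (d := d)
  have := Facts.finite_ltr (d := d)
  have : Finite (Pred d) := by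
    let f : Fin 7 ⊕ (Ltr d × Bool) → Pred d
      | .inl 0 => .full
      | .inl 1 => .hOne
      | .inl 2 => .zOne
      | .inl 3 => .clean
      | .inl 4 => .gOne
      | .inl 5 => .kSet
      | .inl 6 => .gHOne
      | .inr s => .zFront s
    refine Finite.of_surjective f fun p => ?_
    cases p with
    | full => exact ⟨.inl 0, rfl⟩
    | hOne => exact ⟨.inl 1, rfl⟩
    | zOne => exact ⟨.inl 2, rfl⟩
    | zFront s => exact ⟨.inr s, rfl⟩
    | clean => exact ⟨.inl 3, rfl⟩
    | gOne => exact ⟨.inl 4, rfl⟩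
    | kSet => exact ⟨.inl 5, rfl⟩
    | gHOne => exact ⟨.inl 6, rfl⟩
  refine Finite.of_surjective (fun x : State d × Bool × Pred d => (⟨x.1, x.2.1, x.2.2⟩ : Base d))
    fun B => ⟨(B.s, B.b, B.p), rfl⟩

variable {F : Calc.Frame (Point d)}

theorem IsTr.isDiag {γ : Set (Point d × Point d)} {D : Set (Point d)} {x : F.Free}
    (h : IsTr F γ D x) : ∃ τ, F.IsDiag x τ :=
  h.imp fun _ h => h.1

theorem isDiag_of_diag {x : F.Free} {τ : Equiv.Perm (Point d)} (h : F.eval x = diag τ) :
    F.IsDiag x τ := fun f s => by rw [h]; rfl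

/-- The letters of the translating words of the atoms. -/
structure Moving (M : F.Model) : Prop where
  inner : ∀ i, M.f (tr F (gT (d.gen i)) Set.univ) ∈ Frame.moveSub M (phi M)
  outer₀ : ∀ x : {x // x ∈ d.subGens},
    M.f (tr F (hT ((x.1, 1, 1) : Outer d)) Set.univ) ∈ Frame.moveSub M (phi M)
  outer₁ : ∀ a : Ltr d,
    M.f (tr F (hT ((1, FreeGroup.of a, 1) : Outer d)) Set.univ) ∈ Frame.moveSub M (phi M)
  outer₂ : ∀ a : Ltr d,
    M.f (tr F (hT ((1, 1, FreeGroup.of a) : Outer d)) Set.univ) ∈ Frame.moveSub M (phi M)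
  edge : ∀ e : OEdge d,
    M.f (tr F (edgeG e.1 e.2) (atS e.1.tgt)) ∈ Frame.moveSub M (phi M)
  push : ∀ (p : Push) (s : State d),
    M.f (tr F (p.graph (d := d)) (atS s)) ∈ Frame.moveSub M (phi M)

variable (hG : Good d) (hF : IsCore F)
include hG hF

/-- Eventually all letters move. -/
theorem ev_moving : F.Ev (Moving (F := F)) := by
  have := d.M.fintypeA
  have := Facts.finite_state (d := d)
  have : Finite (OEdge d) := (Facts.finite_edges (d := d)).to_subtype
  have : Finite Push := by
    refine Finite.of_surjective (fun n : Fin 5 =>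
      [Push.theta, .omC, .omD, .omK, .tMap][n.val]'(by simp)) fun p => ?_
    cases p
    exacts [⟨0, rfl⟩, ⟨1, rfl⟩, ⟨2, rfl⟩, ⟨3, rfl⟩, ⟨4, rfl⟩]
  have mv : ∀ {x : F.Free}, (∃ τ, F.IsDiag x τ) →
      F.Ev fun M => M.f x ∈ Frame.moveSub M (phi M) :=
    fun ⟨_, h⟩ => (ev_diag h).mono fun _ h => h.1
  have h1 := Frame.Ev.all fun i : Fin d.n =>
    mv ⟨_, isDiag_of_diag ((eval_tr_gT hF i).trans (map_inv diag _).symm)⟩
  have h2 := Frame.Ev.all fun x : {x // x ∈ d.subGens} =>
    mv ⟨_, isDiag_of_diag ((eval_tr_hT hF (gen_hT₀ x.1 x.2)).trans (map_inv diag _).symm)⟩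
  have h3 := Frame.Ev.all fun a : Ltr d =>
    mv ⟨_, isDiag_of_diag ((eval_tr_hT hF (gen_hT₁ a)).trans (map_inv diag _).symm)⟩
  have h4 := Frame.Ev.all fun a : Ltr d =>
    mv ⟨_, isDiag_of_diag ((eval_tr_hT hF (gen_hT₂ a)).trans (map_inv diag _).symm)⟩
  have h5 := Frame.Ev.all fun e : OEdge d => mv (tr_edge hG hF e).isDiag
  have h6 := Frame.Ev.all fun p : Push => Frame.Ev.all fun s : State d =>
    mv (tr_push hG hF p s).isDiag
  exact ((h1.and h2).and (h3.and h4)).and (h5.and h6) |>.mono
    fun M ⟨⟨⟨a, b⟩, c, e⟩, g, k⟩ => ⟨a, b, c, e, g, k⟩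

omit hG hF in
/-- The translating words of the atoms move. -/
theorem Moving.word {M : F.Model} (h : Moving M) :
    ∀ A : Atom d, M.f (A.word F) ∈ Frame.moveSub M (phi M) := by
  have hin : ∀ m, M.f (inWord F m) ∈ Frame.moveSub M (phi M) := by
    intro m
    rw [inWord]
    split
    · have key : ∀ w, M.f (inHom F w) ∈ Frame.moveSub M (phi M) := fun w => by
        induction w using FreeGroup.induction_on with
        | C1 => simp [one_mem]
        | of i => rw [inHom, FreeGroup.lift_apply_of, map_inv]; exact inv_mem (h.inner i)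
        | inv_of i hi => rw [map_inv, map_inv]; exact inv_mem hi
        | mul a b ha hb => rw [map_mul, map_mul]; exact mul_mem ha hb
      exact key _
    · simp [one_mem]
  have hout : ∀ k, M.f (outWord F k) ∈ Frame.moveSub M (phi M) := by
    intro k
    have k0 : ∀ w, M.f (outHom₀ F w) ∈ Frame.moveSub M (phi M) := fun w => by
      induction w using FreeGroup.induction_on with
      | C1 => simp [one_mem]
      | of i => rw [outHom₀, FreeGroup.lift_apply_of, map_inv]; exact inv_mem (h.outer₀ i)
      | inv_of i hi => rw [map_inv, map_inv]; exact inv_mem hi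
      | mul a b ha hb => rw [map_mul, map_mul]; exact mul_mem ha hb
    have k1 : ∀ w, M.f (outHom₁ F w) ∈ Frame.moveSub M (phi M) := fun w => by
      induction w using FreeGroup.induction_on with
      | C1 => simp [one_mem]
      | of i => rw [outHom₁, FreeGroup.lift_apply_of, map_inv]; exact inv_mem (h.outer₁ i)
      | inv_of i hi => rw [map_inv, map_inv]; exact inv_mem hi
      | mul a b ha hb => rw [map_mul, map_mul]; exact mul_mem ha hb
    have k2 : ∀ w, M.f (outHom₂ F w) ∈ Frame.moveSub M (phi M) := fun w => by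
      induction w using FreeGroup.induction_on with
      | C1 => simp [one_mem]
      | of i => rw [outHom₂, FreeGroup.lift_apply_of, map_inv]; exact inv_mem (h.outer₂ i)
      | inv_of i hi => rw [map_inv, map_inv]; exact inv_mem hi
      | mul a b ha hb => rw [map_mul, map_mul]; exact mul_mem ha hb
    rw [outWord, map_mul, map_mul]
    refine mul_mem (mul_mem ?_ (k1 _)) (k2 _)
    split
    · exact k0 _
    · simp [one_mem]
  have hpath : ∀ π : List (OEdge d), M.f (pathWord F π) ∈ Frame.moveSub M (phi M) := by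
    intro π
    induction π with
    | nil => simp [pathWord, one_mem]
    | cons e l ih =>
      rw [pathWord, List.map_cons, List.prod_cons, map_mul]
      exact mul_mem (h.edge e) ih
  intro A
  induction A with
  | base π k m B =>
    rw [Atom.word, map_mul, map_mul]
    exact mul_mem (mul_mem (hpath π) (hout k)) (hin m)
  | push π k m p A ih =>
    rw [Atom.word, map_mul, map_mul, map_mul, map_mul]
    exact mul_mem (mul_mem (mul_mem (mul_mem (hpath π) (hout k)) (hin m)) (h.push p A.st)) ih

/-- Eventually the chosen fields of the predicates are given by their words and are good. -/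
theorem ev_kfld : F.Ev fun M => Frame.IsPhi M (phi M) ∧ Frame.Good M (phi M) (phi M) ∧
    ∀ A : Kappa d, (∀ j, kfld M A (F.vgen j) = M.f ((coreSys hG hF).word A j)) ∧
      Frame.Good M (phi M) (kfld M A) := by
  have := finite_base (d := d)
  have hs : ∀ B : Base d, HasSet F B.set := fun B v =>
    Calc.Frame.exists_restr_gmem (gmem_base hF B) v
  refine ((ev_phi.and (Frame.ev_good (Frame.fullWord (F := F)) Frame.eval_fullWord)).and
    ((ev_moving hG hF).and (Frame.Ev.all fun B => ev_setFld (hs B)))).mono ?_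
  rintro M ⟨⟨hφ, hg⟩, hm, hb⟩
  refine ⟨hφ, hg (phi M) (phi M) hφ fun j => hφ j, fun A => ⟨fun j => ?_, ?_⟩⟩
  · show cj (M.f (A.1.word F)) (setFld M A.1.bot.set) (F.vgen j) =
      M.f (A.1.word F * setWord F A.1.bot.set j * (A.1.word F)⁻¹)
    rw [cj_apply, (hb A.1.bot).2.1, map_mul, map_mul, map_inv]
  · exact good_cj (hm.word A.1) (hb A.1.bot).2.2.2

/-- Eventually the fields of the core system are the chosen ones, and good. -/
theorem ev_fields_good : F.Ev fun M => ∀ Φ : Frame.Fields (coreSys hG hF) M,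
    Φ.φ = phi M ∧ (∀ A, Φ.fld A = kfld M A) ∧ Frame.Good M Φ.φ Φ.φ ∧
      ∀ A, Frame.Good M Φ.φ (Φ.fld A) := by
  refine (ev_kfld hG hF).mono fun M ⟨hφ, hg, hk⟩ Φ => ?_
  have e : Φ.φ = phi M := Frame.hom_ext (F := F) fun j => (Φ.phi j).trans (hφ j).symm
  have e' : ∀ A, Φ.fld A = kfld M A := fun A =>
    Frame.hom_ext (F := F) fun j => (Φ.fld_eq A j).trans ((hk A).1 j).symm
  refine ⟨e, e', e ▸ hg, fun A => ?_⟩
  rw [e, e']
  exact (hk A).2

/-- Fields exist as soon as the chosen ones are pairwise compatible. -/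
theorem ev_fields_of_compat
    (h : F.Ev fun M => ∀ A B : Kappa d, Compat (phi M) (kfld M A) (kfld M B)) :
    F.Ev fun M => Nonempty (Frame.Fields (coreSys hG hF) M) :=
  ((ev_kfld hG hF).and h).mono fun M ⟨⟨hφ, _, hk⟩, hc⟩ =>
    ⟨{ φ := phi M
       phi := hφ
       fld := kfld M
       fld_eq := fun A j => (hk A).1 j
       fld_one := fun A => compat_full (hk A).2.le
       pair := hc }⟩

end Vale.Agent.P193.Core.Inst
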