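import Vale.Agent.P193.Full.Core.Inst.Slices
import Vale.Agent.P193.Full.Core.Inst.Unique
import Vale.Agent.P193.Full.Core.Facts.Edges

/-! The part of a translated base set inside an edge is a translated base set at the target,
moved by the edge. -/

namespace Vale.Agent.P193.Core.Inst

open Calc Facts Classical

set_option linter.unusedSectionVars false

variable {d : Data} [DecidableEq d.M.A]

/-- A base set pulled back along an edge is empty or a translated base set at the target. -/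
theorem edge_base_pre (e : OEdge d) (b : Bool) (P : Pred d) :
    gimg (ginv (edgeG e.1 e.2)) (⟨e.1.src, b, P⟩ : Base d).set = ∅ ∨
      ∃ k m Q, gimg (ginv (edgeG e.1 e.2)) (⟨e.1.src, b, P⟩ : Base d).set =
        gimg (hT k) (gimg (gT m) (⟨e.1.tgt, b, Q⟩ : Base d).set) := by
  obtain ⟨e, he⟩ := e
  have some_of : ∀ k m Q, (∀ σ c w g h,
      ((⟨e.src, .cons e he σ, c, w, g, (1, e.pval, e.qval) * h⟩ : Point d) ∈
          (⟨e.src, b, P⟩ : Base d).set) ↔
        (⟨e.tgt, σ, c, w, g * m⁻¹, h * k⁻¹⟩ : Point d) ∈ (⟨e.tgt, b, Q⟩ : Base d).set) →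
      ∃ k m Q, gimg (ginv (edgeG e he)) (⟨e.src, b, P⟩ : Base d).set =
        gimg (hT k) (gimg (gT m) (⟨e.tgt, b, Q⟩ : Base d).set) := by
    intro k m Q h
    refine ⟨k, m, Q, ?_⟩
    rw [edge_pre he (C := gimg (hT k) (gimg (gT m) (⟨e.tgt, b, Q⟩ : Base d).set))
      fun σ c w g k' => by rw [mem_gimg_hT, mem_gimg_gT]; exact h σ c w g k']
    exact Set.inter_eq_right.2 fun x hx => (mem_gimg_gT.1 (mem_gimg_hT.1 hx)).1.1
  have none_of : (∀ σ c w g h, (⟨e.src, .cons e he σ, c, w, g, h⟩ : Point d) ∉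
      (⟨e.src, b, P⟩ : Base d).set) → gimg (ginv (edgeG e he)) (⟨e.src, b, P⟩ : Base d).set = ∅ :=
    fun h => edge_pre_empty he fun σ c w g k => h σ c w g _
  cases P with
  | full =>
    refine Or.inr (some_of 1 1 .full fun σ c w g h => ?_)
    exact ⟨fun ⟨⟨_, h2⟩, _⟩ => ⟨⟨rfl, h2⟩, trivial⟩, fun ⟨⟨_, h2⟩, _⟩ => ⟨⟨rfl, h2⟩, trivial⟩⟩
  | hOne =>
    refine Or.inr (some_of ((1, e.pval, e.qval) : Outer d)⁻¹ 1 .hOne fun σ c w g h => ?_)
    simp only [Base.set, Pred.set, Set.mem_inter_iff, atS, tagIs, hOneS, Set.mem_ofPred_eq,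
      inv_inv, true_and]
    exact Iff.and Iff.rfl mul_eq_one_comm
  | zOne =>
    refine Or.inr (some_of 1 1 .zOne fun σ c w g h => ?_)
    simp only [Base.set, Pred.set, Set.mem_inter_iff, atS, tagIs, zOneS, Set.mem_ofPred_eq,
      inv_one, mul_one, true_and, zval_edge]
  | zFront s =>
    refine Or.inr (some_of 1 1 (.zFront s) fun σ c w g h => ?_)
    simp only [Base.set, Pred.set, Set.mem_inter_iff, atS, tagIs, zFrontS, Set.mem_ofPred_eq,
      inv_one, mul_one, true_and, zval_edge]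
  | clean =>
    by_cases hs : e.src = .guess
    · cases hk : e.kind with
      | letter j =>
        obtain rfl := edge_letter_eq he hk
        refine Or.inr (some_of 1 1 .clean fun σ c w g h => ?_)
        exact ⟨fun ⟨⟨_, h2⟩, h3⟩ => ⟨⟨rfl, h2⟩, rfl, h3.2⟩,
          fun ⟨⟨_, h2⟩, h3⟩ => ⟨⟨rfl, h2⟩, rfl, h3.2⟩⟩
      | junk =>
        refine Or.inl (none_of ?_)
        rintro σ c w g h ⟨-, -, h3⟩
        simp [clean, hk] at h3
      | other =>
        refine Or.inr (some_of 1 1 .full fun σ c w g h => ?_)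
        exact ⟨fun ⟨⟨_, h2⟩, _⟩ => ⟨⟨rfl, h2⟩, trivial⟩,
          fun ⟨⟨_, h2⟩, _⟩ => ⟨⟨rfl, h2⟩, hs, by simp [clean, hk]⟩⟩
    · exact Or.inl (none_of fun σ c w g h h' => hs h'.2.1)
  | gOne =>
    refine Or.inr (some_of 1 1 .gOne fun σ c w g h => ?_)
    simp only [Base.set, Pred.set, Set.mem_inter_iff, atS, tagIs, gOneS, Set.mem_ofPred_eq,
      inv_one, mul_one, true_and]
  | kSet =>
    by_cases hs : e.src = .guess
    · cases hk : e.kind with
      | letter j =>
        obtain rfl := edge_letter_eq he hk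
        refine Or.inr (some_of 1 (d.gen j)⁻¹ .kSet fun σ c w g h => ?_)
        simp only [Base.set, Pred.set, Set.mem_inter_iff, atS, tagIs, kOneS, Set.mem_ofPred_eq,
          inv_inv, inv_one, mul_one, letterE, true_and]
        refine Iff.and Iff.rfl (Iff.and Iff.rfl ?_)
        show d.gen j * guessVal d σ * g = 1 ↔ guessVal d σ * (g * d.gen j) = 1
        rw [mul_assoc, mul_eq_one_comm, mul_assoc]
      | _ =>
        refine Or.inr (some_of 1 1 .gOne fun σ c w g h => ?_)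
        simp only [Base.set, Pred.set, Set.mem_inter_iff, atS, tagIs, kOneS, gOneS,
          Set.mem_ofPred_eq, inv_one, mul_one, true_and, hs,
          guessVal_cons_not_letter he (fun j => by simp [hk]), one_mul]
    · exact Or.inl (none_of fun σ c w g h h' => hs h'.2.2.1)
  | gHOne =>
    refine Or.inr (some_of ((1, e.pval, e.qval) : Outer d)⁻¹ 1 .gHOne fun σ c w g h => ?_)
    simp only [Base.set, Pred.set, Set.mem_inter_iff, atS, tagIs, hOneS, gOneS, Set.mem_ofPred_eq,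
      inv_inv, inv_one, mul_one, true_and]
    exact Iff.and Iff.rfl (Iff.and Iff.rfl mul_eq_one_comm)

/-- The points of a tag beginning with an edge are the image of the target state. -/
theorem edgeTS_eq (e : OEdge d) (b : Bool) :
    edgeTS e b = gimg (edgeG e.1 e.2) (stB e.1.tgt b).set := by
  ext x
  constructor
  · rintro ⟨⟨he, σ, c, w, g, h, rfl⟩, hb⟩
    refine ⟨⟨e.1.tgt, σ, c, w, g, ((1, e.1.pval, e.1.qval) : Outer d)⁻¹ * h⟩,
      ⟨⟨rfl, hb⟩, trivial⟩, σ, c, w, g, _, rfl, ?_⟩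
    simp [← mul_assoc]
  · rintro ⟨y, hy, σ, c, w, g, h, h1, rfl⟩
    simp only at h1
    subst h1
    exact ⟨⟨e.2, σ, c, w, g, _, rfl⟩, hy.1.2⟩

variable {F : Calc.Frame (Point d)} (hG : Good d) (hF : IsCore F)
include hG hF

/-- The points of a tag beginning with an edge have words. -/
theorem hasSet_edgeTS (e : OEdge d) (b : Bool) : HasSet F (edgeTS e b) := by
  obtain ⟨τ, hτ, h⟩ := isTr_image hG hF (tr_edge hG hF e) (X := (stB e.1.tgt b).set)
    (fun x hx => hx.1.1) (fun x hx => (gdom_edgeG _ _).symm.subset hx.1.1)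
  rw [edgeTS_eq, ← h]
  exact HasSet.image (x := tr F (edgeG e.1 e.2) (atS e.1.tgt)) (fun f z => by rw [hτ]; rfl)
    fun v => Calc.Frame.exists_restr_gmem (gmem_base hF _) v

/-- Eventually the part of a base field inside an edge is trivial or a moved flat field. -/
theorem ev_edge_base (e : OEdge d) (b : Bool) (P : Pred d) : F.Ev fun M =>
    setFld M ((⟨e.1.src, b, P⟩ : Base d).set ∩ edgeTS e b) = 1 ∨
      ∃ k m Q, setFld M ((⟨e.1.src, b, P⟩ : Base d).set ∩ edgeTS e b) =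
        cj (edgeX M e) ((Atom.base [] k m (⟨e.1.tgt, b, Q⟩ : Base d)).fld M) := by
  have hin : (⟨e.1.src, b, P⟩ : Base d).set ∩ edgeTS e b =
      gimg (edgeG e.1 e.2) (gimg (ginv (edgeG e.1 e.2)) (⟨e.1.src, b, P⟩ : Base d).set) := by
    rw [gimg_preimage (Gen.isPB hG (gen_edgeG e.1 e.2)), gran_edgeG, edgeTS, Set.inter_comm _
      (edgeS e.1 ∩ tagIs b), Set.inter_assoc]
    exact congrArg _ (Set.inter_eq_right.2 fun x hx => hx.1.2)
  rcases edge_base_pre e b P with h | ⟨k, m, Q, h⟩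
  · refine (ev_empty (F := F)).mono fun M hM => Or.inl ?_
    rw [hin, h, show gimg (edgeG e.1 e.2) (∅ : Set (Point d)) = ∅ from
      Set.eq_empty_of_forall_notMem fun x ⟨y, hy, _⟩ => hy]
    exact hM
  · obtain ⟨τ, hτ, ht⟩ := eval_trans hG hF (π := [e]) (c := e.1.tgt) ⟨rfl, trivial⟩ k m
      (X := (⟨e.1.tgt, b, Q⟩ : Base d).set) fun x hx => hx.1.1
    refine (ev_image (x := pathWord F [e] * outWord F k * inWord F m) (τ := τ)
      (fun f z => by rw [hτ]; rfl) (e := (⟨e.1.tgt, b, Q⟩ : Base d).set)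
      fun v => Calc.Frame.exists_restr_gmem (gmem_base hF _) v).mono
      fun M hM => Or.inr ⟨k, m, Q, ?_⟩
    rw [hin, h, fld_base_nil, ← cj_mul, ← cj_mul]
    rw [ht, map_mul, map_mul, pathWord_cons, pathWord_nil, mul_one] at hM
    exact hM.symm.trans (by rw [mul_assoc]; rfl)

/-- Eventually the part of a flat atom inside an edge comes from a flat atom at the target. -/
theorem ev_edgePull : F.Ev fun M => Rig M → GroupLaws M → EdgePull M := by
  have : Finite (OEdge d) := (Facts.finite_edges (d := d)).to_subtype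
  have := finite_base (d := d)
  refine (Frame.Ev.all fun x : OEdge d × Base d =>
    ((ev_edge_base hG hF x.1 x.2.b x.2.p).and
      ((ev_split (F := F) (e := (⟨x.1.1.src, x.2.b, x.2.p⟩ : Base d).set)
          (fun v => Calc.Frame.exists_restr_gmem (gmem_base hF _) v)
          (hasSet_edgeTS hG hF x.1 x.2.b)).and
        ((ev_setFld (HasSet.diff (e := (⟨x.1.1.src, x.2.b, x.2.p⟩ : Base d).set)
          (fun v => Calc.Frame.exists_restr_gmem (gmem_base hF _) v)
          (hasSet_edgeTS hG hF x.1 x.2.b))).and (ev_setFld (HasSet.inter (e := (⟨x.1.1.src, x.2.b, x.2.p⟩ : Base d).set)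
          (fun v => Calc.Frame.exists_restr_gmem (gmem_base hF _) v)
          (hasSet_edgeTS hG hF x.1 x.2.b))))))).mono fun M hM R L => ?_
  intro e k m B hs
  obtain ⟨s, b, P⟩ := B
  obtain rfl : s = e.1.src := hs
  obtain ⟨hp, ⟨hsum, hd, hle⟩, ⟨-, -, -, g2⟩, -, -, -, g1⟩ := hM (e, ⟨e.1.src, b, P⟩)
  let B' : Base d := ⟨e.1.src, b, P⟩
  let x := outX M k * inX M m
  have hx : x ∈ Frame.moveSub M (phi M) := mul_mem (R.out_mem k) (R.in_mem m)
  have hE : cj x (setFld M (edgeTS e b)) = setFld M (edgeTS e b) := by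
    rw [cj_mul, R.in_fix_edgeT, R.out_fix_edgeT]
  refine Pulled.of_split (P₁ := cj x (setFld M (B'.set ∩ edgeTS e b)))
    (P₂ := cj x (setFld M (B'.set \ edgeTS e b))) (good_cj hx g1) (good_cj hx g2)
    (R.edgeT_good e b) ?_ ?_ (hE ▸ disj_cj x hd) (hE ▸ le_cj x hle) ?_
  · have d0 : Calc.Disj (setFld M (B'.set ∩ edgeTS e b)) (setFld M (B'.set \ edgeTS e b)) :=
      g1.disj_le g2 hle fun v w => (hd w v).symm
    exact disj_cj x d0
  · intro v
    rw [fld_base_nil, ← cj_mul]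
    show x * bfld M B' v * x⁻¹ = x * _ * x⁻¹ * (x * _ * x⁻¹)
    rw [show bfld M B' v = setFld M (B'.set ∩ edgeTS e b) v * setFld M (B'.set \ edgeTS e b) v
      from hsum v]
    group
  · rcases hp with hp | ⟨k₀, m₀, Q, hp⟩
    · refine Or.inl ?_
      rw [hp]; ext v; simp
    · refine Or.inr ⟨k₀ * k, m₀ * m, ⟨e.1.tgt, b, Q⟩, rfl, rfl, ?_⟩
      rw [hp, fld_base_nil, fld_base_nil]
      have gQ := R.bfld_good (⟨e.1.tgt, b, Q⟩ : Base d)
      have lQ : Calc.Le (cj (outX M k₀) (cj (inX M m₀) (bfld M ⟨e.1.tgt, b, Q⟩)))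
          (bfld M (stB e.1.tgt b)) := by
        rw [← fld_base_nil]
        exact R.le_st (A := .base [] k₀ m₀ ⟨e.1.tgt, b, Q⟩) trivial
      have g0 := R.good_base_nil k₀ m₀ (⟨e.1.tgt, b, Q⟩ : Base d)
      rw [cj_mul, ← R.edge_in e b m _ g0 lQ, ← R.edge_out e b k _ (good_cj (R.in_mem m) g0)
        (by have := le_cj (inX M m) lQ; rwa [R.in_fix_st] at this)]
      rw [R.out_in k₀ m _ (good_cj (R.in_mem m₀) gQ), L.in_mul m m₀ _ gQ,
        L.out_mul k k₀ _ (good_cj (R.in_mem _) gQ)]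

end Vale.Agent.P193.Core.Inst
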