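import Vale.Agent.P193.Full.Core.Inst.Closed
import Vale.Agent.P193.Full.Core.Calculus

/-! Domains, ranges and images of the core predicates are definable. -/

namespace Vale.Agent.P193.Core.Inst

open Calc

variable (d : Data) [DecidableEq d.M.A]

/-- The core system of predicates is closed. -/
theorem closedPart : ClosedPart d := fun hG F hF =>
  closed (K := coreSys hG hF) hG hF (Equiv.refl _) fun _ => rfl

end Vale.Agent.P193.Core.Inst
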