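import Vale.Agent.P193.Full.Core.Inst.CompatPart
import Vale.Agent.P193.Full.Core.Inst.ZLaws

/-! All fields of atoms of the core instance are eventually pairwise compatible. -/

namespace Vale.Agent.P193.Core.Inst

open Calc

variable {d : Data} [DecidableEq d.M.A]

/-- The compatibility part of the calculus of the core instance. -/
theorem compatPart : CompatPart d :=
  compatPart_of_zLaws fun hG _ hF => ev_zLaws hG hF

end Vale.Agent.P193.Core.Inst
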