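import Vale.Agent.P193.Full.Core.Inst.SetFields
import Vale.Agent.P193.Full.Core.Inst.Words

/-! Diagonal words intertwined by a third act intertwined on the fields below an invariant set,
along every word in them; the generators of the translations are diagonal. -/

namespace Vale.Agent.P193.Core.Inst

open Calc Facts Classical

variable {d : Data}

/-- Two families of diagonal words that are intertwined by a third on an invariant set are
intertwined on the good fields below it, along every word. -/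
theorem ev_intertwine {F : Calc.Frame (Point d)} {ι : Type} [Finite ι]
    (X Y : FreeGroup ι →* F.Free) {z : F.Free} {σ : Equiv.Perm (Point d)}
    (hz : F.IsDiag z σ) (π ρ : ι → Equiv.Perm (Point d))
    (hX : ∀ i, F.IsDiag (X (FreeGroup.of i)) (π i))
    (hY : ∀ i, F.IsDiag (Y (FreeGroup.of i)) (ρ i)) {D : Set (Point d)} (hD : HasSet F D)
    (hinv : ∀ i, π i '' D = D) (h : ∀ i, ∀ s ∈ D, ρ i (σ s) = σ (π i s)) :
    F.Ev fun M => ∀ (w : FreeGroup ι) (f : Vgrp (Point d) →* M.P), Frame.Good M (phi M) f →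
      Calc.Le f (setFld M D) →
      (Frame.Good M (phi M) (cj (M.f (X w)) f) ∧ Calc.Le (cj (M.f (X w)) f) (setFld M D)) ∧
        cj (M.f (Y w)) (cj (M.f z) f) = cj (M.f z) (cj (M.f (X w)) f) := by
  refine ((Frame.Ev.all fun i => (ev_diag (hX i)).and (ev_image (hX i) hD)).and
    (Frame.Ev.all fun i => ev_agree_fld ((hY i).mul hz) (hz.mul (hX i)) hD
      fun s hs => h i s hs)).mono ?_
  rintro M ⟨h1, h2⟩ w
  induction w using FreeGroup.induction_on with
  | C1 =>
    intro f hf hle
    simp only [map_one, cj_one]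
    exact ⟨⟨hf, hle⟩, trivial⟩
  | of i =>
    intro f hf hle
    refine ⟨⟨good_cj (h1 i).1.1 hf, ?_⟩, ?_⟩
    · have := le_cj (M.f (X (FreeGroup.of i))) hle
      rwa [(h1 i).2, hinv i] at this
    · rw [← cj_mul, ← cj_mul, ← map_mul, ← map_mul]
      exact h2 i f hf hle
  | inv_of i hi =>
    intro f hf hle
    have hg : Frame.Good M (phi M) (cj (M.f (X (FreeGroup.of i)))⁻¹ f) :=
      good_cj (inv_mem (h1 i).1.1) hf
    have hl : Calc.Le (cj (M.f (X (FreeGroup.of i)))⁻¹ f) (setFld M D) := by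
      have := le_cj (M.f (X (FreeGroup.of i)))⁻¹ hle
      have e : cj (M.f (X (FreeGroup.of i))) (setFld M D) = setFld M D := by
        rw [(h1 i).2, hinv i]
      conv at this => arg 2; rw [← e]
      rwa [cj_inv_cancel] at this
    have := (hi _ hg hl).2
    rw [cj_cancel_inv] at this
    rw [map_inv, map_inv, map_inv, map_inv]
    refine ⟨⟨hg, hl⟩, ?_⟩
    rw [← this, cj_inv_cancel]
  | mul a b ha hb =>
    intro f hf hle
    obtain ⟨⟨hg, hl⟩, e⟩ := hb f hf hle
    obtain ⟨⟨hg', hl'⟩, e'⟩ := ha _ hg hl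
    simp only [map_mul, cj_mul]
    exact ⟨⟨hg', hl'⟩, by rw [e, e']⟩

variable [DecidableEq d.M.A]

variable {F : Calc.Frame (Point d)} (hG : Good d) (hF : IsCore F)
include hG hF

omit hG in
theorem isDiag_inHom (i : Fin d.n) :
    F.IsDiag (inHom F (FreeGroup.of i)) (inPerm (d.gen i)) := fun f x => by
  have e : F.eval (inHom F (FreeGroup.of i)) = diag (inPerm (d.gen i)) := by
    rw [inHom, FreeGroup.lift_apply_of, map_inv, eval_tr_gT hF, map_inv, inv_inv]
  rw [e]; rfl

omit hG in
theorem isDiag_outHom₁ (a : Ltr d) :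
    F.IsDiag (outHom₁ F (FreeGroup.of a)) (outPerm (1, FreeGroup.of a, 1)) := fun f x => by
  have e : F.eval (outHom₁ F (FreeGroup.of a)) = diag (outPerm (1, FreeGroup.of a, 1)) := by
    rw [outHom₁, FreeGroup.lift_apply_of, map_inv, eval_tr_hT hF (gen_hT₁ a), map_inv, inv_inv]
  rw [e]; rfl

omit hG in
theorem isDiag_outHom₂ (a : Ltr d) :
    F.IsDiag (outHom₂ F (FreeGroup.of a)) (outPerm (1, 1, FreeGroup.of a)) := fun f x => by
  have e : F.eval (outHom₂ F (FreeGroup.of a)) = diag (outPerm (1, 1, FreeGroup.of a)) := by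
    rw [outHom₂, FreeGroup.lift_apply_of, map_inv, eval_tr_hT hF (gen_hT₂ a), map_inv, inv_inv]
  rw [e]; rfl

omit hG in
theorem isDiag_outHom₀ (a : {x // x ∈ d.subGens}) :
    F.IsDiag (outHom₀ F (FreeGroup.of a)) (outPerm ((a.1, 1, 1) : Outer d)) := fun f x => by
  have e : F.eval (outHom₀ F (FreeGroup.of a)) = diag (outPerm ((a.1, 1, 1) : Outer d)) := by
    rw [outHom₀, FreeGroup.lift_apply_of, map_inv, eval_tr_hT hF (gen_hT₀ a.1 a.2), map_inv,
      inv_inv]
  rw [e]; rfl

theorem isDiag_inWord (m : Inner d) : F.IsDiag (inWord F m) (inPerm m⁻¹) := fun f x => by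
  rw [eval_inWord hG hF]; rfl


end Vale.Agent.P193.Core.Inst
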