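import Vale.Agent.P193.Full.Core.Inst.Alg
import Vale.Agent.P193.Full.Core.Inst.SetFields
import Vale.Agent.P193.Full.Core.Inst.Words

/-! The transport facts of the core instance and what they give for the fields of all atoms.

`Rig M` and `GroupLaws M` hold in every model that satisfies finitely many true relations. Here we
derive from them that every atom field is good, lies below its state and tag, and is carried by the
translations and edges as the atom is. -/

namespace Vale.Agent.P193.Core.Inst

open Calc Facts Classical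

set_option linter.unusedSectionVars false

variable {d : Data} [DecidableEq d.M.A] {F : Calc.Frame (Point d)}

/-- A state at a tag. -/
def stB (s : State d) (b : Bool) : Base d := ⟨s, b, .full⟩

/-- Trivial outer coordinate at the final state. -/
def rootB (b : Bool) : Base d := ⟨.fin, b, .hOne⟩

/-- The points of a tag whose path begins with an edge. -/
def edgeTS (e : OEdge d) (b : Bool) : Set (Point d) := edgeS e.1 ∩ tagIs b

/-- The states and tags on which a push is defined. -/
def Push.DomAt : Push → State d → Bool → Prop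
  | .theta, _, _ => True
  | .omC, _, b => b = true
  | .omD, _, b => b = false
  | .omK, s, b => b = false ∧ s = .guess
  | .tMap, s, b => b = false ∧ s = .fin

/-- The domain of a push at a state and tag. -/
def Push.domB (p : Push) (s : State d) (b : Bool) : Base d :=
  ⟨s, b, if p = .tMap then .hOne else .full⟩

/-- The image of a push from a state and tag. -/
def Push.imS (p : Push) (s : State d) (b : Bool) : Set (Point d) :=
  gimg p.graph (p.domB s b).set

/-- Predicates that do not see the outer coordinate. -/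
def Pred.OutFix : Pred d → Prop
  | .full | .clean | .gOne | .kSet => True
  | _ => False

/-- Predicates that do not see the inner coordinate. -/
def Pred.InFix : Pred d → Prop
  | .full | .clean | .hOne | .zOne | .zFront _ => True
  | _ => False

variable (F) in
/-- The word of an edge. -/
noncomputable abbrev edgeW (e : OEdge d) : F.Free := tr F (edgeG e.1 e.2) (atS e.1.tgt)

variable (F) in
/-- The word of a push at a state. -/
noncomputable abbrev pushW (p : Push) (s : State d) : F.Free := tr F p.graph (atS s)

variable (M : F.Model)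

/-- The element of an edge. -/
noncomputable abbrev edgeX (e : OEdge d) : M.P := M.f (edgeW F e)

/-- The element of an outer translation. -/
noncomputable abbrev outX (k : Outer d) : M.P := M.f (outWord F k)

/-- The element of an inner translation. -/
noncomputable abbrev inX (m : Inner d) : M.P := M.f (inWord F m)

/-- The element of a push. -/
noncomputable abbrev pushX (p : Push) (s : State d) : M.P := M.f (pushW F p s)

/-- The transport facts of the core instance. -/
structure Rig : Prop where
  isPhi : Frame.IsPhi M (phi M)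
  bfld_good : ∀ B : Base d, Frame.Good M (phi M) (bfld M B)
  edge_mem : ∀ e, edgeX M e ∈ Frame.moveSub M (phi M)
  push_mem : ∀ p s, pushX M p s ∈ Frame.moveSub M (phi M)
  out_mem : ∀ k, outX M k ∈ Frame.moveSub M (phi M)
  in_mem : ∀ m, inX M m ∈ Frame.moveSub M (phi M)
  out_one : outX M 1 = 1
  in_one : inX M 1 = 1
  base_le : ∀ B : Base d, Calc.Le (bfld M B) (bfld M (stB B.s B.b))
  gH_le_h : ∀ s b, Calc.Le (bfld M ⟨s, b, .gHOne⟩) (bfld M ⟨s, b, .hOne⟩)
  gH_le_g : ∀ s b, Calc.Le (bfld M ⟨s, b, .gHOne⟩) (bfld M ⟨s, b, .gOne⟩)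
  st_disj : ∀ (s s' : State d) (b b' : Bool), s ≠ s' ∨ b ≠ b' →
    Calc.Disj (bfld M (stB s b)) (bfld M (stB s' b'))
  edge_img : ∀ e b, cj (edgeX M e) (bfld M (stB e.1.tgt b)) = setFld M (edgeTS e b)
  edgeT_le : ∀ e b, Calc.Le (setFld M (edgeTS e b)) (bfld M (stB e.1.src b))
  edgeT_disj : ∀ (e e' : OEdge d) (b b' : Bool), e ≠ e' ∨ b ≠ b' →
    Calc.Disj (setFld M (edgeTS e b)) (setFld M (edgeTS e' b'))
  push_img : ∀ (p : Push) s b, p.DomAt s b →
    cj (pushX M p s) (bfld M (p.domB s b)) = setFld M (p.imS s b)
  im_le : ∀ (p : Push) s b, p.DomAt s b →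
    Calc.Le (setFld M (p.imS s b)) (bfld M (rootB p.tag))
  im_disj : ∀ (p p' : Push) s s' b b', p.DomAt s b → p'.DomAt s' b' →
    p ≠ p' ∨ s ≠ s' ∨ b ≠ b' → Calc.Disj (setFld M (p.imS s b)) (setFld M (p'.imS s' b'))
  out_fix : ∀ (B : Base d) k, B.p.OutFix → cj (outX M k) (bfld M B) = bfld M B
  in_fix : ∀ (B : Base d) m, B.p.InFix → cj (inX M m) (bfld M B) = bfld M B
  edge_out : ∀ e b k f, Frame.Good M (phi M) f → Calc.Le f (bfld M (stB e.1.tgt b)) →
    cj (edgeX M e) (cj (outX M k) f) = cj (outX M k) (cj (edgeX M e) f)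
  edge_in : ∀ e b m f, Frame.Good M (phi M) f → Calc.Le f (bfld M (stB e.1.tgt b)) →
    cj (edgeX M e) (cj (inX M m) f) = cj (inX M m) (cj (edgeX M e) f)
  out_in : ∀ k m f, Frame.Good M (phi M) f →
    cj (inX M m) (cj (outX M k) f) = cj (outX M k) (cj (inX M m) f)
  push_in : ∀ (p : Push) s b m f, p ≠ .theta → p.DomAt s b → Frame.Good M (phi M) f →
    Calc.Le f (bfld M (p.domB s b)) →
    cj (pushX M p s) (cj (inX M m) f) = cj (inX M m) (cj (pushX M p s) f)
  theta_out : ∀ s b t f, Frame.Good M (phi M) f → Calc.Le f (bfld M (stB s b)) →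
    cj (pushX M .theta s) (cj (outX M t) f) = cj (inX M (toInner d t)) (cj (pushX M .theta s) f)

/-- The group laws of the translations and the disjointness of their translates. -/
structure GroupLaws : Prop where
  out_mul : ∀ k k' f, Frame.Good M (phi M) f →
    cj (outX M k) (cj (outX M k') f) = cj (outX M (k' * k)) f
  in_mul : ∀ m m' f, Frame.Good M (phi M) f →
    cj (inX M m) (cj (inX M m') f) = cj (inX M (m' * m)) f
  h_disj : ∀ (s : State d) b k k', k ≠ k' → Calc.Disj (cj (outX M k) (bfld M ⟨s, b, .hOne⟩))
    (cj (outX M k') (bfld M ⟨s, b, .hOne⟩))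
  g_disj : ∀ (s : State d) b m m', m ≠ m' → Calc.Disj (cj (inX M m) (bfld M ⟨s, b, .gOne⟩))
    (cj (inX M m') (bfld M ⟨s, b, .gOne⟩))
  k_disj : ∀ (s : State d) b m m', m ≠ m' → Calc.Disj (cj (inX M m) (bfld M ⟨s, b, .kSet⟩))
    (cj (inX M m') (bfld M ⟨s, b, .kSet⟩))

variable {M}

/-! ### The shape of atom fields -/

theorem pathWord_nil : pathWord F ([] : List (OEdge d)) = 1 := rfl

theorem pathWord_cons (e : OEdge d) (π : List (OEdge d)) :
    pathWord F (e :: π) = edgeW F e * pathWord F π := by
  simp [pathWord]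

theorem fld_base_cons (e : OEdge d) (π k m) (B : Base d) :
    (Atom.base (e :: π) k m B).fld M = cj (edgeX M e) ((Atom.base π k m B).fld M) := by
  simp only [Atom.fld, Atom.word, Atom.bot, pathWord_cons, map_mul, cj_mul]

theorem fld_push_cons (e : OEdge d) (π k m p) (A : Atom d) :
    (Atom.push (e :: π) k m p A).fld M = cj (edgeX M e) ((Atom.push π k m p A).fld M) := by
  simp only [Atom.fld, Atom.word, Atom.bot, pathWord_cons, map_mul, cj_mul]

theorem fld_base_nil (k m) (B : Base d) :
    (Atom.base [] k m B).fld M = cj (outX M k) (cj (inX M m) (bfld M B)) := by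
  simp only [Atom.fld, Atom.word, Atom.bot, pathWord_nil, map_mul, map_one, cj_mul, cj_one]

theorem fld_push_nil (k m p) (A : Atom d) :
    (Atom.push [] k m p A).fld M =
      cj (outX M k) (cj (inX M m) (cj (pushX M p A.st) (A.fld M))) := by
  simp only [Atom.fld, Atom.word, Atom.bot, pathWord_nil, map_mul, map_one, cj_mul, cj_one]

namespace Rig

variable (R : Rig M)
include R

theorem pathWord_mem : ∀ π : List (OEdge d), M.f (pathWord F π) ∈ Frame.moveSub M (phi M)
  | [] => by rw [pathWord_nil, map_one]; exact one_mem _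
  | e :: π => by rw [pathWord_cons, map_mul]; exact mul_mem (R.edge_mem e) (pathWord_mem π)

theorem word_mem : ∀ A : Atom d, M.f (A.word F) ∈ Frame.moveSub M (phi M)
  | .base π k m B => by
    rw [Atom.word, map_mul, map_mul]
    exact mul_mem (mul_mem (R.pathWord_mem π) (R.out_mem k)) (R.in_mem m)
  | .push π k m p A => by
    rw [Atom.word, map_mul, map_mul, map_mul, map_mul]
    exact mul_mem (mul_mem (mul_mem (mul_mem (R.pathWord_mem π) (R.out_mem k)) (R.in_mem m))
      (R.push_mem p A.st)) (word_mem A)

/-- Every atom field is good. -/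
theorem good (A : Atom d) : Frame.Good M (phi M) (A.fld M) :=
  good_cj (R.word_mem A) (R.bfld_good _)

theorem good_base_nil (k m) (B : Base d) :
    Frame.Good M (phi M) (cj (outX M k) (cj (inX M m) (bfld M B))) :=
  good_cj (R.out_mem k) (good_cj (R.in_mem m) (R.bfld_good B))

theorem edgeT_good (e : OEdge d) (b : Bool) : Frame.Good M (phi M) (setFld M (edgeTS e b)) :=
  R.edge_img e b ▸ good_cj (R.edge_mem e) (R.bfld_good _)

theorem im_good {p : Push} {s : State d} {b : Bool} (h : p.DomAt s b) :
    Frame.Good M (phi M) (setFld M (p.imS s b)) :=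
  R.push_img p s b h ▸ good_cj (R.push_mem p s) (R.bfld_good _)

theorem out_fix_st (k) (s : State d) (b : Bool) :
    cj (outX M k) (bfld M (stB s b)) = bfld M (stB s b) :=
  R.out_fix _ k trivial

theorem in_fix_st (m) (s : State d) (b : Bool) :
    cj (inX M m) (bfld M (stB s b)) = bfld M (stB s b) :=
  R.in_fix _ m trivial

theorem in_fix_root (m) (b : Bool) :
    cj (inX M m) (bfld M (rootB (d := d) b)) = bfld M (rootB b) :=
  R.in_fix _ m trivial

theorem out_fix_edgeT (k) (e : OEdge d) (b : Bool) :
    cj (outX M k) (setFld M (edgeTS e b)) = setFld M (edgeTS e b) := by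
  rw [← R.edge_img e b, ← R.edge_out e b k _ (R.bfld_good _) (Calc.Le.refl _), R.out_fix_st]

theorem in_fix_edgeT (m) (e : OEdge d) (b : Bool) :
    cj (inX M m) (setFld M (edgeTS e b)) = setFld M (edgeTS e b) := by
  rw [← R.edge_img e b, ← R.edge_in e b m _ (R.bfld_good _) (Calc.Le.refl _), R.in_fix_st]

/-- An atom lies below its state and tag, and below the root when it may be pushed there. -/
theorem le_aux : ∀ A : Atom d, A.Ok →
    Calc.Le (A.fld M) (bfld M (stB A.st A.tag)) ∧
      (A.AtOne → Calc.Le (A.fld M) (bfld M (rootB A.tag)))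
  | .base π k m B, h => by
    refine ⟨?_, ?_⟩
    · induction π with
      | nil =>
        rw [fld_base_nil]
        have := le_cj (outX M k) (le_cj (inX M m) (R.base_le B))
        rwa [R.in_fix_st, R.out_fix_st] at this
      | cons e π ih =>
        rw [fld_base_cons]
        have h1 := le_cj (edgeX M e) (ih h.2)
        rw [show (Atom.base π k m B).st = e.1.tgt from h.1.symm, R.edge_img] at h1
        exact (good_cj (R.edge_mem e) (R.good _)).le_trans (R.edgeT_good e _) (R.bfld_good _) h1
          (R.edgeT_le e _)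
    · rintro ⟨rfl, rfl, hs, hp⟩
      rw [fld_base_nil, R.out_one, cj_one]
      have hB : Calc.Le (bfld M B) (bfld M (rootB B.b)) := by
        rcases B with ⟨s, b, p⟩
        simp only at hs hp
        subst hs
        rcases hp with rfl | rfl
        · exact Calc.Le.refl _
        · exact R.gH_le_h _ _
      have := le_cj (inX M m) hB
      rwa [R.in_fix_root] at this
  | .push π k m p A, h => by
    obtain ⟨h1, h2⟩ := le_aux A h.2.1
    have hd : p.DomAt A.st A.tag ∧ Calc.Le (A.fld M) (bfld M (p.domB A.st A.tag)) := by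
      have hd := h.2.2
      cases p with
      | theta => exact ⟨trivial, h1⟩
      | omC => exact ⟨hd, h1⟩
      | omD => exact ⟨hd, h1⟩
      | omK => exact ⟨hd, h1⟩
      | tMap =>
        obtain ⟨hb, ha⟩ := hd
        have hs : A.st = .fin := by
          cases A with
          | base π' k' m' B' => obtain ⟨rfl, -, hs, -⟩ := ha; exact hs
          | push π' k' m' p' A' => obtain ⟨rfl, -⟩ := ha; rfl
        refine ⟨⟨hb, hs⟩, ?_⟩
        have := h2 ha
        rw [hs]
        exact this
    have hr : Calc.Le (cj (inX M m) (cj (pushX M p A.st) (A.fld M))) (bfld M (rootB p.tag)) := by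
      have hQ := le_cj (pushX M p A.st) hd.2
      rw [R.push_img _ _ _ hd.1] at hQ
      have := le_cj (inX M m) ((good_cj (R.push_mem p A.st) (R.good A)).le_trans (R.im_good hd.1)
        (R.bfld_good _) hQ (R.im_le _ _ _ hd.1))
      rwa [R.in_fix_root] at this
    refine ⟨?_, ?_⟩
    · have h' := h.1
      clear h
      induction π with
      | nil =>
        rw [fld_push_nil]
        have := le_cj (outX M k) ((good_cj (R.in_mem m) (good_cj (R.push_mem p A.st)
          (R.good A))).le_trans (R.bfld_good _) (R.bfld_good _) hr (R.base_le (rootB p.tag)))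
        rwa [R.out_fix_st] at this
      | cons e π ih =>
        rw [fld_push_cons]
        have h1 := le_cj (edgeX M e) (ih h'.2)
        rw [show (Atom.push π k m p A).st = e.1.tgt from h'.1.symm, R.edge_img] at h1
        exact (good_cj (R.edge_mem e) (R.good _)).le_trans (R.edgeT_good e _) (R.bfld_good _) h1
          (R.edgeT_le e _)
    · rintro ⟨rfl, rfl⟩
      rw [fld_push_nil, R.out_one, cj_one]
      exact hr

/-- An atom lies below its state and tag. -/
theorem le_st {A : Atom d} (h : A.Ok) : Calc.Le (A.fld M) (bfld M (stB A.st A.tag)) :=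
  (R.le_aux A h).1

/-- The argument of a push lies in its domain. -/
theorem le_dom {p : Push} {A : Atom d} (h : A.Ok) (hd : Atom.Dom p A) :
    p.DomAt A.st A.tag ∧ Calc.Le (A.fld M) (bfld M (p.domB A.st A.tag)) := by
  cases p with
  | theta => exact ⟨trivial, R.le_st h⟩
  | omC => exact ⟨hd, R.le_st h⟩
  | omD => exact ⟨hd, R.le_st h⟩
  | omK => exact ⟨hd, R.le_st h⟩
  | tMap =>
    obtain ⟨hb, ha⟩ := hd
    have hs : A.st = .fin := by
      cases A with
      | base π' k' m' B' => obtain ⟨rfl, -, hs, -⟩ := ha; exact hs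
      | push π' k' m' p' A' => obtain ⟨rfl, -⟩ := ha; rfl
    refine ⟨⟨hb, hs⟩, ?_⟩
    have := (R.le_aux A h).2 ha
    rw [hs]
    exact this

/-- A pushed atom lies in the image of its push. -/
theorem le_im {p : Push} {A : Atom d} (h : A.Ok) (hd : Atom.Dom p A) :
    Calc.Le (cj (pushX M p A.st) (A.fld M)) (setFld M (p.imS A.st A.tag)) := by
  obtain ⟨h1, h2⟩ := R.le_dom h hd
  rw [← R.push_img _ _ _ h1]
  exact le_cj _ h2

end Rig

/-! ### Translated atoms -/

/-- An atom moved by an inner translation. -/
def Atom.inShift : Atom d → Inner d → Atom d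
  | .base π k m B, t => .base π k (m * t) B
  | .push π k m p A, t => .push π k (m * t) p A

/-- An atom moved by an outer translation. -/
def Atom.outShift : Atom d → Outer d → Atom d
  | .base π k m B, t => .base π (k * t) m B
  | .push π k m p A, t => .push π (k * t) m p A

theorem Atom.inShift_ok {A : Atom d} (h : A.Ok) (t : Inner d) : (A.inShift t).Ok := by
  cases A <;> exact h

theorem Atom.outShift_ok {A : Atom d} (h : A.Ok) (t : Outer d) : (A.outShift t).Ok := by
  cases A <;> exact h

namespace Rig

variable (R : Rig M) (L : GroupLaws M)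
include R L

/-- The field of an atom moved by an inner translation. -/
theorem fld_inShift {A : Atom d} (h : A.Ok) (t : Inner d) :
    (A.inShift t).fld M = cj (inX M t) (A.fld M) := by
  cases A with
  | base π k m B =>
    induction π with
    | nil =>
      show (Atom.base [] k (m * t) B).fld M = _
      rw [fld_base_nil, fld_base_nil, R.out_in _ _ _ (good_cj (R.in_mem m) (R.bfld_good B)),
        L.in_mul _ _ _ (R.bfld_good B)]
    | cons e π ih =>
      show (Atom.base (e :: π) k (m * t) B).fld M = _
      have le := R.le_st (A := .base π k m B) h.2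
      rw [show (Atom.base π k m B).st = e.1.tgt from h.1.symm] at le
      rw [fld_base_cons, fld_base_cons, ← R.edge_in e _ t _ (R.good _) le]
      exact congrArg (cj (edgeX M e)) (ih h.2)
  | push π k m p A =>
    induction π with
    | nil =>
      show (Atom.push [] k (m * t) p A).fld M = _
      rw [fld_push_nil, fld_push_nil,
        R.out_in _ _ _ (good_cj (R.in_mem m) (good_cj (R.push_mem p A.st) (R.good A))),
        L.in_mul _ _ _ (good_cj (R.push_mem p A.st) (R.good A))]
    | cons e π ih =>
      show (Atom.push (e :: π) k (m * t) p A).fld M = _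
      have le := R.le_st (A := .push π k m p A) ⟨h.1.2, h.2⟩
      rw [show (Atom.push π k m p A).st = e.1.tgt from h.1.1.symm] at le
      rw [fld_push_cons, fld_push_cons, ← R.edge_in e _ t _ (R.good _) le]
      exact congrArg (cj (edgeX M e)) (ih ⟨h.1.2, h.2⟩)

/-- The field of an atom moved by an outer translation. -/
theorem fld_outShift {A : Atom d} (h : A.Ok) (t : Outer d) :
    (A.outShift t).fld M = cj (outX M t) (A.fld M) := by
  cases A with
  | base π k m B =>
    induction π with
    | nil =>
      show (Atom.base [] (k * t) m B).fld M = _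
      rw [fld_base_nil, fld_base_nil, L.out_mul _ _ _ (good_cj (R.in_mem m) (R.bfld_good B))]
    | cons e π ih =>
      show (Atom.base (e :: π) (k * t) m B).fld M = _
      have le := R.le_st (A := .base π k m B) h.2
      rw [show (Atom.base π k m B).st = e.1.tgt from h.1.symm] at le
      rw [fld_base_cons, fld_base_cons, ← R.edge_out e _ t _ (R.good _) le]
      exact congrArg (cj (edgeX M e)) (ih h.2)
  | push π k m p A =>
    induction π with
    | nil =>
      show (Atom.push [] (k * t) m p A).fld M = _
      rw [fld_push_nil, fld_push_nil,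
        L.out_mul _ _ _ (good_cj (R.in_mem m) (good_cj (R.push_mem p A.st) (R.good A)))]
    | cons e π ih =>
      show (Atom.push (e :: π) (k * t) m p A).fld M = _
      have le := R.le_st (A := .push π k m p A) ⟨h.1.2, h.2⟩
      rw [show (Atom.push π k m p A).st = e.1.tgt from h.1.1.symm] at le
      rw [fld_push_cons, fld_push_cons, ← R.edge_out e _ t _ (R.good _) le]
      exact congrArg (cj (edgeX M e)) (ih ⟨h.1.2, h.2⟩)

end Rig

/-- The part of `f` inside `E` is trivial or the image under `x` of a flat atom at `s` and `b`. -/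
def Pulled (M : F.Model) (f E : Vgrp (Point d) →* M.P) (x : M.P) (s : State d) (b : Bool) :
    Prop :=
  ∃ t : Atoms (phi M) f E, t.a = 1 ∨
    ∃ k m B, B.s = s ∧ B.b = b ∧ t.a = cj x ((Atom.base [] k m B).fld M)

open scoped commutatorElement in
/-- The meet with `E` is the part inside `E` of any splitting. -/
theorem atoms_a_eq {φ f E P₁ P₂ : Vgrp (Point d) →* M.P} (t : Atoms φ f E)
    (d12 : Calc.Disj P₁ P₂) (hf : ∀ v, f v = P₁ v * P₂ v) (dE : Calc.Disj P₂ E)
    (h1 : Calc.Le P₁ E) : t.a = P₁ := by
  refine hom_ext_commutators commutator_vgrp fun u v => ?_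
  rw [t.a_comm, h1.comm_eq, hf, commutatorElement_def, commutatorElement_def, mul_inv_rev]
  calc P₁ u * P₂ u * E v * ((P₂ u)⁻¹ * (P₁ u)⁻¹) * (E v)⁻¹
      = P₁ u * (P₂ u * E v * (P₂ u)⁻¹) * (P₁ u)⁻¹ * (E v)⁻¹ := by simp [mul_assoc]
    _ = _ := by rw [(dE u v).eq, mul_inv_cancel_right]

/-- A field split into a part inside and a part outside `E` is compatible with `E`, and the first
part is the meet. -/
theorem atoms_of_split {φ f E P₁ P₂ : Vgrp (Point d) →* M.P} (g1 : Frame.Good M φ P₁)
    (g2 : Frame.Good M φ P₂) (gE : Frame.Good M φ E) (d12 : Calc.Disj P₁ P₂)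
    (hf : ∀ v, f v = P₁ v * P₂ v) (dE : Calc.Disj P₂ E) (h1 : Calc.Le P₁ E) :
    ∃ t : Atoms φ f E, t.a = P₁ := by
  obtain ⟨t⟩ := Frame.compat_split g1 g2 gE d12 hf dE (Calc.Le.refl E)
    (compat_of_le g1.le gE.le h1)
  exact ⟨t, atoms_a_eq t d12 hf dE h1⟩

theorem Pulled.of_split {f E P₁ P₂ : Vgrp (Point d) →* M.P} {x : M.P} {s : State d} {b : Bool}
    (g1 : Frame.Good M (phi M) P₁) (g2 : Frame.Good M (phi M) P₂) (gE : Frame.Good M (phi M) E)
    (d12 : Calc.Disj P₁ P₂) (hf : ∀ v, f v = P₁ v * P₂ v) (dE : Calc.Disj P₂ E)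
    (h1 : Calc.Le P₁ E)
    (hp : P₁ = 1 ∨ ∃ k m B, B.s = s ∧ B.b = b ∧ P₁ = cj x ((Atom.base [] k m B).fld M)) :
    Pulled M f E x s b := by
  obtain ⟨t, rfl⟩ := atoms_of_split g1 g2 gE d12 hf dE h1
  exact ⟨t, hp⟩

end Vale.Agent.P193.Core.Inst
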