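import Vale.Agent.P193.Full.Core.Inst.Laws.Disj
import Vale.Agent.P193.Full.Core.Inst.Rig

/-! The group laws of the translations and the disjointness of their translates hold in every
model of finitely many true relations. -/

namespace Vale.Agent.P193.Core.Inst.Laws

open Calc Facts Classical

set_option linter.unusedSectionVars false

variable {d : Data} [DecidableEq d.M.A] {F : Calc.Frame (Point d)}

/-- All facts of the laws. -/
structure LawFacts {F : Calc.Frame (Point d)} (M : F.Model) : Prop where
  basic : Basic M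
  edges : Edges M
  certs : Certs M
  inner : InnerRules M
  outer : OuterRules M
  disj : DisjRules M

variable (F) in
/-- The inner word of an element is the inverse of the word of a list. -/
theorem exists_inList (hG : Good d) (m : Inner d) :
    ∃ l : List (Fin d.n), (l.map d.gen).prod = m⁻¹ ∧ inWord F m = (tW F l)⁻¹ := by
  have h : ∃ w : List (Fin d.n), (w.map d.gen).prod = m⁻¹ := hG.gen_surj _
  refine ⟨h.choose, h.choose_spec, ?_⟩
  have e : ∀ l : List (Fin d.n), inHom F (l.map FreeGroup.of).prod = (tW F l)⁻¹ := by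
    intro l
    induction l with
    | nil => simp [tW]
    | cons i l ih =>
      rw [List.map_cons, List.prod_cons, map_mul, ih, tW, mul_inv_rev]
      congr 1
      simp [inHom, tL]
  rw [inWord, dif_pos h]
  exact e _

variable (F) in
/-- The outer word of an element is a word in the outer generators with the inverse value. -/
theorem exists_outList (hG : Good d) (k : Outer d) :
    ∃ u : FreeGroup (OG d), FreeGroup.lift oval u = k⁻¹ ∧ outWord F k = oHom F u := by
  have h : ∃ w : FreeGroup {x // x ∈ d.subGens}, FreeGroup.lift Subtype.val w = k.1⁻¹ := by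
    have : k.1⁻¹ ∈ (FreeGroup.lift (Subtype.val : {x // x ∈ d.subGens} → d.Γ₀)).range := by
      rw [FreeGroup.range_lift_eq_closure, Subtype.range_coe_subtype]
      show k.1⁻¹ ∈ Subgroup.closure (d.subGens : Set d.Γ₀)
      rw [hG.subGens_top]; exact Subgroup.mem_top _
    exact this
  let up₀ : FreeGroup {x // x ∈ d.subGens} →* FreeGroup (OG d) := FreeGroup.map Sum.inl
  refine ⟨up₀ h.choose * up₁ k.2.1⁻¹ * up₂ k.2.2⁻¹, ?_, ?_⟩
  · have e : (FreeGroup.lift oval).comp up₀ =
        (MonoidHom.inl d.Γ₀ _).comp (FreeGroup.lift Subtype.val) :=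
      FreeGroup.ext_hom _ _ fun x => by simp [up₀, oval]
    rw [map_mul, map_mul, oval_up₁, oval_up₂,
      show FreeGroup.lift oval (up₀ h.choose) = _ from DFunLike.congr_fun e h.choose,
      MonoidHom.comp_apply, h.choose_spec]
    simp [Prod.ext_iff]
  · rw [outWord, dif_pos h, map_mul, map_mul]
    have e0 : (oHom F).comp up₀ = outHom₀ F := FreeGroup.ext_hom _ _ fun x => by
      simp [up₀, oHom, outHom₀, oL, oval]
    have e1 : (oHom F).comp up₁ = outHom₁ F := FreeGroup.ext_hom _ _ fun x => by
      simp [up₁, oHom, outHom₁, oL, oval]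
    have e2 : (oHom F).comp up₂ = outHom₂ F := FreeGroup.ext_hom _ _ fun x => by
      simp [up₂, oHom, outHom₂, oL, oval]
    rw [← e0, ← e1, ← e2]
    rfl

variable {M : F.Model} (L : LawFacts M) (hG : Good d)
include L hG

theorem in_mul (m m' : Inner d) {f : Vgrp (Point d) →* M.P} (hf : Frame.Good M (phi M) f) :
    cj (inX M m) (cj (inX M m') f) = cj (inX M (m' * m)) f := by
  obtain ⟨l, hl, e⟩ := exists_inList F hG m
  obtain ⟨l', hl', e'⟩ := exists_inList F hG m'
  obtain ⟨r, hr, e''⟩ := exists_inList F hG (m' * m)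
  have h := inner_congr L.basic L.edges L.certs L.inner hG (l := l ++ l') (l' := r)
    (by simp [hl, hl', hr])
  have h1 := (Same.down hf hf.le (same_inv L.basic (L.basic.mTW _) h)).cj_eq
  rw [tW_append, mul_inv_rev, cj_cj, ← e, ← e', ← e''] at h1
  exact h1

theorem out_mul (k k' : Outer d) {f : Vgrp (Point d) →* M.P} (hf : Frame.Good M (phi M) f) :
    cj (outX M k) (cj (outX M k') f) = cj (outX M (k' * k)) f := by
  obtain ⟨u, hu, e⟩ := exists_outList F hG k
  obtain ⟨u', hu', e'⟩ := exists_outList F hG k'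
  obtain ⟨r, hr, e''⟩ := exists_outList F hG (k' * k)
  have h := outer_congr L.basic L.edges L.certs L.inner L.outer hG (u := u * u') (u' := r)
    (by simp [hu, hu', hr])
  have h1 := (Same.down hf hf.le h).cj_eq
  rw [map_mul, cj_cj, ← e, ← e', ← e''] at h1
  exact h1

omit hG in
theorem in_fix_one {f : Vgrp (Point d) →* M.P} (hG : Good d) (hf : Frame.Good M (phi M) f) :
    cj (inX M (1 : Inner d)) f = f := by
  have := in_mul L hG 1 1 hf
  rw [one_mul] at this
  exact cj_injective this

omit hG in
theorem out_fix_one {f : Vgrp (Point d) →* M.P} (hG : Good d) (hf : Frame.Good M (phi M) f) :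
    cj (outX M (1 : Outer d)) f = f := by
  have := out_mul L hG 1 1 hf
  rw [one_mul] at this
  exact cj_injective this

theorem in_good (m : Inner d) {f : Vgrp (Point d) →* M.P} (hf : Frame.Good M (phi M) f) :
    Frame.Good M (phi M) (cj (inX M m) f) := by
  obtain ⟨l, -, e⟩ := exists_inList F hG m
  show Frame.Good M (phi M) (cj (M.f (inWord F m)) f)
  rw [e]
  exact good_move (inv_mem (L.basic.mTW l)) hf

theorem in_disj (m : Inner d) (hm : m ≠ 1) {x : F.Free} (hx : x ∈ moves M)
    {D₀ X : Vgrp (Point d) →* M.P} (gD : Frame.Good M (phi M) D₀) (hX : Calc.Le D₀ X)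
    (hle : Calc.Le (cj (M.f x) D₀) (fb M .fin false .gHOne))
    (hs : ∀ i, tL F i ∈ slides M X x) : Calc.Disj (cj (inX M m) D₀) D₀ := by
  obtain ⟨l, hl, e⟩ := exists_inList F hG m
  show Calc.Disj (cj (M.f (inWord F m)) D₀) D₀
  rw [e]
  exact pull_disj L.basic L.edges L.certs L.disj hG hx gD hX hle hs
    (by rw [hl]; exact inv_ne_one.2 hm)

theorem g_one (s : State d) (b : Bool) {m : Inner d} (hm : m ≠ 1) :
    Calc.Disj (cj (inX M m) (fb M s b .gOne)) (fb M s b .gOne) := by
  cases b with
  | true => rw [L.disj.gEmpty s]; exact fun v w => Commute.one_right _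
  | false =>
    exact in_disj L hG m hm (L.basic.mP .omD s) (L.basic.good _) (L.basic.sub _ _ _)
      (L.disj.dG s) (L.inner.dSlide s)

theorem k_one (s : State d) (b : Bool) {m : Inner d} (hm : m ≠ 1) :
    Calc.Disj (cj (inX M m) (fb M s b .kSet)) (fb M s b .kSet) := by
  by_cases h : s ≠ .guess ∨ b = true
  · rw [L.disj.kEmpty s b h]; exact fun v w => Commute.one_right _
  · push Not at h
    obtain ⟨rfl, hb⟩ := h
    obtain rfl : b = false := by simpa using hb
    exact in_disj L hG m hm (L.basic.mP .omK .guess) (L.basic.good _) (L.basic.sub _ _ _)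
      L.disj.kG L.disj.kSlide

theorem h_one (s : State d) (b : Bool) {k : Outer d} (hk : k ≠ 1) :
    Calc.Disj (cj (outX M k) (fb M s b .hOne)) (fb M s b .hOne) := by
  obtain ⟨u, hu, e⟩ := exists_outList F hG k
  obtain ⟨l, hl, -, hs⟩ := iHom_congr L.basic L.edges L.certs L.inner L.outer hG u
  have hv : (l.map d.gen).prod ≠ 1 := by
    rw [hl, hu]
    exact fun h => hk (inv_eq_one.1 (toInner_inj hG (h.trans (map_one _).symm)))
  have gD : Frame.Good M (phi M) (fb M s b .hOne) := L.basic.good _
  have hθ := L.basic.mP .theta s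
  have hO : oHom F u ∈ moves M := L.basic.mOH u
  have hT : (tW F l)⁻¹ ∈ moves M := inv_mem (L.basic.mTW l)
  have gG : Frame.Good M (phi M) (fb M .fin false .gHOne) := L.basic.good _
  have hle := L.outer.thLe s b
  have h1 := fin_disj L.basic L.edges L.certs L.disj hG hv
  have hc := (Same.down gD (L.basic.sub s b .hOne)
    (theta_comm L.basic L.edges L.certs L.inner L.outer s b u)).cj_eq
  rw [cj_cj, cj_cj, (Same.down (good_move hθ gD) (good_move hθ gD).le hs).cj_eq] at hc
  have h2 : Calc.Disj (cj (M.f (pW F .theta s)) (cj (M.f (oHom F u)) (fb M s b .hOne)))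
      (cj (M.f (pW F .theta s)) (fb M s b .hOne)) := by
    rw [hc]
    exact disj_of_le (good_move hT (good_move hθ gD)) (good_move hθ gD) gG (le_cj _ hle) hle
      fun v w => (h1 w v).symm
  have h3 := disj_cj (M.f (pW F .theta s)⁻¹) h2
  rw [cj_inv_left, cj_inv_left, ← e] at h3
  exact h3

theorem groupLaws : GroupLaws M where
  out_mul k k' f hf := out_mul L hG k k' hf
  in_mul m m' f hf := in_mul L hG m m' hf
  h_disj s b k k' hk := by
    have g : Frame.Good M (phi M) (fb M s b .hOne) := L.basic.good _
    have h := disj_cj (outX M k') (h_one L hG s b (k := k * k'⁻¹)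
      (fun e => hk (mul_inv_eq_one.1 e)))
    rwa [out_mul L hG _ _ g, inv_mul_cancel_right] at h
  g_disj s b m m' hm := by
    have g : Frame.Good M (phi M) (fb M s b .gOne) := L.basic.good _
    have h := disj_cj (inX M m') (g_one L hG s b (m := m * m'⁻¹)
      (fun e => hm (mul_inv_eq_one.1 e)))
    rwa [in_mul L hG _ _ g, inv_mul_cancel_right] at h
  k_disj s b m m' hm := by
    have g : Frame.Good M (phi M) (fb M s b .kSet) := L.basic.good _
    have h := disj_cj (inX M m') (k_one L hG s b (m := m * m'⁻¹)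
      (fun e => hm (mul_inv_eq_one.1 e)))
    rwa [in_mul L hG _ _ g, inv_mul_cancel_right] at h

end Vale.Agent.P193.Core.Inst.Laws

namespace Vale.Agent.P193.Core.Inst

variable {d : Data} [DecidableEq d.M.A] {F : Calc.Frame (Point d)}

/-- The group laws hold eventually. -/
theorem ev_groupLaws (hG : Good d) (hF : IsCore F) : F.Ev fun M => GroupLaws M :=
  ((((Laws.ev_basic hG hF).and (Laws.ev_edges hG hF)).and
    ((Laws.ev_certs hG hF).and (Laws.ev_innerRules hG hF))).and
    ((Laws.ev_outerRules hG hF).and (Laws.ev_disjRules hG hF))).mono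
    fun _ ⟨⟨⟨a, b⟩, c, e⟩, f, g⟩ => Laws.groupLaws ⟨a, b, c, e, f, g⟩ hG

end Vale.Agent.P193.Core.Inst
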