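import Vale.Agent.P193.Full.Core.Inst.Slices

/-! The transport facts hold in every model satisfying finitely many true relations. -/

namespace Vale.Agent.P193.Core.Inst

open Calc Facts Classical

set_option linter.unusedSectionVars false

variable {d : Data} [DecidableEq d.M.A] {F : Calc.Frame (Point d)}

theorem finite_preds : Finite (Pred d) :=
  have := finite_ltr (d := d)
  Finite.of_injective (β := Option (Option (Option (Option (Option (Option (Option
      (Ltr d × Bool))))))))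
    (fun
      | .full => none
      | .hOne => some none
      | .zOne => some (some none)
      | .clean => some (some (some none))
      | .gOne => some (some (some (some none)))
      | .kSet => some (some (some (some (some none))))
      | .gHOne => some (some (some (some (some (some none)))))
      | .zFront s => some (some (some (some (some (some (some s)))))))
    (by intro a b h; cases a <;> cases b <;> simp_all)

theorem finite_bases : Finite (Base d) :=
  have := finite_state (d := d)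
  have := finite_preds (d := d)
  Finite.of_injective (fun B : Base d => (B.s, B.b, B.p))
    (by rintro ⟨s, b, p⟩ ⟨s', b', p'⟩ h; simp_all)

theorem finite_push : Finite Push :=
  Finite.of_injective (β := Option (Option (Option (Option Unit))))
    (fun
      | .theta => none
      | .omC => some none
      | .omD => some (some none)
      | .omK => some (some (some none))
      | .tMap => some (some (some (some ()))))
    (by intro a b h; cases a <;> cases b <;> simp_all)

theorem finite_oedge : Finite (OEdge d) := (finite_edges (d := d)).to_subtype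

/-! ### Subgroups of translating elements -/

variable {M : F.Model}

/-- The elements fixing a field. -/
def fixSub (f : Vgrp (Point d) →* M.P) : Subgroup M.P where
  carrier := {a | cj a f = f}
  one_mem' := cj_one f
  mul_mem' := fun {a b} (ha : cj a f = f) (hb : cj b f = f) =>
    show cj (a * b) f = f by rw [cj_mul, hb, ha]
  inv_mem' := fun {a} (ha : cj a f = f) =>
    show cj a⁻¹ f = f by
      conv_lhs => rw [← ha]
      exact cj_inv_cancel a f

/-- The moving elements that fix a field and commute with `x` on the good fields below it. -/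
noncomputable def commSub (x : M.P) (T : Vgrp (Point d) →* M.P) : Subgroup M.P where
  carrier := {a | a ∈ Frame.moveSub M (phi M) ∧ cj a T = T ∧
    ∀ f, Frame.Good M (phi M) f → Calc.Le f T → cj x (cj a f) = cj a (cj x f)}
  one_mem' := ⟨one_mem _, cj_one T, fun f _ _ => by rw [cj_one, cj_one]⟩
  mul_mem' := by
    rintro a b ⟨a1, a2, a3⟩ ⟨b1, b2, b3⟩
    refine ⟨mul_mem a1 b1, by rw [cj_mul, b2, a2], fun f hf hle => ?_⟩
    rw [cj_mul, a3 _ (good_cj b1 hf) (b2 ▸ le_cj b hle), b3 f hf hle, cj_mul]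
  inv_mem' := by
    rintro a ⟨a1, a2, a3⟩
    have e : cj a⁻¹ T = T := by
      conv_lhs => rw [← a2]
      exact cj_inv_cancel a T
    refine ⟨inv_mem a1, e, fun f hf hle => ?_⟩
    have h := a3 _ (good_cj (inv_mem a1) hf) (e ▸ le_cj a⁻¹ hle)
    rw [cj_cancel_inv] at h
    rw [h, cj_inv_cancel]

/-- A subgroup with the inner letters has all inner translations. -/
theorem inX_mem (S : Subgroup M.P)
    (h : ∀ i, M.f (tr F (gT (d.gen i)) Set.univ) ∈ S) (m : Inner d) : inX M m ∈ S := by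
  have key : ∀ w, M.f (inHom F w) ∈ S := fun w => by
    induction w using FreeGroup.induction_on with
    | C1 => rw [map_one, map_one]; exact one_mem _
    | of i => simp only [inHom, FreeGroup.lift_apply_of, map_inv]; exact inv_mem (h i)
    | inv_of i hi => rw [map_inv, map_inv]; exact inv_mem hi
    | mul a b ha hb => rw [map_mul, map_mul]; exact mul_mem ha hb
  show M.f (inWord F m) ∈ S
  unfold inWord
  split_ifs with hw
  · exact key _
  · rw [map_one]; exact one_mem _

/-- A subgroup with the outer letters has all outer translations. -/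
theorem outX_mem (S : Subgroup M.P)
    (h0 : ∀ x ∈ d.subGens, M.f (tr F (hT ((x, 1, 1) : Outer d)) Set.univ) ∈ S)
    (h1 : ∀ a, M.f (tr F (hT ((1, FreeGroup.of a, 1) : Outer d)) Set.univ) ∈ S)
    (h2 : ∀ a, M.f (tr F (hT ((1, 1, FreeGroup.of a) : Outer d)) Set.univ) ∈ S) (k : Outer d) :
    outX M k ∈ S := by
  have k0 : ∀ w, M.f (outHom₀ F w) ∈ S := fun w => by
    induction w using FreeGroup.induction_on with
    | C1 => rw [map_one, map_one]; exact one_mem _
    | of i =>
      simp only [outHom₀, FreeGroup.lift_apply_of, map_inv]; exact inv_mem (h0 i.1 i.2)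
    | inv_of i hi => rw [map_inv, map_inv]; exact inv_mem hi
    | mul a b ha hb => rw [map_mul, map_mul]; exact mul_mem ha hb
  have k1 : ∀ w, M.f (outHom₁ F w) ∈ S := fun w => by
    induction w using FreeGroup.induction_on with
    | C1 => rw [map_one, map_one]; exact one_mem _
    | of i => simp only [outHom₁, FreeGroup.lift_apply_of, map_inv]; exact inv_mem (h1 i)
    | inv_of i hi => rw [map_inv, map_inv]; exact inv_mem hi
    | mul a b ha hb => rw [map_mul, map_mul]; exact mul_mem ha hb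
  have k2 : ∀ w, M.f (outHom₂ F w) ∈ S := fun w => by
    induction w using FreeGroup.induction_on with
    | C1 => rw [map_one, map_one]; exact one_mem _
    | of i => simp only [outHom₂, FreeGroup.lift_apply_of, map_inv]; exact inv_mem (h2 i)
    | inv_of i hi => rw [map_inv, map_inv]; exact inv_mem hi
    | mul a b ha hb => rw [map_mul, map_mul]; exact mul_mem ha hb
  show M.f (outWord F k) ∈ S
  rw [outWord, map_mul, map_mul]
  refine mul_mem (mul_mem ?_ (k1 _)) (k2 _)
  split_ifs with hw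
  · exact k0 _
  · rw [map_one]; exact one_mem _

/-! ### Agreement on the points -/

theorem isDiag_of_eval {x : F.Free} {τ : Equiv.Perm (Point d)} (h : F.eval x = diag τ) :
    F.IsDiag x τ := fun f s => by rw [h]; rfl

/-- A graph commuting with a total translation gives agreeing permutations. -/
theorem agree_comm {γ η : Set (Point d × Point d)} {D : Set (Point d)}
    {τ σ : Equiv.Perm (Point d)} (hτ : ∀ s ∈ D, ∀ t, (s, t) ∈ γ → τ s = t)
    (hσ : ∀ x y, (x, y) ∈ η ↔ σ x = y) (hc : gcomp γ η = gcomp η γ) (hdom : D ⊆ gdom γ)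
    (hD : ∀ s ∈ D, σ s ∈ D) : ∀ s ∈ D, (τ * σ) s = (σ * τ) s := by
  intro s hs
  obtain ⟨t, ht⟩ := hdom hs
  have : (s, σ t) ∈ gcomp γ η := ⟨t, ht, (hσ _ _).2 rfl⟩
  rw [hc] at this
  obtain ⟨u, hu, hu'⟩ := this
  rw [← (hσ _ _).1 hu] at hu'
  rw [Equiv.Perm.mul_apply, Equiv.Perm.mul_apply, hτ s hs t ht, hτ _ (hD s hs) _ hu']

theorem inPerm_inv_apply (m : Inner d) (x : Point d) :
    (inPerm m)⁻¹ x = { x with g := x.g * m } := rfl

theorem outPerm_inv_apply (k : Outer d) (x : Point d) :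
    (outPerm k)⁻¹ x = { x with h := x.h * k } := rfl

theorem inPerm_graph (m : Inner d) (x y : Point d) : (x, y) ∈ gT m ↔ (inPerm m)⁻¹ x = y :=
  ⟨fun h => (show y = _ from h).symm, fun h => h.symm⟩

theorem outPerm_graph (k : Outer d) (x y : Point d) : (x, y) ∈ hT k ↔ (outPerm k)⁻¹ x = y :=
  ⟨fun h => (show y = _ from h).symm, fun h => h.symm⟩

theorem image_eq_of_forall {X : Type*} {τ : Equiv.Perm X} {A : Set X}
    (h : ∀ x, τ x ∈ A ↔ x ∈ A) : τ '' A = A := by
  ext y
  obtain ⟨x, rfl⟩ := τ.surjective y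
  rw [Function.Injective.mem_set_image τ.injective]
  exact (h x).symm

theorem inFix_mem (B : Base d) (h : B.p.InFix) (m : Inner d) (x : Point d) :
    (inPerm m)⁻¹ x ∈ B.set ↔ x ∈ B.set := by
  obtain ⟨s, b, p⟩ := B
  cases p <;> first | exact h.elim | exact Iff.rfl

theorem outFix_mem (B : Base d) (h : B.p.OutFix) (k : Outer d) (x : Point d) :
    (outPerm k)⁻¹ x ∈ B.set ↔ x ∈ B.set := by
  obtain ⟨s, b, p⟩ := B
  cases p <;> first | exact h.elim | exact Iff.rfl

theorem stB_set (s : State d) (b : Bool) : (stB s b).set = atS s ∩ tagIs b :=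
  Set.inter_univ _

theorem domB_mem_in (p : Push) (s : State d) (b : Bool) (m : Inner d) (x : Point d) :
    (inPerm m)⁻¹ x ∈ (p.domB s b).set ↔ x ∈ (p.domB s b).set :=
  inFix_mem _ (by cases p <;> exact trivial) m x

theorem domB_dom {p : Push} {s : State d} {b : Bool} (h : p.DomAt s b) :
    (p.domB s b).set ⊆ gdom (p.graph (d := d)) := by
  rintro x ⟨⟨hs, hb⟩, hp⟩
  have hb' : x.tag = b := hb
  have nt : b = false → x ∈ (tagSᶜ : Set (Point d)) := fun e e' =>
    Bool.false_ne_true ((e.symm.trans hb'.symm).trans e')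
  cases p with
  | theta => exact gdom_thetaG.symm.subset trivial
  | omC => exact gdom_omCG.symm.subset (hb'.trans h)
  | omD => exact gdom_omDG.symm.subset (nt h)
  | omK => exact gdom_omKG.symm.subset ⟨(show x.st = s from hs).trans h.2, nt h.1⟩
  | tMap => exact gdom_tG.symm.subset ⟨⟨(show x.st = s from hs).trans h.2, hp⟩, nt h.1⟩

theorem push_gT_comm : ∀ {p : Push}, p ≠ .theta → ∀ t : Inner d,
    gcomp (p.graph (d := d)) (gT t) = gcomp (gT t) p.graph
  | .theta, h, _ => absurd rfl h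
  | .omC, _, t => omCG_gT_comm t
  | .omD, _, t => omDG_gT_comm t
  | .omK, _, t => omKG_gT_comm t
  | .tMap, _, t => tG_gT_comm t

theorem imS_disjoint (hG : Good d) {p p' : Push} {s s' : State d} {b b' : Bool}
    (h : p ≠ p' ∨ s ≠ s' ∨ b ≠ b') : Disjoint (p.imS s b) (p'.imS s' b') := by
  rw [Set.disjoint_left]
  rintro y ⟨x, ⟨⟨hx1, hx2⟩, -⟩, hxy⟩ ⟨x', ⟨⟨hx1', hx2'⟩, -⟩, hxy'⟩
  by_cases e : p = p'
  · subst e
    obtain rfl := (Facts.Gen.isPB hG (Push.gen p)).2 _ _ _ hxy hxy'
    rcases h with h | h | h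
    · exact h rfl
    · exact h ((show x.st = s from hx1).symm.trans hx1')
    · exact h ((show x.tag = b from hx2).symm.trans hx2')
  · cases p <;> cases p' <;>
      first
      | exact e rfl
      | (simp only [Push.graph, thetaG, omCG, omDG, omKG, tG, Set.mem_ofPred_eq] at hxy hxy'
         grind)

section Core

variable (hG : Good d) (hF : IsCore F)
include hG hF

omit hG in
theorem hasSet_bset (B : Base d) : HasSet F B.set :=
  fun v => Calc.Frame.exists_restr_gmem (gmem_base hF B) v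

omit hG in
theorem diag_in (i : Fin d.n) :
    F.IsDiag (tr F (gT (d.gen i)) Set.univ) (inPerm (d.gen i))⁻¹ :=
  isDiag_of_eval (eval_tr_gT hF i)

omit hG in
theorem diag_out₀ (x : d.Γ₀) (hx : x ∈ d.subGens) :
    F.IsDiag (tr F (hT ((x, 1, 1) : Outer d)) Set.univ) (outPerm (x, 1, 1))⁻¹ :=
  isDiag_of_eval (eval_tr_hT hF (gen_hT₀ x hx))

omit hG in
theorem diag_out₁ (a : Ltr d) :
    F.IsDiag (tr F (hT ((1, FreeGroup.of a, 1) : Outer d)) Set.univ)
      (outPerm (1, FreeGroup.of a, 1))⁻¹ :=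
  isDiag_of_eval (eval_tr_hT hF (gen_hT₁ a))

omit hG in
theorem diag_out₂ (a : Ltr d) :
    F.IsDiag (tr F (hT ((1, 1, FreeGroup.of a) : Outer d)) Set.univ)
      (outPerm (1, 1, FreeGroup.of a))⁻¹ :=
  isDiag_of_eval (eval_tr_hT hF (gen_hT₂ a))

/-- A property of the outer letters that holds eventually for each holds for all at once. -/
theorem ev_outLetters {P : F.Model → F.Free → Prop}
    (h : ∀ (k : Outer d) (x : F.Free), F.IsDiag x (outPerm k)⁻¹ → F.Ev fun M => P M x) :
    F.Ev fun M => (∀ x ∈ d.subGens, P M (tr F (hT ((x, 1, 1) : Outer d)) Set.univ)) ∧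
      (∀ a, P M (tr F (hT ((1, FreeGroup.of a, 1) : Outer d)) Set.univ)) ∧
      ∀ a, P M (tr F (hT ((1, 1, FreeGroup.of a) : Outer d)) Set.univ) := by
  have := @Finite.of_fintype _ d.M.fintypeA
  have h0 : F.Ev fun M => ∀ x : {x // x ∈ d.subGens},
      P M (tr F (hT ((x.1, 1, 1) : Outer d)) Set.univ) :=
    Frame.Ev.all fun x => h _ _ (diag_out₀ hF x.1 x.2)
  refine (h0.and ((Frame.Ev.all fun a => h _ _ (diag_out₁ hF a)).and
    (Frame.Ev.all fun a => h _ _ (diag_out₂ hF a)))).mono ?_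
  exact fun M hM => ⟨fun x hx => hM.1 ⟨x, hx⟩, hM.2.1, hM.2.2⟩

theorem ev_goods : F.Ev fun M => Frame.IsPhi M (phi M) ∧
    ∀ B : Base d, Frame.Good M (phi M) (bfld M B) := by
  have := finite_bases (d := d)
  exact (ev_phi.and (Frame.Ev.all fun B => ev_setFld (hasSet_bset hF B))).mono
    fun M hM => ⟨hM.1, fun B => (hM.2 B).2.2.2⟩

theorem ev_mems : F.Ev fun M =>
    (∀ e, edgeX M e ∈ Frame.moveSub M (phi M)) ∧
    (∀ p s, pushX M p s ∈ Frame.moveSub M (phi M)) ∧
    (∀ k, outX M k ∈ Frame.moveSub M (phi M)) ∧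
    ∀ m, inX M m ∈ Frame.moveSub M (phi M) := by
  have := finite_oedge (d := d)
  have := finite_state (d := d)
  have := finite_push
  have he : F.Ev fun M => ∀ e, edgeX M e ∈ Frame.moveSub M (phi M) :=
    Frame.Ev.all fun e => by
      obtain ⟨τ, hτ, -⟩ := tr_edge hG hF e
      exact (ev_diag hτ).mono fun M h => h.1
  have hp : F.Ev fun M => ∀ q : Push × State d,
      pushX M q.1 q.2 ∈ Frame.moveSub M (phi M) :=
    Frame.Ev.all fun q => by
      obtain ⟨τ, hτ, -⟩ := tr_push hG hF q.1 q.2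
      exact (ev_diag hτ).mono fun M h => h.1
  have hi : F.Ev fun M => ∀ i,
      M.f (tr F (gT (d.gen i)) Set.univ) ∈ Frame.moveSub M (phi M) :=
    Frame.Ev.all fun i => (ev_diag (diag_in hF i)).mono fun M h => h.1
  have ho := ev_outLetters hG hF (P := fun M x => M.f x ∈ Frame.moveSub M (phi M))
    fun k x hx => (ev_diag hx).mono fun M h => h.1
  refine (he.and (hp.and (hi.and ho))).mono ?_
  rintro M ⟨he, hp, hi, h0, h1, h2⟩
  exact ⟨he, fun p s => hp (p, s), outX_mem _ h0 h1 h2, inX_mem _ hi⟩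

theorem ev_ones : F.Ev fun M => outX M 1 = 1 ∧ inX M 1 = 1 := by
  refine ((Frame.Ev.rel (F := F) (a := outWord F 1) (b := 1) ?_).and
    (Frame.Ev.rel (F := F) (a := inWord F 1) (b := 1) ?_)).mono ?_
  · rw [eval_outWord hG hF, inv_one, map_one, map_one, map_one]
  · rw [eval_inWord hG hF, inv_one, map_one, map_one, map_one]
  intro M hM
  exact ⟨hM.1.trans (map_one M.f), hM.2.trans (map_one M.f)⟩

theorem ev_les : F.Ev fun M =>
    (∀ B : Base d, Calc.Le (bfld M B) (bfld M (stB B.s B.b))) ∧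
    (∀ s b, Calc.Le (bfld M (⟨s, b, .gHOne⟩ : Base d)) (bfld M ⟨s, b, .hOne⟩)) ∧
    (∀ s b, Calc.Le (bfld M (⟨s, b, .gHOne⟩ : Base d)) (bfld M ⟨s, b, .gOne⟩)) ∧
    ∀ (s s' : State d) (b b' : Bool), s ≠ s' ∨ b ≠ b' →
      Calc.Disj (bfld M (stB s b)) (bfld M (stB s' b')) := by
  have := finite_bases (d := d)
  have := finite_state (d := d)
  have h1 : F.Ev fun M => ∀ B : Base d, Calc.Le (bfld M B) (bfld M (stB B.s B.b)) :=
    Frame.Ev.all fun B => ev_le (hasSet_bset hF B) (hasSet_bset hF _)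
      fun x hx => ⟨hx.1, trivial⟩
  have h2 : F.Ev fun M => ∀ q : State d × Bool,
      Calc.Le (bfld M (⟨q.1, q.2, .gHOne⟩ : Base d)) (bfld M ⟨q.1, q.2, .hOne⟩) :=
    Frame.Ev.all fun q => ev_le (hasSet_bset hF _) (hasSet_bset hF _)
      fun x hx => ⟨hx.1, hx.2.2⟩
  have h3 : F.Ev fun M => ∀ q : State d × Bool,
      Calc.Le (bfld M (⟨q.1, q.2, .gHOne⟩ : Base d)) (bfld M ⟨q.1, q.2, .gOne⟩) :=
    Frame.Ev.all fun q => ev_le (hasSet_bset hF _) (hasSet_bset hF _)
      fun x hx => ⟨hx.1, hx.2.1⟩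
  have h4 : F.Ev fun M => ∀ q : {q : (State d × Bool) × State d × Bool //
      q.1.1 ≠ q.2.1 ∨ q.1.2 ≠ q.2.2},
      Calc.Disj (bfld M (stB q.1.1.1 q.1.1.2)) (bfld M (stB q.1.2.1 q.1.2.2)) :=
    Frame.Ev.all fun q => ev_disj_fld (hasSet_bset hF _) (hasSet_bset hF _) (by
      rw [stB_set, stB_set, Set.disjoint_left]
      rintro x ⟨a1, a2⟩ ⟨b1, b2⟩
      rcases q.2 with h | h
      · exact h ((show x.st = _ from a1).symm.trans b1)
      · exact h ((show x.tag = _ from a2).symm.trans b2))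
  refine (h1.and (h2.and (h3.and h4))).mono ?_
  rintro M ⟨h1, h2, h3, h4⟩
  exact ⟨h1, fun s b => h2 (s, b), fun s b => h3 (s, b),
    fun s s' b b' h => h4 ⟨((s, b), (s', b')), h⟩⟩

theorem edge_image (e : OEdge d) (b : Bool) : ∃ τ : Equiv.Perm (Point d),
    F.eval (edgeW F e) = diag τ ∧ τ '' (stB e.1.tgt b).set = edgeTS e b := by
  obtain ⟨τ, hτ, eτ⟩ := isTr_image hG hF (tr_edge hG hF e) (X := (stB e.1.tgt b).set)
    (fun x hx => hx.1.1) (fun x hx => (gdom_edgeG _ e.2).symm.subset hx.1.1)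
  refine ⟨τ, hτ, eτ.trans ?_⟩
  rw [stB_set]
  ext x
  constructor
  · rintro ⟨y, ⟨-, hy⟩, σ, b', w, g, h, h1, h2⟩
    simp only at h1 h2
    subst h1 h2
    exact ⟨⟨e.2, σ, b', w, g, _, rfl⟩, hy⟩
  · rintro ⟨hx, hb⟩
    obtain ⟨y, hy⟩ := (gran_edgeG e.1 e.2).symm.subset hx
    obtain ⟨σ, b', w, g, h, h1, h2⟩ := hy
    simp only at h1 h2
    subst h1 h2
    exact ⟨⟨e.1.tgt, σ, b', w, g, h⟩, ⟨rfl, hb⟩, σ, b', w, g, h, rfl, rfl⟩

theorem hasSet_edgeT (e : OEdge d) (b : Bool) : HasSet F (edgeTS e b) := by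
  obtain ⟨τ, hτ, eτ⟩ := edge_image hG hF e b
  exact eτ ▸ (hasSet_bset hF _).image (isDiag_of_eval hτ)

theorem ev_edges : F.Ev fun M =>
    (∀ e b, cj (edgeX M e) (bfld M (stB e.1.tgt b)) = setFld M (edgeTS e b)) ∧
    (∀ e b, Calc.Le (setFld M (edgeTS e b)) (bfld M (stB e.1.src b))) ∧
    ∀ (e e' : OEdge d) (b b' : Bool), e ≠ e' ∨ b ≠ b' →
      Calc.Disj (setFld M (edgeTS e b)) (setFld M (edgeTS e' b')) := by
  have := finite_oedge (d := d)
  have h1 : F.Ev fun M => ∀ q : OEdge d × Bool,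
      cj (edgeX M q.1) (bfld M (stB q.1.1.tgt q.2)) = setFld M (edgeTS q.1 q.2) :=
    Frame.Ev.all fun q => by
      obtain ⟨τ, hτ, eτ⟩ := edge_image hG hF q.1 q.2
      exact eτ ▸ ev_image (isDiag_of_eval hτ) (hasSet_bset hF _)
  have h2 : F.Ev fun M => ∀ q : OEdge d × Bool,
      Calc.Le (setFld M (edgeTS q.1 q.2)) (bfld M (stB q.1.1.src q.2)) :=
    Frame.Ev.all fun q => ev_le (hasSet_edgeT hG hF _ _) (hasSet_bset hF _) fun x hx =>
      ⟨⟨edgeS_subset _ hx.1, hx.2⟩, trivial⟩
  have h3 : F.Ev fun M => ∀ q : {q : (OEdge d × Bool) × OEdge d × Bool //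
      q.1.1 ≠ q.2.1 ∨ q.1.2 ≠ q.2.2},
      Calc.Disj (setFld M (edgeTS q.1.1.1 q.1.1.2)) (setFld M (edgeTS q.1.2.1 q.1.2.2)) :=
    Frame.Ev.all fun q => ev_disj_fld (hasSet_edgeT hG hF _ _) (hasSet_edgeT hG hF _ _) (by
      rw [Set.disjoint_left]
      rintro x ⟨a1, a2⟩ ⟨b1, b2⟩
      rcases q.2 with h | h
      · exact Set.disjoint_left.1 (edgeS_disjoint fun e => h (Subtype.ext e)) a1 b1
      · exact h ((show x.tag = _ from a2).symm.trans b2))
  refine (h1.and (h2.and h3)).mono ?_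
  rintro M ⟨h1, h2, h3⟩
  exact ⟨fun e b => h1 (e, b), fun e b => h2 (e, b),
    fun e e' b b' h => h3 ⟨((e, b), (e', b')), h⟩⟩

theorem push_image {p : Push} {s : State d} {b : Bool} (h : p.DomAt s b) :
    ∃ τ : Equiv.Perm (Point d), F.eval (pushW F p s) = diag τ ∧
      τ '' (p.domB s b).set = p.imS s b :=
  isTr_image hG hF (tr_push hG hF p s) (fun _ hx => hx.1.1) (domB_dom h)

theorem hasSet_imS {p : Push} {s : State d} {b : Bool} (h : p.DomAt s b) :
    HasSet F (p.imS s b) := by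
  obtain ⟨τ, hτ, eτ⟩ := push_image hG hF h
  exact eτ ▸ (hasSet_bset hF _).image (isDiag_of_eval hτ)

theorem ev_pushes : F.Ev fun M =>
    (∀ (p : Push) (s : State d) b, p.DomAt s b →
      cj (pushX M p s) (bfld M (p.domB s b)) = setFld M (p.imS s b)) ∧
    (∀ (p : Push) (s : State d) b, p.DomAt s b →
      Calc.Le (setFld M (p.imS s b)) (bfld M (rootB p.tag))) ∧
    ∀ (p p' : Push) (s s' : State d) b b', p.DomAt s b → p'.DomAt s' b' →
      p ≠ p' ∨ s ≠ s' ∨ b ≠ b' → Calc.Disj (setFld M (p.imS s b)) (setFld M (p'.imS s' b')) := by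
  have := finite_state (d := d)
  have := finite_push
  have h1 : F.Ev fun M => ∀ q : {q : Push × State d × Bool // q.1.DomAt q.2.1 q.2.2},
      cj (pushX M q.1.1 q.1.2.1) (bfld M (q.1.1.domB q.1.2.1 q.1.2.2)) =
        setFld M (q.1.1.imS q.1.2.1 q.1.2.2) :=
    Frame.Ev.all fun q => by
      obtain ⟨τ, hτ, eτ⟩ := push_image hG hF q.2
      exact eτ ▸ ev_image (isDiag_of_eval hτ) (hasSet_bset hF _)
  have h2 : F.Ev fun M => ∀ q : {q : Push × State d × Bool // q.1.DomAt q.2.1 q.2.2},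
      Calc.Le (setFld M (q.1.1.imS q.1.2.1 q.1.2.2)) (bfld M (rootB q.1.1.tag)) :=
    Frame.Ev.all fun q => ev_le (hasSet_imS hG hF q.2) (hasSet_bset hF _) fun x ⟨y, _, hy⟩ => by
      obtain ⟨⟨a1, a2⟩, a3⟩ := Push.gran_subset q.1.1 ⟨y, hy⟩
      exact ⟨⟨a1, a3⟩, a2⟩
  have h3 : F.Ev fun M => ∀ q : {q : ({q : Push × State d × Bool // q.1.DomAt q.2.1 q.2.2}) ×
      ({q : Push × State d × Bool // q.1.DomAt q.2.1 q.2.2}) //
      q.1.1.1 ≠ q.2.1.1 ∨ q.1.1.2.1 ≠ q.2.1.2.1 ∨ q.1.1.2.2 ≠ q.2.1.2.2},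
      Calc.Disj (setFld M (q.1.1.1.1.imS q.1.1.1.2.1 q.1.1.1.2.2))
        (setFld M (q.1.2.1.1.imS q.1.2.1.2.1 q.1.2.1.2.2)) :=
    Frame.Ev.all fun q => ev_disj_fld (hasSet_imS hG hF q.1.1.2) (hasSet_imS hG hF q.1.2.2)
      (imS_disjoint hG q.2)
  refine (h1.and (h2.and h3)).mono ?_
  rintro M ⟨h1, h2, h3⟩
  exact ⟨fun p s b h => h1 ⟨(p, s, b), h⟩, fun p s b h => h2 ⟨(p, s, b), h⟩,
    fun p p' s s' b b' h h' hn => h3 ⟨(⟨(p, s, b), h⟩, ⟨(p', s', b'), h'⟩), hn⟩⟩

theorem ev_fixes : F.Ev fun M =>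
    (∀ (B : Base d) k, B.p.OutFix → cj (outX M k) (bfld M B) = bfld M B) ∧
    ∀ (B : Base d) m, B.p.InFix → cj (inX M m) (bfld M B) = bfld M B := by
  have := finite_bases (d := d)
  have ho := ev_outLetters hG hF
    (P := fun M x => ∀ B : {B : Base d // B.p.OutFix}, M.f x ∈ fixSub (bfld M B.1))
    fun k x hx => Frame.Ev.all fun B =>
      (ev_image hx (hasSet_bset hF B.1)).mono fun M h => by
        rw [image_eq_of_forall fun y => outFix_mem B.1 B.2 k y] at h
        exact h
  have hi : F.Ev fun M => ∀ i, ∀ B : {B : Base d // B.p.InFix},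
      M.f (tr F (gT (d.gen i)) Set.univ) ∈ fixSub (bfld M B.1) :=
    Frame.Ev.all fun i => Frame.Ev.all fun B =>
      (ev_image (diag_in hF i) (hasSet_bset hF B.1)).mono fun M h => by
        rw [image_eq_of_forall fun y => inFix_mem B.1 B.2 _ y] at h
        exact h
  refine (ho.and hi).mono ?_
  rintro M ⟨⟨h0, h1, h2⟩, hi⟩
  exact ⟨fun B k hB => outX_mem (fixSub (bfld M B)) (fun x hx => h0 x hx ⟨B, hB⟩)
      (fun a => h1 a ⟨B, hB⟩) (fun a => h2 a ⟨B, hB⟩) k,
    fun B m hB => inX_mem (fixSub (bfld M B)) (fun i => hi i ⟨B, hB⟩) m⟩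

/-- A translation commuting with a diagonal word on a set lies in its commuting subgroup. -/
theorem ev_commSub {x y : F.Free} {τ σ : Equiv.Perm (Point d)} (hx : F.IsDiag x τ)
    (hy : F.IsDiag y σ) {D : Set (Point d)} (hD : HasSet F D)
    (hσ : ∀ s, σ s ∈ D ↔ s ∈ D) (h : ∀ s ∈ D, (τ * σ) s = (σ * τ) s) :
    F.Ev fun M => M.f y ∈ commSub (M.f x) (setFld M D) := by
  refine ((ev_diag hy).and ((ev_image hy hD).and
    (ev_agree_fld (hx.mul hy) (hy.mul hx) hD h))).mono ?_
  rintro M ⟨h1, h2, h3⟩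
  rw [image_eq_of_forall hσ] at h2
  refine ⟨h1.1, h2, fun f hf hle => ?_⟩
  have := h3 f hf hle
  rwa [map_mul, map_mul, cj_mul, cj_mul] at this

theorem ev_edge_comm : F.Ev fun M =>
    (∀ e b k f, Frame.Good M (phi M) f → Calc.Le f (bfld M (stB e.1.tgt b)) →
      cj (edgeX M e) (cj (outX M k) f) = cj (outX M k) (cj (edgeX M e) f)) ∧
    ∀ e b m f, Frame.Good M (phi M) f → Calc.Le f (bfld M (stB e.1.tgt b)) →
      cj (edgeX M e) (cj (inX M m) f) = cj (inX M m) (cj (edgeX M e) f) := by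
  have := finite_oedge (d := d)
  have hdom : ∀ (e : OEdge d) b, (stB e.1.tgt b).set ⊆ gdom (edgeG e.1 e.2) := fun e b x hx =>
    (gdom_edgeG _ e.2).symm.subset hx.1.1
  have ho := ev_outLetters hG hF
    (P := fun M x => ∀ q : OEdge d × Bool,
      M.f x ∈ commSub (edgeX M q.1) (bfld M (stB q.1.1.tgt q.2)))
    fun k x hx => Frame.Ev.all fun q => by
      obtain ⟨τ, hτ, eτ⟩ := tr_edge hG hF q.1
      exact ev_commSub hG hF hτ hx (hasSet_bset hF _) (fun s => outFix_mem (stB _ _) trivial k s)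
        (agree_comm (fun s hs => eτ s hs.1.1) (outPerm_graph k) (edgeG_hT_comm _ _ k) (hdom _ _)
          fun s hs => (outFix_mem (stB _ _) trivial k s).2 hs)
  have hi : F.Ev fun M => ∀ i, ∀ q : OEdge d × Bool,
      M.f (tr F (gT (d.gen i)) Set.univ) ∈ commSub (edgeX M q.1) (bfld M (stB q.1.1.tgt q.2)) :=
    Frame.Ev.all fun i => Frame.Ev.all fun q => by
      obtain ⟨τ, hτ, eτ⟩ := tr_edge hG hF q.1
      exact ev_commSub hG hF hτ (diag_in hF i) (hasSet_bset hF _)
        (fun s => inFix_mem (stB _ _) trivial _ s)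
        (agree_comm (fun s hs => eτ s hs.1.1) (inPerm_graph _) (edgeG_gT_comm _ _ _) (hdom _ _)
          fun s hs => (inFix_mem (stB _ _) trivial _ s).2 hs)
  refine (ho.and hi).mono ?_
  rintro M ⟨⟨h0, h1, h2⟩, hi⟩
  exact ⟨fun e b k f hf hle => (outX_mem (commSub (edgeX M e) (bfld M (stB e.1.tgt b)))
      (fun x hx => h0 x hx (e, b)) (fun a => h1 a (e, b)) (fun a => h2 a (e, b)) k).2.2 f hf hle,
    fun e b m f hf hle => (inX_mem (commSub (edgeX M e) (bfld M (stB e.1.tgt b)))
      (fun i => hi i (e, b)) m).2.2 f hf hle⟩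

theorem ev_out_in : F.Ev fun M =>
    ∀ k m f, Frame.Good M (phi M) f →
      cj (inX M m) (cj (outX M k) f) = cj (outX M k) (cj (inX M m) f) := by
  have ho := ev_outLetters hG hF
    (P := fun M x => ∀ i : Fin d.n,
      M.f x ∈ commSub (M.f (tr F (gT (d.gen i)) Set.univ)) (setFld M Set.univ))
    fun k x hx => Frame.Ev.all fun i =>
      ev_commSub hG hF (diag_in hF i) hx hasSet_univ (fun _ => Iff.rfl) fun s _ => rfl
  have hm : F.Ev fun M => ∀ i,
      M.f (tr F (gT (d.gen i)) Set.univ) ∈ Frame.moveSub M (phi M) :=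
    Frame.Ev.all fun i => (ev_diag (diag_in hF i)).mono fun M h => h.1
  refine (ho.and (hm.and ev_univ)).mono ?_
  rintro M ⟨⟨h0, h1, h2⟩, hmi, hu⟩ k m f hf
  have key : ∀ i, M.f (tr F (gT (d.gen i)) Set.univ) ∈ commSub (outX M k) (setFld M Set.univ) := by
    intro i
    have hk := outX_mem (commSub (M.f (tr F (gT (d.gen i)) Set.univ)) (setFld M Set.univ))
      (fun x hx => h0 x hx i) (fun a => h1 a i) (fun a => h2 a i) k
    refine ⟨hmi i, ?_, fun g hg hle => (hk.2.2 g hg hle).symm⟩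
    rw [hu]
    exact cj_of_commute (hmi i).1
  have hle : Calc.Le f (setFld M Set.univ) := hu ▸ hf.le
  exact ((inX_mem _ key m).2.2 f hf hle).symm

theorem ev_push_in : F.Ev fun M =>
    ∀ (p : Push) s b m f, p ≠ .theta → p.DomAt s b → Frame.Good M (phi M) f →
      Calc.Le f (bfld M (p.domB s b)) →
      cj (pushX M p s) (cj (inX M m) f) = cj (inX M m) (cj (pushX M p s) f) := by
  have := finite_state (d := d)
  have := finite_push
  have hi : F.Ev fun M => ∀ i,
      ∀ q : {q : Push × State d × Bool // q.1.DomAt q.2.1 q.2.2 ∧ q.1 ≠ .theta},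
      M.f (tr F (gT (d.gen i)) Set.univ) ∈
        commSub (pushX M q.1.1 q.1.2.1) (bfld M (q.1.1.domB q.1.2.1 q.1.2.2)) :=
    Frame.Ev.all fun i => Frame.Ev.all fun q => by
      obtain ⟨τ, hτ, eτ⟩ := tr_push hG hF q.1.1 q.1.2.1
      exact ev_commSub hG hF hτ (diag_in hF i) (hasSet_bset hF _)
        (fun s => domB_mem_in _ _ _ _ s)
        (agree_comm (fun s hs => eτ s hs.1.1) (inPerm_graph _) (push_gT_comm q.2.2 _)
          (domB_dom q.2.1) fun s hs => (domB_mem_in _ _ _ _ s).2 hs)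
  refine hi.mono ?_
  exact fun M hi p s b m f hp hd hf hle => (inX_mem
    (commSub (pushX M p s) (bfld M (p.domB s b))) (fun i => hi i ⟨(p, s, b), hd, hp⟩) m).2.2 f hf hle

theorem ev_theta_gens : F.Ev fun M =>
    ∀ (q : State d × Bool) (f), Frame.Good M (phi M) f → Calc.Le f (bfld M (stB q.1 q.2)) →
      (∀ x ∈ d.subGens, cj (pushX M .theta q.1) (cj (outX M (x, 1, 1)) f) =
        cj (inX M (toInner d (x, 1, 1))) (cj (pushX M .theta q.1) f)) ∧
      (∀ a, cj (pushX M .theta q.1) (cj (outX M (1, FreeGroup.of a, 1)) f) =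
        cj (inX M (toInner d (1, FreeGroup.of a, 1))) (cj (pushX M .theta q.1) f)) ∧
      ∀ a, cj (pushX M .theta q.1) (cj (outX M (1, 1, FreeGroup.of a)) f) =
        cj (inX M (toInner d (1, 1, FreeGroup.of a))) (cj (pushX M .theta q.1) f) := by
  have := finite_state (d := d)
  have := @Finite.of_fintype _ d.M.fintypeA
  have one : ∀ (t : Outer d) (q : State d × Bool), F.Ev fun M => ∀ f,
      Frame.Good M (phi M) f → Calc.Le f (bfld M (stB q.1 q.2)) →
      cj (pushX M .theta q.1) (cj (outX M t) f) =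
        cj (inX M (toInner d t)) (cj (pushX M .theta q.1) f) := by
    intro t q
    obtain ⟨τ, hτ, eτ⟩ := tr_push hG hF .theta q.1
    have hx := (show F.IsDiag (pushW F .theta q.1) τ from hτ).mul
      (isDiag_of_eval (eval_outWord hG hF t))
    have hy := (isDiag_of_eval (eval_inWord hG hF (toInner d t))).mul
      (show F.IsDiag (pushW F .theta q.1) τ from hτ)
    refine (ev_agree_fld hx hy (hasSet_bset hF (stB q.1 q.2)) fun s hs => ?_).mono ?_
    · rw [map_inv, map_inv, Equiv.Perm.mul_apply, Equiv.Perm.mul_apply, outPerm_inv_apply,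
        eτ s hs.1.1 _ (thetaG_apply s),
        eτ { s with h := s.h * t } (show _ ∈ atS q.1 from hs.1.1) _ (thetaG_apply _),
        inPerm_inv_apply]
      simp [map_mul]
    intro M h f hf hle
    have := h f hf hle
    rwa [map_mul, map_mul, cj_mul, cj_mul] at this
  have h0 : F.Ev fun M => ∀ (q : State d × Bool) (x : {x // x ∈ d.subGens}), ∀ f,
      Frame.Good M (phi M) f → Calc.Le f (bfld M (stB q.1 q.2)) →
      cj (pushX M .theta q.1) (cj (outX M (x.1, 1, 1)) f) =
        cj (inX M (toInner d (x.1, 1, 1))) (cj (pushX M .theta q.1) f) :=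
    Frame.Ev.all fun q => Frame.Ev.all fun x => one _ q
  refine (h0.and ((Frame.Ev.all fun q => Frame.Ev.all fun a => one (1, FreeGroup.of a, 1) q).and
    (Frame.Ev.all fun q => Frame.Ev.all fun a => one (1, 1, FreeGroup.of a) q))).mono ?_
  rintro M ⟨h0, h1, h2⟩ q f hf hle
  exact ⟨fun x hx => h0 q ⟨x, hx⟩ f hf hle, fun a => h1 q a f hf hle, fun a => h2 q a f hf hle⟩

/-- The transport facts hold eventually, given the group laws. -/
theorem ev_rig : F.Ev fun M =>
    (∀ k k' f, Frame.Good M (phi M) f →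
      cj (outX M k) (cj (outX M k') f) = cj (outX M (k' * k)) f) →
    (∀ m m' f, Frame.Good M (phi M) f →
      cj (inX M m) (cj (inX M m') f) = cj (inX M (m' * m)) f) → Rig M := by
  refine ((ev_goods hG hF).and ((ev_mems hG hF).and ((ev_ones hG hF).and ((ev_les hG hF).and
    ((ev_edges hG hF).and ((ev_pushes hG hF).and ((ev_fixes hG hF).and ((ev_edge_comm hG hF).and
    ((ev_out_in hG hF).and ((ev_push_in hG hF).and (ev_theta_gens hG hF))))))))))).mono ?_
  rintro M ⟨⟨hphi, hgood⟩, ⟨m1, m2, m3, m4⟩, ⟨o1, o2⟩, ⟨l1, l2, l3, l4⟩, ⟨e1, e2, e3⟩,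
    ⟨p1, p2, p3⟩, ⟨f1, f2⟩, ⟨c1, c2⟩, hio, hpi, hth⟩ hom him
  refine ⟨hphi, hgood, m1, m2, m3, m4, o1, o2, l1, l2, l3, l4, e1, e2, e3, p1, p2, p3, f1, f2,
    c1, c2, hio, hpi, ?_⟩
  intro s b
  set Q := pushX M .theta s
  set T := bfld M (stB (d := d) s b)
  have hT : ∀ k, cj (outX M k) T = T := fun k => f1 _ k trivial
  let G : Subgroup (Outer d) :=
    { carrier := {t | ∀ f, Frame.Good M (phi M) f → Calc.Le f T →
        cj Q (cj (outX M t) f) = cj (inX M (toInner d t)) (cj Q f)}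
      one_mem' := fun f _ _ => by rw [o1, map_one, o2, cj_one, cj_one]
      mul_mem' := fun {t t'} ht ht' f hf hle => by
        rw [← hom t' t f hf, ht' _ (good_cj (m3 t) hf) (hT t ▸ le_cj _ hle), ht f hf hle,
          him _ _ _ (good_cj (m2 .theta s) hf), map_mul]
      inv_mem' := fun {t} ht f hf hle => by
        have h := ht _ (good_cj (m3 t⁻¹) hf) (hT t⁻¹ ▸ le_cj _ hle)
        rw [hom t t⁻¹ f hf, inv_mul_cancel, o1, cj_one] at h
        rw [h, him _ _ _ (good_cj (m2 .theta s) (good_cj (m3 t⁻¹) hf)), map_inv, mul_inv_cancel,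
          o2, cj_one] }
  have g0 : ∀ x : d.Γ₀, ((x, 1, 1) : Outer d) ∈ G := fun x => by
    have hx : x ∈ Subgroup.closure (d.subGens : Set d.Γ₀) := hG.subGens_top ▸ Subgroup.mem_top x
    induction hx using Subgroup.closure_induction with
    | mem x hx => exact fun f hf hle => (hth (s, b) f hf hle).1 x hx
    | one => exact one_mem G
    | mul a c _ _ ha hc =>
      have : ((a * c, 1, 1) : Outer d) = (a, 1, 1) * (c, 1, 1) := by simp
      rw [this]; exact mul_mem ha hc
    | inv a _ ha =>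
      have : ((a⁻¹, 1, 1) : Outer d) = ((a, 1, 1) : Outer d)⁻¹ := by simp
      rw [this]; exact inv_mem ha
  have g1 : ∀ w : FA d, ((1, w, 1) : Outer d) ∈ G := fun w => by
    induction w using FreeGroup.induction_on with
    | C1 => exact one_mem G
    | of a => exact fun f hf hle => (hth (s, b) f hf hle).2.1 a
    | inv_of a ha =>
      have : ((1, (FreeGroup.of a)⁻¹, 1) : Outer d) = ((1, FreeGroup.of a, 1) : Outer d)⁻¹ := by
        simp
      rw [this]; exact inv_mem ha
    | mul a c ha hc =>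
      have : ((1, a * c, 1) : Outer d) = (1, a, 1) * (1, c, 1) := by simp
      rw [this]; exact mul_mem ha hc
  have g2 : ∀ w : FA d, ((1, 1, w) : Outer d) ∈ G := fun w => by
    induction w using FreeGroup.induction_on with
    | C1 => exact one_mem G
    | of a => exact fun f hf hle => (hth (s, b) f hf hle).2.2 a
    | inv_of a ha =>
      have : ((1, 1, (FreeGroup.of a)⁻¹) : Outer d) = ((1, 1, FreeGroup.of a) : Outer d)⁻¹ := by
        simp
      rw [this]; exact inv_mem ha
    | mul a c ha hc =>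
      have : ((1, 1, a * c) : Outer d) = (1, 1, a) * (1, 1, c) := by simp
      rw [this]; exact mul_mem ha hc
  intro t f hf hle
  have : t = ((t.1, 1, 1) : Outer d) * (1, t.2.1, 1) * (1, 1, t.2.2) := by simp
  have ht : t ∈ G := this ▸ mul_mem (mul_mem (g0 _) (g1 _)) (g2 _)
  exact ht f hf hle

theorem ev_rig_of_laws : F.Ev fun M => GroupLaws M → Rig M :=
  (ev_rig hG hF).mono fun _ h L => h L.out_mul L.in_mul

end Core

end Vale.Agent.P193.Core.Inst
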