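import Vale.Agent.P193.Full.Core.Inst.Transport

/-! Good fields behave like commuting idempotents: monotone disjointness, meets and compatibility
from a decomposition. -/

open Classical

namespace Vale.Agent.P193.Calc.Frame

open scoped commutatorElement

variable {S : Type} {F : Frame S} {M : F.Model} {φ e f g : Vgrp S →* M.P}

theorem Good.one : Good M φ 1 where
  le v w := by simp
  left v _ n _ := by simp
  right v _ := one_mem _

/-- A field below one disjoint from a third is disjoint from it. -/
theorem Good.disj_le (he : Good M φ e) (hg : Good M φ g) (h : Calc.Le e f) (d : Disj f g) :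
    Disj e g :=
  Le.disj (R := farRel S) h d (he.farComm hg)

/-- The order is transitive on good fields. -/
theorem Good.le_trans (he : Good M φ e) (hf : Good M φ f) (hg : Good M φ g) (h1 : Calc.Le e f)
    (h2 : Calc.Le f g) : Calc.Le e g :=
  Le.trans (R := farRel S) he.le hf.le hg.le h1 h2 (he.farComm hg)

theorem Good.join (he : Good M φ e) (hf : Good M φ f) (d : Disj e f) :
    Good M φ (Calc.join e f d) where
  le := Le.join d he.le hf.le
  left v hv n hn := (he.left v hv n hn).mul_left (hf.left v hv n hn)
  right v hv := mul_mem (he.right v hv) (hf.right v hv)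

/-- An element of a cone is a product of commutators in that cone. -/
theorem inCone_mem_closure {p : List Bool} {v : Vgrp S} (hv : InCone p v) :
    v ∈ Subgroup.closure {y : Vgrp S | ∃ a b : Vgrp S, InCone p a ∧ InCone p b ∧ y = ⁅a, b⁆} := by
  obtain ⟨u, rfl⟩ := hv.exists_lpV
  have hu : u ∈ commutator (Vgrp S) := by
    rw [(swapGroup_perfect (M := coeffOf (S := S) ∅)).commutator_eq_top]
    exact Subgroup.mem_top u
  rw [commutator_eq_closure] at hu
  induction hu using Subgroup.closure_induction with
  | mem x hx =>
    obtain ⟨a, b, rfl⟩ := hx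
    rw [map_commutatorElement]
    exact Subgroup.subset_closure ⟨_, _, inCone_lpV p a, inCone_lpV p b, rfl⟩
  | one => simp
  | mul a b _ _ ha hb => rw [map_mul]; exact mul_mem (ha (inCone_lpV _ _)) (hb (inCone_lpV _ _))
  | inv a _ ha => rw [map_inv]; exact inv_mem (ha (inCone_lpV _ _))

/-- The meet of two good fields is good. -/
theorem Good.meet (he : Good M φ e) (hf : Good M φ f) (t : Atoms φ e f) : Good M φ t.a where
  le v w := by
    have h1 : φ v = t.a v * (t.b v * t.c v * t.o v) := by rw [t.hone]; simp [mul_assoc]
    have h2 : Commute (t.b v * t.c v * t.o v) (t.a w) :=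
      (((t.ab w v).symm.mul_left (t.ac w v).symm).mul_left (t.ao w v).symm)
    rw [h1, mul_inv_rev, show t.a v * (t.b v * t.c v * t.o v) * t.a w *
      ((t.b v * t.c v * t.o v)⁻¹ * (t.a v)⁻¹) = t.a v * ((t.b v * t.c v * t.o v) * t.a w *
      (t.b v * t.c v * t.o v)⁻¹) * (t.a v)⁻¹ by simp [mul_assoc], h2.eq, mul_inv_cancel_right]
    simp
  left v hv n hn := by
    induction inCone_mem_closure hv using Subgroup.closure_induction with
    | mem x hx =>
      obtain ⟨a, b, ha, hb, rfl⟩ := hx
      rw [t.a_comm, commutatorElement_def]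
      exact (((he.left a ha n hn).mul_left (hf.left b hb n hn)).mul_left
        (he.left a ha n hn).inv_left).mul_left (hf.left b hb n hn).inv_left
    | one => simp
    | mul a b ha hb iha ihb => rw [map_mul]; exact (iha (closure_cone ha)).mul_left (ihb (closure_cone hb))
    | inv a ha iha => rw [map_inv]; exact (iha (closure_cone ha)).inv_left
  right v hv := by
    induction inCone_mem_closure hv using Subgroup.closure_induction with
    | mem x hx =>
      obtain ⟨a, b, ha, hb, rfl⟩ := hx
      rw [t.a_comm, commutatorElement_def]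
      exact mul_mem (mul_mem (mul_mem (he.right a ha) (hf.right b hb)) (inv_mem (he.right a ha)))
        (inv_mem (hf.right b hb))
    | one => rw [map_one]; exact one_mem _
    | mul a b ha hb iha ihb =>
      rw [map_mul]; exact mul_mem (iha (closure_cone ha)) (ihb (closure_cone hb))
    | inv a ha iha => rw [map_inv]; exact inv_mem (iha (closure_cone ha))
where
  closure_cone {p : List Bool} {v : Vgrp S}
      (hv : v ∈ Subgroup.closure {y : Vgrp S | ∃ a b : Vgrp S, InCone p a ∧ InCone p b ∧ y = ⁅a, b⁆}) :
      InCone p v := by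
    induction hv using Subgroup.closure_induction with
    | mem x hx =>
      obtain ⟨a, b, ha, hb, rfl⟩ := hx
      obtain ⟨a', rfl⟩ := ha.exists_lpV
      obtain ⟨b', rfl⟩ := hb.exists_lpV
      rw [← map_commutatorElement]
      exact inCone_lpV p _
    | one => rw [← map_one (lpV (S := S) p)]; exact inCone_lpV p 1
    | mul a b _ _ ha hb =>
      obtain ⟨a', rfl⟩ := ha.exists_lpV
      obtain ⟨b', rfl⟩ := hb.exists_lpV
      rw [← map_mul]; exact inCone_lpV p _
    | inv a _ ha =>
      obtain ⟨a', rfl⟩ := ha.exists_lpV
      rw [← map_inv]; exact inCone_lpV p _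

theorem atoms_le_left (t : Atoms φ e f) : Calc.Le t.a e := fun v w => by
  have := le_join_left t.ab v w
  simp only [join_apply] at this
  rwa [← t.he] at this

theorem atoms_le_right (t : Atoms φ e f) : Calc.Le t.a f := fun v w => by
  have := le_join_left t.ac v w
  simp only [join_apply] at this
  rwa [← t.hf] at this

theorem atoms_rest_left (t : Atoms φ e f) : Calc.Le t.b e := fun v w => by
  have := le_join_right t.ab v w
  simp only [join_apply] at this
  rwa [← t.he] at this

theorem atoms_rest_right (t : Atoms φ e f) : Calc.Le t.c f := fun v w => by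
  have := le_join_right t.ac v w
  simp only [join_apply] at this
  rwa [← t.hf] at this

theorem Good.rest_left (he : Good M φ e) (hf : Good M φ f) (t : Atoms φ e f) : Good M φ t.b := by
  have ha := he.meet hf t
  have e1 : ∀ v, t.b v = (t.a v)⁻¹ * e v := fun v => by rw [t.he, inv_mul_cancel_left]
  refine ⟨fun v w => ?_, fun v hv n hn => ?_, fun v hv => ?_⟩
  · rw [e1, e1, ← ha.le v w, ← he.le v w]; simp [mul_assoc]
  · rw [e1]; exact (ha.left v hv n hn).inv_left.mul_left (he.left v hv n hn)
  · rw [e1]; exact mul_mem (inv_mem (ha.right v hv)) (he.right v hv)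

theorem Good.rest_right (he : Good M φ e) (hf : Good M φ f) (t : Atoms φ e f) : Good M φ t.c :=
  hf.rest_left he t.flip

/-- Three pairwise disjoint fields give a compatible pair. -/
theorem compat_of_parts {a b c : Vgrp S →* M.P} (ha : Calc.Le a φ) (hb : Calc.Le b φ)
    (hc : Calc.Le c φ) (ab : Disj a b) (ac : Disj a c) (bc : Disj b c) (he : ∀ v, e v = a v * b v)
    (hf : ∀ v, f v = a v * c v) : Compat φ e f := by
  have dabc : Disj (Calc.join a b ab) c := fun v w => (ac v w).mul_left (bc v w)
  have hT : Calc.Le (Calc.join (Calc.join a b ab) c dabc) φ := Le.join dabc (Le.join ab ha hb) hc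
  exact ⟨{ a := a, b := b, c := c, o := cmpl φ _ hT
           ab := ab, ac := ac, bc := bc
           ao := Le.disj_cmpl ha hT (Le.join_left dabc (le_join_left ab) ac)
           bo := Le.disj_cmpl hb hT (Le.join_left dabc (le_join_right ab) bc)
           co := Le.disj_cmpl hc hT (le_join_right dabc)
           he := he, hf := hf
           hone := fun v => mul_quo φ _ hT v }⟩

/-- A field with a part outside `R` is compatible with a field inside `R` if its other part is. -/
theorem compat_split {P₁ P₂ q R : Vgrp S →* M.P} (h1 : Good M φ P₁) (h2 : Good M φ P₂)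
    (hq : Good M φ q) (d12 : Disj P₁ P₂) (hP : ∀ v, e v = P₁ v * P₂ v) (dR : Disj P₂ R)
    (hle : Calc.Le q R) (hc : Compat φ P₁ q) : Compat φ e q := by
  obtain ⟨t⟩ := hc
  have dq : Disj q P₂ := hq.disj_le h2 hle dR.symm
  have ga := h1.meet hq t
  have gb := h1.rest_left hq t
  have gc := h1.rest_right hq t
  have a2 : Disj t.a P₂ := ga.disj_le h2 (atoms_le_right t) dq
  have b2 : Disj t.b P₂ := gb.disj_le h2 (atoms_rest_left t) d12
  have c2 : Disj t.c P₂ := gc.disj_le h2 (atoms_rest_right t) dq
  refine compat_of_parts ga.le (Le.join b2 gb.le h2.le) gc.le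
    (Calc.Disj.join b2 t.ab a2) t.ac (fun v w => (t.bc v w).mul_left (c2 w v).symm) ?_ t.hf
  intro v
  rw [hP, t.he, join_apply, mul_assoc]

/-- Compatibility with a good field, from below a disjoint pair. -/
theorem compat_of_le_disj {P Q : Vgrp S →* M.P} (he : Good M φ e) (hf : Good M φ f)
    (hP : Good M φ P) (h1 : Calc.Le e P) (h2 : Calc.Le f Q) (d : Disj P Q) : Compat φ e f :=
  compat_of_disj he.le hf.le (he.disj_le hf h1 (hf.disj_le hP h2 d.symm).symm)

end Vale.Agent.P193.Calc.Frame
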