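import Vale.Agent.P193.Full.Core.Inst.Rig
import Vale.Agent.P193.Full.Calc.Meet
import Vale.Agent.P193.Full.Calc.Algebra
import Vale.Agent.P193.Full.Calc.VFacts

/-! Meets of good fields of the core instance, and pulling compatibility back along an element. -/

namespace Vale.Agent.P193.Core.Inst

open Calc Classical

set_option linter.unusedSectionVars false

variable {d : Data} {F : Calc.Frame (Point d)} {M : F.Model}
  {φ f g E : Vgrp (Point d) →* M.P}

instance : Nonempty (Point d) := ⟨⟨.fin, .nil, false, .base, 1, 1⟩⟩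

/-- The meet of two fields is compatible with a field compatible with both. -/
theorem compat_meet (hf : Frame.Good M φ f) (hE : Frame.Good M φ E) (t : Atoms φ f E)
    (hfg : Compat φ f g) (hEg : Compat φ E g) : Compat φ t.a g := by
  obtain ⟨t1⟩ := hfg
  obtain ⟨t2⟩ := hEg
  exact meet_compat vgrp_centralSplit commutator_vgrp vgrp_avoids (compat_full hf.le)
    (compat_full hE.le) t t.flip t1 t2

/-- Compatibility passes to the parts inside a third field. -/
theorem compat_parts_in (hf : Frame.Good M φ f) (hg : Frame.Good M φ g)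
    (hE : Frame.Good M φ E) (tf : Atoms φ f E) (tg : Atoms φ g E) (h : Compat φ f g) :
    Compat φ tf.a tg.a := by
  have h1 : Compat φ tf.a g := compat_meet hf hE tf h ⟨tg.flip⟩
  have h2 : Compat φ tf.a E :=
    compat_of_le (hf.meet hE tf).le hE.le (Frame.atoms_le_right tf)
  obtain ⟨t1⟩ := h1
  obtain ⟨t2⟩ := h2
  obtain ⟨r⟩ := compat_meet hg hE tg ⟨t1.flip⟩ ⟨t2.flip⟩
  exact ⟨r.flip⟩

/-- Compatibility pulled back along a moving element. -/
theorem compat_pull {x : M.P} (hx : ∀ v, Commute x (φ v)) {a b : Vgrp (Point d) →* M.P}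
    (hf : Frame.Good M φ f) (hg : Frame.Good M φ g) (hE : Frame.Good M φ E)
    (tf : Atoms φ f E) (tg : Atoms φ g E) (ha : tf.a = cj x a) (hb : tg.a = cj x b)
    (h : Compat φ f g) : Compat φ a b := by
  have := compat_cj (x := x⁻¹) (fun v => (hx v).inv_left) (compat_parts_in hf hg hE tf tg h)
  rwa [ha, hb, cj_inv_cancel, cj_inv_cancel] at this

end Vale.Agent.P193.Core.Inst
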