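import Vale.Agent.P193.Full.Core.Inst.Words
import Vale.Agent.P193.Full.Core.Inst.SetFields
import Vale.Agent.P193.Full.Core.Inst.Alg
import Vale.Agent.P193.Full.Calc.VFacts

/-! All fields of atoms are eventually pairwise compatible: the induction.

Two atoms over different states or tags are disjoint. Two atoms that begin with one edge, or with
pushes in one translate, are moved by one element, so the smaller pair decides. An atom that
begins with an edge or a push meets an atom without either in the image of a field generated by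
atoms without either, and misses the rest. -/

namespace Vale.Agent.P193.Calc

variable {W K : Type} [Group W] [Group K]

theorem Gen.mono {one : W →* K} {A B : Set (W →* K)} (hAB : A ⊆ B) {h : W →* K}
    (hh : Gen one A h) : Gen one B h := by
  induction hh with
  | base hm => exact .base (hAB hm)
  | meet t _ _ ihe ihf => exact .meet t ihe ihf
  | diff t _ _ ihe ihf => exact .diff t ihe ihf

/-- Compatibility is carried by an element commuting with the full field. -/
theorem Compat.conj_comm {one e f : W →* K} {x : K} (hx : ∀ v, Commute x (one v))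
    (h : Compat one e f) :
    Compat one ((MulAut.conj x).toMonoidHom.comp e) ((MulAut.conj x).toMonoidHom.comp f) := by
  obtain ⟨t⟩ := h
  have hd : ∀ {a b : W →* K}, Disj a b →
      Disj ((MulAut.conj x).toMonoidHom.comp a) ((MulAut.conj x).toMonoidHom.comp b) :=
    fun d v w => (d v w).map (MulAut.conj x).toMonoidHom
  exact ⟨{ a := (MulAut.conj x).toMonoidHom.comp t.a
           b := (MulAut.conj x).toMonoidHom.comp t.b
           c := (MulAut.conj x).toMonoidHom.comp t.c
           o := (MulAut.conj x).toMonoidHom.comp t.o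
           ab := hd t.ab, ac := hd t.ac, ao := hd t.ao, bc := hd t.bc, bo := hd t.bo, co := hd t.co
           he := fun v => by simp only [MonoidHom.comp_apply, t.he, map_mul]
           hf := fun v => by simp only [MonoidHom.comp_apply, t.hf, map_mul]
           hone := fun v => by
             have e1 : (MulAut.conj x).toMonoidHom (one v) = one v := by
               simp [(hx v).eq, mul_assoc]
             rw [← e1, t.hone]
             simp only [MonoidHom.comp_apply, map_mul] }⟩

end Vale.Agent.P193.Calc

namespace Vale.Agent.P193.Core.Inst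

open Calc Facts

open Classical

set_option linter.unusedSectionVars false

variable {d : Data} [DecidableEq d.M.A] {F : Calc.Frame (Point d)}

namespace Atom

/-- The number of edges and pushes of an atom. -/
def depth : Atom d → ℕ
  | .base π _ _ _ => π.length
  | .push π _ _ _ A => π.length + A.depth + 1

/-- The atom with one more edge. -/
def consEdge (e : OEdge d) : Atom d → Atom d
  | .base π k m B => .base (e :: π) k m B
  | .push π k m p A => .push (e :: π) k m p A

theorem consEdge_ok {e : OEdge d} : ∀ {A : Atom d}, (A.consEdge e).Ok → A.Ok ∧ A.st = e.1.tgt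
  | .base _ _ _ _, h => ⟨h.2, h.1.symm⟩
  | .push _ _ _ _ _, h => ⟨⟨h.1.2, h.2⟩, h.1.1.symm⟩

theorem consEdge_st (e : OEdge d) (A : Atom d) : (A.consEdge e).st = e.1.src := by
  cases A <;> rfl

theorem consEdge_tag (e : OEdge d) (A : Atom d) : (A.consEdge e).tag = A.tag := by
  cases A <;> rfl

theorem consEdge_depth (e : OEdge d) (A : Atom d) : (A.consEdge e).depth = A.depth + 1 := by
  cases A <;> simp [depth, consEdge] <;> omega

theorem consEdge_fld (M : F.Model) (e : OEdge d) (A : Atom d) :
    (A.consEdge e).fld M = cj (M.f (tr F (edgeG e.1 e.2) (atS e.1.tgt))) (A.fld M) := by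
  cases A <;>
    exact MonoidHom.ext fun v => by
      simp [fld, consEdge, word, bot, pathWord, cj_apply, mul_assoc]

theorem push_fld (M : F.Model) (k : Outer d) (m : Inner d) (p : Push) (A : Atom d) :
    (Atom.push [] k m p A).fld M =
      cj (M.f (outWord F k * inWord F m * tr F p.graph (atS A.st))) (A.fld M) :=
  MonoidHom.ext fun v => by
    simp [fld, word, bot, pathWord, cj_apply, mul_assoc]

theorem shape (A : Atom d) :
    (∃ e A', A = consEdge e A') ∨ (∃ k m B, A = .base [] k m B) ∨
      ∃ k m p A', A = .push [] k m p A' := by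
  rcases A with ⟨π, k, m, B⟩ | ⟨π, k, m, p, A'⟩
  · cases π with
    | nil => exact Or.inr (Or.inl ⟨k, m, B, rfl⟩)
    | cons e π => exact Or.inl ⟨e, .base π k m B, rfl⟩
  · cases π with
    | nil => exact Or.inr (Or.inr ⟨k, m, p, A', rfl⟩)
    | cons e π => exact Or.inl ⟨e, .push π k m p A', rfl⟩

end Atom

/-- The word in front of a pushed atom. -/
noncomputable def pushWord (F : Calc.Frame (Point d)) (k : Outer d) (m : Inner d) (p : Push)
    (s : State d) : F.Free :=
  outWord F k * inWord F m * tr F p.graph (atS s)

/-- The fields of atoms without edges and pushes. -/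
def flds₀ (M : F.Model) : Set (Vgrp (Point d) →* M.P) :=
  insert (phi M) {h | ∃ (k : Outer d) (m : Inner d) (B : Base d),
    h = (Atom.base [] k m B).fld M}

/-- The field of `B` is a generated field moved by `x`, and a rest that avoids all moved fields
of the atoms with the property `P`. -/
def PulledGen (M : F.Model) (x : M.P) (P : Atom d → Prop) (h : Vgrp (Point d) →* M.P) : Prop :=
  ∃ g rest : Vgrp (Point d) →* M.P, Calc.Gen (phi M) (flds₀ M) g ∧
    Frame.Good M (phi M) g ∧ Frame.Good M (phi M) rest ∧
    Calc.Disj (cj x g) rest ∧ (∀ v, h v = cj x g v * rest v) ∧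
    ∀ A : Atom d, A.Ok → P A → Calc.Disj rest (cj x (A.fld M))

/-- The trivial field is generated. -/
theorem gen_one (M : F.Model) [Nonempty (Point d)] : Calc.Gen (phi M) (flds₀ M) 1 := by
  obtain ⟨t⟩ := compat_of_le (φ := phi M) (Calc.Le.refl _) (Calc.Le.refl _) (Calc.Le.refl _)
  have h := Calc.Gen.diff (A := flds₀ M) t (.base (Or.inl rfl)) (.base (Or.inl rfl))
  rwa [(t.self vgrp_perfect).2] at h

/-- What the induction needs from a model. -/
structure CompatInputs (M : F.Model) : Prop where
  /-- Fields of atoms are good. -/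
  good : ∀ A : Atom d, A.Ok → Frame.Good M (phi M) (A.fld M)
  /-- Atoms over different states or tags are disjoint. -/
  cell : ∀ A B : Atom d, A.Ok → B.Ok → A.st ≠ B.st ∨ A.tag ≠ B.tag →
    Calc.Disj (A.fld M) (B.fld M)
  /-- The letters in front move fields. -/
  move_edge : ∀ e : OEdge d,
    M.f (tr F (edgeG e.1 e.2) (atS e.1.tgt)) ∈ Frame.moveSub M (phi M)
  move_push : ∀ k m p s, M.f (pushWord F k m p s) ∈ Frame.moveSub M (phi M)
  /-- Atoms without edges and pushes. -/
  level0 : ∀ (k k' : Outer d) (m m' : Inner d) (B B' : Base d),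
    Compat (phi M) ((Atom.base [] k m B).fld M) ((Atom.base [] k' m' B').fld M)
  /-- Atoms beginning with two edges. -/
  edge_edge : ∀ (e e' : OEdge d) (A A' : Atom d), (A.consEdge e).Ok → (A'.consEdge e').Ok →
    e ≠ e' → Calc.Disj ((A.consEdge e).fld M) ((A'.consEdge e').fld M)
  /-- The pull back along an edge. -/
  edge_base : ∀ (e : OEdge d) (k : Outer d) (m : Inner d) (B : Base d), B.s = e.1.src →
    PulledGen M (M.f (tr F (edgeG e.1 e.2) (atS e.1.tgt)))
      (fun A => A.st = e.1.tgt ∧ A.tag = B.b) ((Atom.base [] k m B).fld M)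
  /-- The pull back along a push in a translate. -/
  push_base : ∀ (p : Push) (s : State d) (b : Bool) (k k' : Outer d) (m m' : Inner d) (B : Base d),
    B.s = .fin → B.b = p.tag →
    PulledGen M (M.f (pushWord F k m p s)) (fun A => A.st = s ∧ A.tag = b ∧ Atom.Dom p A)
      ((Atom.base [] k' m' B).fld M)
  /-- Two pushed atoms are disjoint or moved by one word. -/
  push_push : ∀ (k k' : Outer d) (m m' : Inner d) (p p' : Push) (A A' : Atom d),
    (Atom.push [] k m p A).Ok → (Atom.push [] k' m' p' A').Ok →
    Calc.Disj ((Atom.push [] k m p A).fld M) ((Atom.push [] k' m' p' A').fld M) ∨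
      ∃ A'' : Atom d, A''.Ok ∧ A''.depth = A'.depth ∧
        (Atom.push [] k' m' p' A').fld M = cj (M.f (pushWord F k m p A.st)) (A''.fld M)

namespace CompatInputs

variable [Nonempty (Point d)] {M : F.Model} (I : CompatInputs M)
include I

theorem compat_disj {A B : Atom d} (hA : A.Ok) (hB : B.Ok)
    (h : Calc.Disj (A.fld M) (B.fld M)) : Compat (phi M) (A.fld M) (B.fld M) :=
  compat_of_disj (I.good A hA).le (I.good B hB).le h

theorem compat_flds₀ {g h : Vgrp (Point d) →* M.P} (hg : g ∈ flds₀ M) (hh : h ∈ flds₀ M) :
    Compat (phi M) g h := by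
  rcases hg with rfl | ⟨k, m, B, rfl⟩ <;> rcases hh with rfl | ⟨k', m', B', rfl⟩
  · exact compat_full fun v w => by simp
  · exact (compat_full (I.good (.base [] k' m' B') trivial).le).symm
  · exact compat_full (I.good (.base [] k m B) trivial).le
  · exact I.level0 k k' m m' B B'

/-- A moved atom against a pulled back field. -/
theorem compat_pulled {x : M.P} (hx : x ∈ Frame.moveSub M (phi M)) {P : Atom d → Prop}
    {h : Vgrp (Point d) →* M.P} (hP : PulledGen M x P h) {A : Atom d} (hA : A.Ok) (hPA : P A)
    (ih : ∀ (k : Outer d) (m : Inner d) (B : Base d),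
      Compat (phi M) (A.fld M) ((Atom.base [] k m B).fld M)) :
    Compat (phi M) h (cj x (A.fld M)) := by
  obtain ⟨g, rest, hg, gg, gr, hd, he, hr⟩ := hP
  have gA := I.good A hA
  have hc : Compat (phi M) g (A.fld M) := by
    refine Calc.gen_compat (one := phi M) vgrp_centralSplit vgrp_perfect vgrp_avoids
      (A := insert (A.fld M) (flds₀ M)) (Or.inr (Or.inl rfl)) ?_
      (hg.mono (Set.subset_insert _ _)) (.base (Or.inl rfl))
    have key : ∀ h₀ ∈ flds₀ M, Compat (phi M) (A.fld M) h₀ := by
      rintro _ (rfl | ⟨k, m, B, rfl⟩)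
      · exact compat_full gA.le
      · exact ih k m B
    rintro a (rfl | ha) b (rfl | hb)
    · exact compat_of_le gA.le gA.le (Calc.Le.refl _)
    · exact key b hb
    · exact (key a ha).symm
    · exact I.compat_flds₀ ha hb
  exact Frame.compat_split (R := cj x (A.fld M)) (gg.conj hx) gr (gA.conj hx) hd he
    (hr A hA hPA) (Calc.Le.refl _) (hc.conj_comm hx.1)

/-- An atom beginning with an edge or a push against any other atom. -/
theorem compat_step {n : ℕ}
    (ih : ∀ A B : Atom d, A.Ok → B.Ok → A.depth + B.depth < n →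
      Compat (phi M) (A.fld M) (B.fld M)) :
    ∀ A B : Atom d, A.Ok → B.Ok → A.depth + B.depth = n →
      Compat (phi M) (A.fld M) (B.fld M) := by
  intro A B hA hB hn
  by_cases hst : A.st ≠ B.st ∨ A.tag ≠ B.tag
  · exact I.compat_disj hA hB (I.cell A B hA hB hst)
  simp only [not_or, not_not] at hst
  have edge_left : ∀ e A' k m B₀, (Atom.consEdge e A').Ok →
      (Atom.consEdge e A').st = (Atom.base [] k m B₀).st →
      (Atom.consEdge e A').tag = (Atom.base [] k m B₀).tag →
      (Atom.consEdge e A').depth + (Atom.base [] k m B₀).depth = n →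
      Compat (phi M) ((Atom.base [] k m B₀).fld M) ((Atom.consEdge e A').fld M) := by
    intro e A' k m B₀ hA hs ht hn
    obtain ⟨hA', hst'⟩ := Atom.consEdge_ok hA
    rw [Atom.consEdge_fld]
    refine I.compat_pulled (I.move_edge e)
      (I.edge_base e k m B₀ (hs.symm.trans (Atom.consEdge_st e A'))) hA'
      ⟨hst', (Atom.consEdge_tag e A').symm.trans ht⟩ fun k' m' B' => ?_
    exact ih _ _ hA' trivial (by
      rw [Atom.consEdge_depth] at hn
      simp only [Atom.depth, List.length_nil] at hn ⊢
      omega)
  have push_left : ∀ k m p A' k' m' B₀, (Atom.push [] k m p A').Ok →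
      (Atom.push [] k m p A').st = (Atom.base [] k' m' B₀).st →
      (Atom.push [] k m p A').tag = (Atom.base [] k' m' B₀).tag →
      (Atom.push [] k m p A').depth + (Atom.base [] k' m' B₀).depth = n →
      Compat (phi M) ((Atom.base [] k' m' B₀).fld M) ((Atom.push [] k m p A').fld M) := by
    intro k m p A' k' m' B₀ hA hs ht hn
    rw [Atom.push_fld]
    refine I.compat_pulled (I.move_push k m p A'.st)
      (I.push_base p A'.st A'.tag k k' m m' B₀ hs.symm ht.symm) hA.2.1 ⟨rfl, rfl, hA.2.2⟩ fun k₁ m₁ B₁ => ?_
    exact ih _ _ hA.2.1 trivial (by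
      simp only [Atom.depth, List.length_nil] at hn ⊢
      omega)
  rcases A.shape with ⟨e, A', rfl⟩ | ⟨k, m, B₀, rfl⟩ | ⟨k, m, p, A', rfl⟩ <;>
    rcases B.shape with ⟨e', B', rfl⟩ | ⟨k', m', B₁, rfl⟩ | ⟨k', m', p', B', rfl⟩
  · by_cases he : e = e'
    · subst he
      rw [Atom.consEdge_fld, Atom.consEdge_fld]
      exact (ih _ _ (Atom.consEdge_ok hA).1 (Atom.consEdge_ok hB).1 (by
        rw [Atom.consEdge_depth, Atom.consEdge_depth] at hn
        omega)).conj_comm (I.move_edge e).1
    · exact I.compat_disj hA hB (I.edge_edge e e' A' B' hA hB he)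
  · exact (edge_left e A' k' m' B₁ hA hst.1 hst.2 hn).symm
  · exact absurd ((Atom.consEdge_st e A').symm.trans hst.1) (Path.src_ne_fin e.2)
  · exact edge_left e' B' k m B₀ hB hst.1.symm hst.2.symm (by omega)
  · exact I.level0 k k' m m' B₀ B₁
  · exact push_left k' m' p' B' k m B₀ hB hst.1.symm hst.2.symm (by omega)
  · exact absurd ((Atom.consEdge_st e' B').symm.trans hst.1.symm) (Path.src_ne_fin e'.2)
  · exact (push_left k m p A' k' m' B₁ hA hst.1 hst.2 hn).symm
  · rcases I.push_push k k' m m' p p' A' B' hA hB with h | ⟨B'', hB'', hd, he⟩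
    · exact I.compat_disj hA hB h
    · rw [he, Atom.push_fld]
      exact (ih _ _ hA.2.1 hB'' (by
        simp only [Atom.depth, List.length_nil] at hn
        omega)).conj_comm (I.move_push k m p A'.st).1

/-- All fields of atoms are pairwise compatible. -/
theorem compat (A B : Atom d) (hA : A.Ok) (hB : B.Ok) :
    Compat (phi M) (A.fld M) (B.fld M) := by
  suffices h : ∀ n, ∀ A B : Atom d, A.Ok → B.Ok → A.depth + B.depth = n →
      Compat (phi M) (A.fld M) (B.fld M) from h _ A B hA hB rfl
  intro n
  induction n using Nat.strong_induction_on with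
  | _ n ih => exact I.compat_step fun A B hA hB hlt => ih _ hlt A B hA hB rfl

end CompatInputs

instance finite_pred : Finite (Pred d) :=
  have := finite_ltr (d := d)
  Finite.of_surjective
    (fun o : Fin 7 ⊕ (Ltr d × Bool) =>
      match o with
      | .inl i => ([.full, .hOne, .zOne, .clean, .gOne, .kSet, .gHOne] : List (Pred d))[i.1]'(i.2)
      | .inr s => .zFront s)
    fun p => match p with
      | .full => ⟨.inl 0, rfl⟩
      | .hOne => ⟨.inl 1, rfl⟩
      | .zOne => ⟨.inl 2, rfl⟩
      | .zFront s => ⟨.inr s, rfl⟩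
      | .clean => ⟨.inl 3, rfl⟩
      | .gOne => ⟨.inl 4, rfl⟩
      | .kSet => ⟨.inl 5, rfl⟩
      | .gHOne => ⟨.inl 6, rfl⟩

/-- The base fields eventually have their words. -/
theorem ev_bfld_word (hF : IsCore F) : F.Ev fun M => ∀ (B : Base d) j,
    bfld M B (F.vgen j) = M.f (setWord F B.set j) := by
  have := finite_state (d := d)
  have : Finite (Base d) := Finite.of_surjective
    (fun x : State d × Bool × Pred d => (⟨x.1, x.2.1, x.2.2⟩ : Base d))
    fun B => ⟨(B.s, B.b, B.p), rfl⟩
  refine (Frame.Ev.all fun B : Base d => ev_setFld (e := B.set) fun v => ?_).mono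
    fun M h B j => (h B).2.1 j
  exact Calc.Frame.exists_restr_gmem (gmem_base hF B) v

/-- The fields of the core instance exist eventually. -/
theorem ev_fields [Nonempty (Point d)] (hG : Good d) (hF : IsCore F)
    (h : F.Ev fun M => CompatInputs M) :
    F.Ev fun M => Nonempty (Frame.Fields (coreSys hG hF) M) :=
  ((h.and (ev_bfld_word hF)).and ev_phi).mono fun M ⟨⟨I, hB⟩, hφ⟩ =>
    ⟨{ φ := phi M
       phi := hφ
       fld := fun A => kfld M A
       fld_eq := fun A j => by
         show cj (M.f (A.1.word F)) (bfld M A.1.bot) (F.vgen j) =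
           M.f (A.1.word F * setWord F A.1.bot.set j * (A.1.word F)⁻¹)
         rw [cj_apply, hB, map_mul, map_mul, map_inv]
       fld_one := fun A => compat_full (I.good A.1 A.2).le
       pair := fun A B => I.compat A.1 B.1 A.2 B.2 }⟩

end Vale.Agent.P193.Core.Inst
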