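import Vale.Agent.P193.Full.Core.Inst.Slices

/-! The part of a flat atom at the final state inside the image of a push.

An elementary predicate at the final state, inside the image of a push from one state and tag, is
the image of an elementary predicate or empty: finitely many relations. The transport facts, the
group laws and the laws of the offset predicates then give this for all translates. -/

namespace Vale.Agent.P193.Core.Inst

open Calc Facts Classical

variable {d : Data} [DecidableEq d.M.A] {F : Calc.Frame (Point d)}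

/-- The predicate under a push that becomes a given one at the final state. -/
def pullPred : Push → Pred d → Option (Pred d)
  | _, .zFront _ => none
  | _, .clean => none
  | _, .kSet => none
  | .theta, .gOne => some .hOne
  | .theta, .gHOne => some .hOne
  | .omC, .gOne => none
  | .omC, .gHOne => none
  | .omD, .gOne => some .gOne
  | .omD, .gHOne => some .gOne
  | .omK, .gOne => some .kSet
  | .omK, .gHOne => some .kSet
  | .tMap, .gOne => none
  | .tMap, .gHOne => none
  | .tMap, _ => some .hOne
  | _, _ => some .full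

/-- Its set at a state and tag. -/
def pullSet (p : Push) (P : Pred d) (s : State d) (b : Bool) : Set (Point d) :=
  ((pullPred p P).map fun q => (⟨s, b, q⟩ : Base d).set).getD ∅

omit [DecidableEq d.M.A] in
theorem zval_fin {x : Point d} (h : x ∈ atS (.fin : State d) ∩ hOneS) : zval d x = 1 :=
  fin_hOne_subset_zOne h

/-- A predicate at the final state seen through a push. -/
theorem push_pre (hG : Good d) (p : Push) (P : Pred d) {x y : Point d}
    (hxy : (x, y) ∈ p.graph (d := d)) :
    y ∈ (⟨.fin, p.tag, P⟩ : Base d).set ↔ x ∈ pullSet p P x.st x.tag := by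
  have hy := Push.gran_subset p ⟨x, hxy⟩
  have hz : zval d y = 1 := zval_fin hy.1
  have h0 : y ∈ (⟨.fin, p.tag, P⟩ : Base d).set ↔ y ∈ P.set :=
    ⟨fun h => h.2, fun h => ⟨⟨hy.1.1, hy.2⟩, h⟩⟩
  have htag : y.tag = p.tag := hy.2
  rw [h0]
  have hfr : ∀ e, y ∉ zFrontS e := fun e he => by
    simp [zFrontS, hz] at he
  have hcl : y ∉ cleanS := fun h => by
    have := h.1.symm.trans (show y.st = .fin from hy.1.1)
    simp at this
  have hk : y ∉ kOneS := fun h => by
    have := h.2.1.symm.trans (show y.st = .fin from hy.1.1)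
    simp at this
  have hz1 : y ∈ zOneS := hz
  have hh1 : y ∈ hOneS := hy.1.2
  have hf : ∀ s b, x.st = s → x.tag = b → x ∈ (⟨s, b, .full⟩ : Base d).set :=
    fun s b h1 h2 => ⟨⟨h1, h2⟩, Set.mem_univ x⟩
  cases P with
  | zFront e => exact iff_of_false (hfr e) (by cases p <;> exact not_false)
  | clean => exact iff_of_false hcl (by cases p <;> exact not_false)
  | kSet => exact iff_of_false hk (by cases p <;> exact not_false)
  | full =>
    refine iff_of_true (Set.mem_univ y) ?_
    cases p with
    | tMap =>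
      obtain ⟨c, g, e, -⟩ := hxy
      simp only at e; subst e
      exact ⟨⟨rfl, rfl⟩, rfl⟩
    | _ => exact hf _ _ rfl rfl
  | hOne =>
    refine iff_of_true hh1 ?_
    cases p with
    | tMap =>
      obtain ⟨c, g, e, -⟩ := hxy
      simp only at e; subst e
      exact ⟨⟨rfl, rfl⟩, rfl⟩
    | _ => exact hf _ _ rfl rfl
  | zOne =>
    refine iff_of_true hz1 ?_
    cases p with
    | tMap =>
      obtain ⟨c, g, e, -⟩ := hxy
      simp only at e; subst e
      exact ⟨⟨rfl, rfl⟩, rfl⟩
    | _ => exact hf _ _ rfl rfl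
  | gOne | gHOne =>
    all_goals
      cases p with
      | theta =>
        simp only [Push.graph, thetaG, Set.mem_ofPred_eq] at hxy
        subst hxy
        simp only [pullSet, pullPred, Option.map_some, Option.getD_some]
        constructor
        · intro h
          refine ⟨⟨rfl, rfl⟩, ?_⟩
          first
            | exact toInner_inj hG (h.2.trans (map_one _).symm)
            | exact toInner_inj hG (h.1.2.trans (map_one _).symm)
        · intro h
          have e : x.h = 1 := h.2
          first
            | exact ⟨rfl, by rw [e, map_one]⟩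
            | exact ⟨⟨rfl, by rw [e, map_one]⟩, rfl⟩
      | omC =>
        refine iff_of_false (fun h => ?_) not_false
        first
          | exact absurd (htag.symm.trans h.1) (by decide)
          | exact absurd (htag.symm.trans h.1.1) (by decide)
      | tMap =>
        refine iff_of_false (fun h => ?_) not_false
        first
          | exact absurd (htag.symm.trans h.1) (by decide)
          | exact absurd (htag.symm.trans h.1.1) (by decide)
      | omD =>
        obtain ⟨s, σ, c, g, k, e1, e2⟩ := hxy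
        simp only at e1 e2; subst e1; subst e2
        simp only [pullSet, pullPred, Option.map_some, Option.getD_some]
        first
          | exact ⟨fun h => ⟨⟨rfl, rfl⟩, rfl, h.2⟩, fun h => ⟨rfl, h.2.2⟩⟩
          | exact ⟨fun h => ⟨⟨rfl, rfl⟩, rfl, h.1.2⟩, fun h => ⟨⟨rfl, h.2.2⟩, rfl⟩⟩
      | omK =>
        obtain ⟨σ, c, g, k, e1, e2⟩ := hxy
        simp only at e1 e2; subst e1; subst e2
        simp only [pullSet, pullPred, Option.map_some, Option.getD_some]
        first
          | exact ⟨fun h => ⟨⟨rfl, rfl⟩, rfl, rfl, h.2⟩, fun h => ⟨rfl, h.2.2.2⟩⟩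
          | exact ⟨fun h => ⟨⟨rfl, rfl⟩, rfl, rfl, h.1.2⟩, fun h => ⟨⟨rfl, h.2.2.2⟩, rfl⟩⟩

theorem pullSet_subset (p : Push) (P : Pred d) (s : State d) (b : Bool) :
    pullSet p P s b ⊆ (p.domB s b).set := by
  intro x hx
  have key : ∀ q, pullPred p P = some q → p = .tMap → q = .hOne := by
    intro q hq hp
    subst hp
    cases P <;> simp [pullPred] at hq <;> exact hq.symm
  unfold pullSet at hx
  cases h : pullPred p P with
  | none => rw [h] at hx; exact absurd hx (Set.notMem_empty x)
  | some q =>
    rw [h] at hx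
    refine ⟨hx.1, ?_⟩
    by_cases hp : p = .tMap
    · have := key q h hp
      subst this
      simp only [Push.domB, if_pos hp]
      exact hx.2
    · simp only [Push.domB, if_neg hp]
      exact Set.mem_univ x

theorem domB_subset_gdom (p : Push) {s : State d} {b : Bool} (hs : p.DomAt s b) :
    (p.domB s b).set ⊆ gdom (p.graph (d := d)) := by
  intro x hx
  have h1 : x.st = s ∧ x.tag = b := hx.1
  cases p with
  | theta => exact (gdom_thetaG (d := d)).symm ▸ Set.mem_univ x
  | omC => exact gdom_omCG.symm.subset (h1.2.trans hs)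
  | omD =>
    refine gdom_omDG.symm.subset fun h => ?_
    exact Bool.false_ne_true ((h1.2.trans hs).symm.trans h)
  | omK =>
    refine gdom_omKG.symm.subset ⟨h1.1.trans hs.2, fun h => ?_⟩
    exact Bool.false_ne_true ((h1.2.trans hs.1).symm.trans h)
  | tMap =>
    refine gdom_tG.symm.subset ⟨⟨h1.1.trans hs.2, hx.2⟩, fun h => ?_⟩
    exact Bool.false_ne_true ((h1.2.trans hs.1).symm.trans h)

/-- Inside the image of a push on one state and tag. -/
theorem gimg_pullSet (hG : Good d) (p : Push) (P : Pred d) (s : State d) (b : Bool) :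
    gimg p.graph (pullSet p P s b) =
      (⟨.fin, p.tag, P⟩ : Base d).set ∩ p.imS s b := by
  ext y
  constructor
  · rintro ⟨x, hx, hxy⟩
    have h := pullSet_subset p P s b hx
    refine ⟨(push_pre hG p P hxy).2 ?_, x, h, hxy⟩
    rwa [show x.st = s from h.1.1, show x.tag = b from h.1.2]
  · rintro ⟨hy, x, h, hxy⟩
    refine ⟨x, ?_, hxy⟩
    have := (push_pre hG p P hxy).1 hy
    rwa [show x.st = s from h.1.1, show x.tag = b from h.1.2] at this

/-- A field split along `E` with the inner part trivial or a moved base field. -/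
def Part (M : F.Model) (f E : Vgrp (Point d) →* M.P) (x : M.P) (s : State d) (b : Bool)
    (C : Base d) : Prop :=
  ∃ P₁ P₂ : Vgrp (Point d) →* M.P, Frame.Good M (phi M) P₁ ∧ Frame.Good M (phi M) P₂ ∧
    Calc.Disj P₁ P₂ ∧ (∀ v, f v = P₁ v * P₂ v) ∧ Calc.Disj P₂ E ∧ Calc.Le P₁ E ∧
    (P₁ = 1 ∨ ∃ q, Calc.Le (bfld M ⟨s, b, q⟩) (bfld M C) ∧
      P₁ = cj x (bfld M ⟨s, b, q⟩))

section Fields

variable (hG : Good d) (hF : IsCore F)
include hG hF

/-- The finitely many relations behind the pull back along one push from one state and tag. -/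
theorem ev_part (p : Push) (P : Pred d) {s : State d} {b : Bool} (hs : p.DomAt s b) :
    F.Ev fun M => Part M (bfld M ⟨.fin, p.tag, P⟩) (setFld M (p.imS s b)) (pushX M p s) s b
      (p.domB s b) := by
  have hB : ∀ B : Base d, HasSet F B.set := fun B v =>
    Calc.Frame.exists_restr_gmem (gmem_base hF B) v
  have hdom := domB_subset_gdom (d := d) p hs
  have hat : (p.domB s b).set ⊆ atS s := fun x hx => hx.1.1
  have hE : HasSet F (p.imS s b) := by
    obtain ⟨τ, hτ, e⟩ := isTr_image hG hF (tr_push hG hF p s) hat hdom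
    rw [Push.imS, ← e]
    exact (hB _).image (x := pushW F p s) fun f z => by rw [hτ]; rfl
  have hpre : HasSet F (pullSet p P s b) := by
    unfold pullSet
    cases pullPred p P with
    | none => exact Set.compl_univ ▸ (hasSet_univ (F := F)).compl
    | some q => exact hB ⟨s, b, q⟩
  have hsub := pullSet_subset (d := d) p P s b
  have hshape : F.Ev fun M => setFld M (pullSet p P s b) = 1 ∨ ∃ q,
      Calc.Le (bfld M ⟨s, b, q⟩) (bfld M (p.domB s b)) ∧
        setFld M (pullSet p P s b) = bfld M ⟨s, b, q⟩ := by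
    unfold pullSet at hsub ⊢
    cases hq : pullPred p P with
    | none => exact ev_empty.mono fun M hM => Or.inl hM
    | some q =>
      rw [hq] at hsub
      exact (ev_le (hB _) (hB _) hsub).mono fun M hM => Or.inr ⟨q, hM, rfl⟩
  obtain ⟨τ, hτ, e⟩ := isTr_image hG hF (tr_push hG hF p s) (hsub.trans hat) (hsub.trans hdom)
  have hX := hB ⟨.fin, p.tag, P⟩
  refine ((((ev_setFld (hX.inter hE)).and (ev_setFld (hX.diff hE))).and
    ((ev_split hX hE).and (ev_disj_fld (hX.inter hE) (hX.diff hE)
      Set.disjoint_sdiff_inter.symm))).and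
    ((ev_image (x := pushW F p s) (τ := τ) (fun f z => by rw [hτ]; rfl) hpre).and hshape)).mono ?_
  rintro M ⟨⟨⟨⟨-, -, -, g1⟩, ⟨-, -, -, g2⟩⟩, ⟨hsplit, dE, hle⟩, d12⟩, him, hsh⟩
  rw [e, gimg_pullSet hG p P s b] at him
  refine ⟨_, _, g1, g2, d12, hsplit, dE, hle, ?_⟩
  rcases hsh with h | ⟨q, hq, h⟩
  · left
    rw [← him, h]
    ext v
    simp
  · exact Or.inr ⟨q, hq, by rw [← him, h]⟩

/-- Translates of the point predicate outside the cosets of the outer group miss the image of
theta: finitely many relations. -/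
theorem ev_theta_coset {k : Inner d} (hk : k ∉ innerR d) (P : Pred d) (hP : ¬ P.InFix)
    (s : State d) (b : Bool) :
    F.Ev fun M => Calc.Disj (cj (inX M k⁻¹) (bfld M ⟨.fin, false, P⟩))
      (setFld M (Push.theta.imS s b)) := by
  have hB : ∀ B : Base d, HasSet F B.set := fun B v =>
    Calc.Frame.exists_restr_gmem (gmem_base hF B) v
  obtain ⟨τ, hτ, e⟩ := isTr_image hG hF (tr_push hG hF .theta s)
    (X := (Push.theta.domB s b).set) (fun x hx => hx.1.1)
    (domB_subset_gdom (d := d) .theta (s := s) (b := b) trivial)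
  have hE : HasSet F (Push.theta.imS s b) := by
    rw [Push.imS, ← e]
    exact (hB _).image (x := pushW F .theta s) fun f z => by rw [hτ]; rfl
  have hd : F.IsDiag (inWord F k⁻¹) (inPerm k) := fun f z => by
    rw [eval_inWord hG hF, inv_inv]; rfl
  refine ((ev_image hd (hB ⟨.fin, false, P⟩)).and (ev_disj_fld ((hB ⟨.fin, false, P⟩).image hd)
    hE ?_)).mono fun M hM => ?_
  · refine Set.disjoint_left.2 ?_
    rintro _ ⟨x, ⟨⟨hst, -⟩, hx⟩, rfl⟩ ⟨z, -, hz⟩
    simp only [Push.graph, thetaG, Set.mem_ofPred_eq] at hz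
    have h2 : x.g * k⁻¹ = toInner d z.h := congrArg Point.g hz
    have hg : x.g = 1 := by
      cases P with
      | gOne => exact hx.2
      | gHOne => exact hx.1.2
      | kSet =>
        have := hx.2.1.symm.trans hst
        simp at this
      | full => exact absurd trivial hP
      | hOne => exact absurd trivial hP
      | zOne => exact absurd trivial hP
      | zFront e => exact absurd trivial hP
      | clean => exact absurd trivial hP
    rw [hg, one_mul] at h2
    exact hk ((innerR d).inv_mem_iff.1 ⟨z.h, h2.symm⟩)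
  · show Calc.Disj (cj (M.f (inWord F k⁻¹)) (setFld M _)) _
    rw [hM.1]
    exact hM.2

/-- The part of a flat atom inside the image of a push comes from a flat atom at the source. -/
theorem ev_pushPull : F.Ev fun M => Rig M → GroupLaws M → ZLaws M → PushPull M := by
  classical
  have := finite_state (d := d)
  have := finite_ltr (d := d)
  have : Finite (Pred d) := Finite.of_surjective
    (fun o : Fin 7 ⊕ (Ltr d × Bool) =>
      match o with
      | .inl i => ([.full, .hOne, .zOne, .clean, .gOne, .kSet, .gHOne] : List (Pred d))[i.1]'(i.2)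
      | .inr s => .zFront s)
    fun p => match p with
      | .full => ⟨.inl 0, rfl⟩
      | .hOne => ⟨.inl 1, rfl⟩
      | .zOne => ⟨.inl 2, rfl⟩
      | .zFront s => ⟨.inr s, rfl⟩
      | .clean => ⟨.inl 3, rfl⟩
      | .gOne => ⟨.inl 4, rfl⟩
      | .kSet => ⟨.inl 5, rfl⟩
      | .gHOne => ⟨.inl 6, rfl⟩
  have : Finite Push := Finite.of_surjective
    (fun i : Fin 5 => ([.theta, .omC, .omD, .omK, .tMap] : List Push)[i.1]'(i.2))
    fun p => by cases p <;> [exact ⟨0, rfl⟩; exact ⟨1, rfl⟩; exact ⟨2, rfl⟩; exact ⟨3, rfl⟩; exact ⟨4, rfl⟩]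
  obtain ⟨K, hK⟩ := exists_cosets hG
  refine ((Frame.Ev.all fun a : {a : Push × State d × Bool × Pred d // a.1.DomAt a.2.1 a.2.2.1} =>
      ev_part hG hF a.1.1 a.1.2.2.2 a.2).and
    (Frame.Ev.all fun a : {a : {x // x ∈ K} × Pred d × State d × Bool //
        (a.1 : Inner d) ∉ innerR d ∧ ¬ a.2.1.InFix} =>
      ev_theta_coset hG hF a.2.1 a.1.2.1 a.2.2 a.1.2.2.1 a.1.2.2.2)).mono ?_
  rintro M ⟨hpart, hcos⟩ R L Z p s b hd k m ⟨sB, bB, P⟩ hs hb
  simp only at hs hb
  subst hs hb
  rw [fld_base_nil]
  have gE := R.im_good hd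
  have gf := R.good_base_nil k m ⟨.fin, p.tag, P⟩
  have hzero : ∀ {f : Vgrp (Point d) →* M.P}, Frame.Good M (phi M) f →
      Calc.Disj f (setFld M (p.imS s b)) →
      Pulled M f (setFld M (p.imS s b)) (pushX M p s) s b := fun {f} hf hdj =>
    Pulled.of_split Frame.Good.one hf gE (fun v w => Commute.one_left _)
      (fun v => (one_mul _).symm) hdj (fun v w => by simp) (Or.inl rfl)
  have hone : ∀ C : Base d, cj (outX M 1) (cj (inX M 1) (bfld M C)) = bfld M C := fun C => by
    rw [R.out_one, R.in_one, cj_one, cj_one]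
  -- the translation by the inner element
  have inner : Pulled M (cj (inX M m) (bfld M ⟨.fin, p.tag, P⟩)) (setFld M (p.imS s b))
      (pushX M p s) s b := by
    obtain ⟨P₁, P₂, g1, g2, d12, hf, dE, hle, hsh⟩ := hpart ⟨(p, s, b, P), hd⟩
    have shift : ∀ t : Inner d, cj (inX M t) (setFld M (p.imS s b)) = setFld M (p.imS s b) →
        (∀ q, Calc.Le (bfld M ⟨s, b, q⟩) (bfld M (p.domB s b)) → ∃ k' m',
          cj (inX M t) (cj (pushX M p s) (bfld M ⟨s, b, q⟩)) =
            cj (pushX M p s) (cj (outX M k') (cj (inX M m') (bfld M ⟨s, b, q⟩)))) →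
        Pulled M (cj (inX M t) (bfld M ⟨.fin, p.tag, P⟩)) (setFld M (p.imS s b))
          (pushX M p s) s b := by
      intro t hfix hpush
      refine Pulled.of_split (good_cj (R.in_mem t) g1) (good_cj (R.in_mem t) g2) gE
        (disj_cj _ d12) (fun v => by simp [hf v, mul_assoc]) (hfix ▸ disj_cj _ dE)
        (hfix ▸ le_cj _ hle) ?_
      rcases hsh with h | ⟨q, hq, h⟩
      · left; rw [h]; ext v; simp
      · obtain ⟨k', m', e⟩ := hpush q hq
        exact Or.inr ⟨k', m', ⟨s, b, q⟩, rfl, rfl, by rw [h, e, fld_base_nil]⟩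
    by_cases hp : p = .theta
    · subst hp
      have hst : ∀ s b, Push.domB (d := d) .theta s b = stB s b := fun s b => by
        simp [Push.domB, stB]
      have fixT : ∀ t : Outer d, cj (inX M (toInner d t)) (setFld M (Push.theta.imS s b)) =
          setFld M (Push.theta.imS s b) := fun t => by
        rw [← R.push_img _ s b hd, hst,
          ← R.theta_out s b t _ (R.bfld_good _) (Calc.Le.refl _), R.out_fix_st]
      have pushT : ∀ (t : Outer d) q, Calc.Le (bfld M ⟨s, b, q⟩) (bfld M (Push.domB .theta s b)) →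
          ∃ k' m', cj (inX M (toInner d t)) (cj (pushX M .theta s) (bfld M ⟨s, b, q⟩)) =
            cj (pushX M .theta s) (cj (outX M k') (cj (inX M m') (bfld M ⟨s, b, q⟩))) := by
        intro t q hq
        refine ⟨t, 1, ?_⟩
        rw [R.in_one, cj_one, R.theta_out s b t _ (R.bfld_good _) (hst s b ▸ hq)]
      by_cases hP : P.InFix
      · have h1 := shift (toInner d 1) (fixT 1) (pushT 1)
        rw [map_one, R.in_one, cj_one] at h1
        rwa [R.in_fix _ m hP]
      · obtain ⟨κ, hκ, r, hr⟩ := hK.1 m⁻¹
        have em : m = κ⁻¹ * toInner d r⁻¹ := by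
          rw [map_inv, hr, mul_inv_rev, inv_inv, inv_inv, inv_mul_cancel_left]
        by_cases hin : κ ∈ innerR d
        · obtain ⟨u, rfl⟩ := hin
          rw [← map_inv, ← map_mul] at em
          exact em ▸ shift _ (fixT _) (pushT _)
        · have hdj : Calc.Disj (cj (inX M κ⁻¹) (bfld M ⟨.fin, false, P⟩))
              (setFld M (Push.theta.imS s b)) := hcos ⟨(⟨κ, hκ⟩, P, s, b), hin, hP⟩
          refine hzero (good_cj (R.in_mem m) (R.bfld_good _)) ?_
          rw [em, ← L.in_mul _ _ _ (R.bfld_good _), ← fixT r⁻¹]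
          exact disj_cj _ hdj
    · have hfix : Pred.InFix (p.domB (d := d) s b).p := by
        cases p <;> simp [Push.domB, Pred.InFix]
      refine shift m ?_ fun q hq => ?_
      · rw [← R.push_img _ s b hd, ← R.push_in p s b m _ hp hd (R.bfld_good _) (Calc.Le.refl _),
          R.in_fix _ m hfix]
      · refine ⟨1, m, ?_⟩
        rw [R.out_one, cj_one, R.push_in p s b m _ hp hd (R.bfld_good _) hq]
  -- the translation by the outer element
  by_cases hout : P.OutFix
  · rwa [← R.out_in k m _ (R.bfld_good _), R.out_fix _ k hout]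
  by_cases hk : k = 1
  · rwa [hk, R.out_one, cj_one]
  have root_disj : Calc.Le (bfld M ⟨.fin, p.tag, P⟩) (bfld M (rootB p.tag)) →
      Pulled M (cj (outX M k) (cj (inX M m) (bfld M ⟨.fin, p.tag, P⟩)))
        (setFld M (p.imS s b)) (pushX M p s) s b := fun hle => by
    have h1 := le_cj (outX M k) (le_cj (inX M m) hle)
    rw [R.in_fix_root] at h1
    have h2 : Calc.Disj (cj (outX M k) (bfld M (rootB p.tag))) (bfld M (rootB p.tag)) := by
      have := L.h_disj .fin p.tag k 1 hk
      rwa [R.out_one, cj_one] at this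
    refine hzero gf ?_
    have h3 := gE.disj_le (good_cj (R.out_mem k) (R.bfld_good _)) (R.im_le p s b hd) h2.symm
    exact gf.disj_le gE h1 h3.symm
  have zcase : P.IsZ → P.InFix →
      Pulled M (cj (outX M k) (cj (inX M m) (bfld M ⟨.fin, p.tag, P⟩)))
        (setFld M (p.imS s b)) (pushX M p s) s b := fun hz hi => by
    rw [R.in_fix _ m hi]
    have gz : Frame.Good M (phi M) (cj (outX M k) (bfld M ⟨.fin, p.tag, P⟩)) :=
      good_cj (R.out_mem k) (R.bfld_good _)
    rcases Z.root_z p.tag P 1 k hz with h | h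
    · rw [R.out_one, cj_one] at h
      have hle := gE.le_trans (R.bfld_good _) gz (R.im_le p s b hd) h
      obtain ⟨t⟩ := compat_of_le gE.le gz.le hle
      have hta : t.a = setFld M (p.imS s b) :=
        atoms_a_eq t (P₁ := setFld M (p.imS s b)) (P₂ := 1) (fun v w => Commute.one_right _)
          (fun v => (mul_one _).symm) (fun v w => Commute.one_left _) hle
      refine ⟨t.flip, Or.inr ⟨1, 1, p.domB s b, rfl, rfl, ?_⟩⟩
      rw [fld_base_nil, hone, R.push_img _ s b hd]
      exact hta
    · rw [R.out_one, cj_one] at h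
      exact hzero gz (gE.disj_le gz (R.im_le p s b hd) h).symm
  cases P with
  | full => exact absurd trivial hout
  | clean => exact absurd trivial hout
  | gOne => exact absurd trivial hout
  | kSet => exact absurd trivial hout
  | hOne => exact root_disj (Calc.Le.refl _)
  | gHOne => exact root_disj (R.gH_le_h _ _)
  | zOne => exact zcase trivial trivial
  | zFront e => exact zcase trivial trivial

/-- Translates of theta images by inner elements outside the outer group are disjoint. -/
theorem ev_thetaCos : F.Ev fun M => Rig M → GroupLaws M → ThetaCos M := by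
  have := finite_state (d := d)
  obtain ⟨K, hK⟩ := exists_cosets hG
  have hB : ∀ B : Base d, HasSet F B.set := fun B v =>
    Calc.Frame.exists_restr_gmem (gmem_base hF B) v
  have hE : ∀ (s : State d) b, HasSet F (Push.theta.imS s b) := fun s b => by
    obtain ⟨τ, hτ, e⟩ := isTr_image hG hF (tr_push hG hF .theta s)
      (X := (Push.theta.domB s b).set) (fun x hx => hx.1.1)
      (domB_subset_gdom (d := d) .theta (s := s) (b := b) trivial)
    rw [Push.imS, ← e]
    exact (hB _).image (x := pushW F .theta s) fun f z => by rw [hτ]; rfl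
  have key : ∀ a : {a : {x // x ∈ K} × State d × State d × Bool × Bool //
      (a.1 : Inner d) ∉ innerR d}, F.Ev fun M =>
      Calc.Disj (cj (inX M (a.1.1 : Inner d)⁻¹) (setFld M (Push.theta.imS a.1.2.1 a.1.2.2.2.1)))
        (setFld M (Push.theta.imS a.1.2.2.1 a.1.2.2.2.2)) := by
    rintro ⟨⟨⟨κ, hκ⟩, s, s', b, b'⟩, hin⟩
    have hd : F.IsDiag (inWord F κ⁻¹) (inPerm κ) := fun f z => by
      rw [eval_inWord hG hF, inv_inv]; rfl
    refine ((ev_image hd (hE s b)).and (ev_disj_fld ((hE s b).image hd) (hE s' b') ?_)).mono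
      fun M hM => ?_
    · refine Set.disjoint_left.2 ?_
      rintro _ ⟨x, ⟨y, -, hy⟩, rfl⟩ ⟨z, -, hz⟩
      simp only [Push.graph, thetaG, Set.mem_ofPred_eq] at hy hz
      subst hy
      have h2 : toInner d y.h * κ⁻¹ = toInner d z.h := congrArg Point.g hz
      exact hin ((innerR d).inv_mem_iff.1 ⟨y.h⁻¹ * z.h, by
        rw [map_mul, map_inv, ← h2, inv_mul_cancel_left]⟩)
    · show Calc.Disj (cj (M.f (inWord F κ⁻¹)) _) _
      rw [hM.1]
      exact hM.2
  refine (Frame.Ev.all key).mono ?_
  intro M hM R L m hm s s' b b'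
  obtain ⟨κ, hκ, r, hr⟩ := hK.1 m⁻¹
  have em : m = κ⁻¹ * toInner d r⁻¹ := by
    rw [map_inv, hr, mul_inv_rev, inv_inv, inv_inv, inv_mul_cancel_left]
  have hin : κ ∉ innerR d := by
    rintro ⟨u, rfl⟩
    exact hm (u⁻¹ * r⁻¹) (by rw [em, map_mul, map_inv])
  have fixT : cj (inX M (toInner d r⁻¹)) (setFld M (Push.theta.imS s' b')) =
      setFld M (Push.theta.imS s' b') := by
    have hst : Push.domB (d := d) .theta s' b' = stB s' b' := by simp [Push.domB, stB]
    rw [← R.push_img .theta s' b' trivial, hst,
      ← R.theta_out s' b' r⁻¹ _ (R.bfld_good _) (Calc.Le.refl _), R.out_fix_st]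
  rw [em, ← L.in_mul _ _ _ (R.im_good (p := .theta) (s := s) (b := b) trivial), ← fixT]
  exact disj_cj _ (hM ⟨(⟨κ, hκ⟩, s, s', b, b'), hin⟩)

end Fields

end Vale.Agent.P193.Core.Inst
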