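import Vale.Agent.P193.Full.Core.Inst.Meets

/-! The finite layers of the compatibility induction: translated base sets at one state, and their
parts inside edges and inside images of pushes. -/

namespace Vale.Agent.P193.Core.Inst

open Calc Classical

variable {d : Data} [DecidableEq d.M.A] {F : Calc.Frame (Point d)}

/-- Predicates on the offset. -/
def Pred.IsZ : Pred d → Prop
  | .zOne | .zFront _ => True
  | _ => False

variable (M : F.Model)

/-- Translated offset predicates at one state and tag. -/
structure ZLaws : Prop where
  compat : ∀ (s : State d) b (p p' : Pred d) k k', p.IsZ → p'.IsZ →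
    Compat (phi M) (cj (outX M k) (bfld M ⟨s, b, p⟩)) (cj (outX M k') (bfld M ⟨s, b, p'⟩))
  h_compat : ∀ (s : State d) b (p : Pred d) k k', p.IsZ →
    Compat (phi M) (cj (outX M k) (bfld M ⟨s, b, .hOne⟩)) (cj (outX M k') (bfld M ⟨s, b, p⟩))
  root_z : ∀ (b : Bool) (p : Pred d) k k', p.IsZ →
    Calc.Le (cj (outX M k) (bfld M (rootB b))) (cj (outX M k') (bfld M ⟨.fin, b, p⟩)) ∨
      Calc.Disj (cj (outX M k) (bfld M (rootB b))) (cj (outX M k') (bfld M ⟨.fin, b, p⟩))

/-- Flat atoms at one state and tag are compatible. -/
def Level0 : Prop :=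
  ∀ k m (B : Base d) k' m' (B' : Base d), B.s = B'.s → B.b = B'.b →
    Compat (phi M) ((Atom.base [] k m B).fld M) ((Atom.base [] k' m' B').fld M)

/-- The part of a flat atom inside an edge comes from a flat atom at the target. -/
def EdgePull : Prop :=
  ∀ (e : OEdge d) k m (B : Base d), B.s = e.1.src →
    Pulled M ((Atom.base [] k m B).fld M) (setFld M (edgeTS e B.b)) (edgeX M e) e.1.tgt B.b

/-- The part of a flat atom inside the image of a push comes from a flat atom at the source. -/
def PushPull : Prop :=
  ∀ (p : Push) s b, p.DomAt s b → ∀ k m (B : Base d), B.s = .fin → B.b = p.tag →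
    Pulled M ((Atom.base [] k m B).fld M) (setFld M (p.imS s b)) (pushX M p s) s b

/-- Translates of theta images by inner elements outside the outer group are disjoint. -/
def ThetaCos : Prop :=
  ∀ m : Inner d, (∀ t, toInner d t ≠ m) → ∀ (s s' : State d) (b b' : Bool),
    Calc.Disj (cj (inX M m) (setFld M (Push.theta.imS s b))) (setFld M (Push.theta.imS s' b'))

end Vale.Agent.P193.Core.Inst
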