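import Vale.Agent.P193.Full.Core.Inst.Slices
import Vale.Agent.P193.Full.Core.Inst.Compat

/-! The compatibility part of the core calculus, from the transport facts, the group laws and the
finite layers: flat atoms, and their parts inside edges and inside images of pushes. -/

namespace Vale.Agent.P193.Core.Inst

open Calc Facts Classical

set_option linter.unusedSectionVars false

variable {d : Data} [DecidableEq d.M.A] {F : Calc.Frame (Point d)} {M : F.Model}

theorem Atom.inShift_st (A : Atom d) (t : Inner d) : (A.inShift t).st = A.st := by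
  cases A <;> rfl

theorem Atom.inShift_tag (A : Atom d) (t : Inner d) : (A.inShift t).tag = A.tag := by
  cases A <;> rfl

theorem Atom.inShift_depth (A : Atom d) (t : Inner d) : (A.inShift t).depth = A.depth := by
  cases A <;> rfl

theorem Atom.outShift_st (A : Atom d) (t : Outer d) : (A.outShift t).st = A.st := by
  cases A <;> rfl

theorem Atom.outShift_tag (A : Atom d) (t : Outer d) : (A.outShift t).tag = A.tag := by
  cases A <;> rfl

theorem Atom.outShift_depth (A : Atom d) (t : Outer d) : (A.outShift t).depth = A.depth := by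
  cases A <;> rfl

theorem Atom.inShift_inShift (A : Atom d) (t : Inner d) : (A.inShift t⁻¹).inShift t = A := by
  cases A <;> simp [Atom.inShift]

theorem Atom.inShift_dom {p : Push} {A : Atom d} (h : Atom.Dom p A) (t : Inner d) :
    Atom.Dom p (A.inShift t) := by
  cases p with
  | theta => trivial
  | omC => exact (A.inShift_tag t).trans h
  | omD => exact (A.inShift_tag t).trans h
  | omK => exact ⟨(A.inShift_tag t).trans h.1, (A.inShift_st t).trans h.2⟩
  | tMap => cases A <;> exact h

/-- The rest of a pulled back field avoids everything below the set it was pulled back from. -/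
theorem PulledGen.of_pulled [Nonempty (Point d)] {f E : Vgrp (Point d) →* M.P} {x x' : M.P}
    {s : State d} {b : Bool} {P : Atom d → Prop} {h : Vgrp (Point d) →* M.P}
    (hgood : ∀ k m (B : Base d), Frame.Good M (phi M) ((Atom.base [] k m B).fld M))
    (hf : Frame.Good M (phi M) f) (hE : Frame.Good M (phi M) E)
    (hx : x' ∈ Frame.moveSub M (phi M))
    (hp : Pulled M f E x s b) (heq : h = cj x' f)
    (hP : ∀ A : Atom d, A.Ok → P A → Frame.Good M (phi M) (cj x (A.fld M)) ∧
      Calc.Le (cj x (A.fld M)) E) :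
    PulledGen M (x' * x) P h := by
  obtain ⟨t, ht⟩ := hp
  have gr := hf.rest_left hE t
  obtain ⟨g, hgen, hgg, hg⟩ : ∃ g, Calc.Gen (phi M) (flds₀ M) g ∧ Frame.Good M (phi M) g ∧
      t.a = cj x g := by
    rcases ht with ht | ⟨k, m, B, -, -, ht⟩
    · exact ⟨1, gen_one M, Frame.Good.one, ht.trans (MonoidHom.ext fun v => by simp)⟩
    · exact ⟨_, .base (Or.inr ⟨k, m, B, rfl⟩), hgood k m B, ht⟩
  refine ⟨g, cj x' t.b, hgen, hgg, good_cj hx gr, ?_, fun v => ?_, fun A hA hPA => ?_⟩
  · rw [cj_mul, ← hg]; exact disj_cj x' t.ab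
  · rw [cj_mul, ← hg, heq, cj_apply, cj_apply, cj_apply, t.he]
    simp [mul_assoc]
  · rw [cj_mul]
    refine disj_cj x' ?_
    obtain ⟨gA, hle⟩ := hP A hA hPA
    have d1 : Calc.Disj t.b E := fun v w => by
      rw [t.hf]; exact (t.ab w v).symm.mul_right (t.bc v w)
    exact (gA.disj_le gr hle d1.symm).symm

/-- The six inputs. -/
structure CompatParts (M : F.Model) : Prop where
  rig : Rig M
  laws : GroupLaws M
  level0 : Level0 M
  edgePull : EdgePull M
  pushPull : PushPull M
  thetaCos : ThetaCos M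

namespace CompatParts

variable (I : CompatParts M)
include I

theorem cell (A B : Atom d) (hA : A.Ok) (hB : B.Ok) (h : A.st ≠ B.st ∨ A.tag ≠ B.tag) :
    Calc.Disj (A.fld M) (B.fld M) := by
  have R := I.rig
  have d1 : Calc.Disj (B.fld M) (bfld M (stB A.st A.tag)) :=
    (R.good B).disj_le (R.bfld_good _) (R.le_st hB) (R.st_disj _ _ _ _ h).symm
  exact (R.good A).disj_le (R.good B) (R.le_st hA) d1.symm

theorem edge_le (e : OEdge d) {A : Atom d} (hA : A.Ok) (hst : A.st = e.1.tgt) :
    Calc.Le (cj (edgeX M e) (A.fld M)) (setFld M (edgeTS e A.tag)) := by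
  rw [← I.rig.edge_img e A.tag]
  refine le_cj _ ?_
  rw [← hst]
  exact I.rig.le_st hA

theorem edge_edge (e e' : OEdge d) (A A' : Atom d) (hA : (A.consEdge e).Ok)
    (hA' : (A'.consEdge e').Ok) (hne : e ≠ e') :
    Calc.Disj ((A.consEdge e).fld M) ((A'.consEdge e').fld M) := by
  have R := I.rig
  obtain ⟨h1, h2⟩ := Atom.consEdge_ok hA
  obtain ⟨h1', h2'⟩ := Atom.consEdge_ok hA'
  rw [Atom.consEdge_fld, Atom.consEdge_fld]
  have gA := good_cj (R.edge_mem e) (R.good A)
  have gA' := good_cj (R.edge_mem e') (R.good A')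
  have d1 := gA'.disj_le (R.edgeT_good _ _) (I.edge_le e' h1' h2')
    (R.edgeT_disj e e' A.tag A'.tag (Or.inl hne)).symm
  exact gA.disj_le gA' (I.edge_le e h1 h2) d1.symm

theorem flat_eq (k k' : Outer d) (m m' : Inner d) (B : Base d) :
    (Atom.base [] k' m' B).fld M =
      cj (outX M k) (cj (inX M m) ((Atom.base [] (k' * k⁻¹) (m' * m⁻¹) B).fld M)) := by
  have R := I.rig
  rw [← R.fld_inShift I.laws (A := .base [] (k' * k⁻¹) (m' * m⁻¹) B) trivial m]
  show _ = cj _ ((Atom.base [] (k' * k⁻¹) (m' * m⁻¹ * m) B).fld M)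
  rw [← R.fld_outShift I.laws (A := .base [] (k' * k⁻¹) (m' * m⁻¹ * m) B) trivial k]
  simp [Atom.outShift]

theorem edge_base (e : OEdge d) (k : Outer d) (m : Inner d) (B : Base d) (hs : B.s = e.1.src) :
    PulledGen M (M.f (tr F (edgeG e.1 e.2) (atS e.1.tgt)))
      (fun A => A.st = e.1.tgt ∧ A.tag = B.b) ((Atom.base [] k m B).fld M) := by
  have R := I.rig
  have := PulledGen.of_pulled (x' := 1) (P := fun A : Atom d => A.st = e.1.tgt ∧ A.tag = B.b)
    (fun k m B => R.good _) (R.good _) (R.edgeT_good e B.b) (one_mem _)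
    (I.edgePull e k m B hs) (cj_one _).symm fun A hA hP =>
      ⟨good_cj (R.edge_mem e) (R.good A), hP.2 ▸ I.edge_le e hA hP.1⟩
  rwa [one_mul] at this

theorem push_word (k : Outer d) (m : Inner d) (p : Push) (s : State d) :
    M.f (pushWord F k m p s) = outX M k * inX M m * pushX M p s := by
  simp [pushWord, outX, inX, pushX, pushW]

theorem push_base (p : Push) (s : State d) (b : Bool) (k k' : Outer d) (m m' : Inner d)
    (B : Base d) (hs : B.s = .fin) (hb : B.b = p.tag) :
    PulledGen M (M.f (pushWord F k m p s)) (fun A => A.st = s ∧ A.tag = b ∧ Atom.Dom p A)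
      ((Atom.base [] k' m' B).fld M) := by
  have R := I.rig
  rw [I.push_word]
  by_cases hd : p.DomAt s b
  · refine PulledGen.of_pulled (fun k m B => R.good _) (R.good _) (R.im_good hd)
      (mul_mem (R.out_mem k) (R.in_mem m))
      (I.pushPull p s b hd (k' * k⁻¹) (m' * m⁻¹) B hs hb) ?_ fun A hA hP => ?_
    · rw [cj_mul]; exact I.flat_eq k k' m m' B
    · obtain ⟨rfl, rfl, hdom⟩ := hP
      exact ⟨good_cj (R.push_mem p A.st) (R.good A), R.le_im hA hdom⟩
  · refine ⟨1, _, gen_one M, Frame.Good.one, R.good (.base [] k' m' B), ?_, fun v => ?_, ?_⟩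
    · intro v w; simp
    · simp
    · rintro A hA ⟨rfl, rfl, hdom⟩
      exact absurd (R.le_dom hA hdom).1 hd

/-- Two images of pushes inside one translate. -/
theorem im_pair {p p' : Push} {A A' : Atom d} (hA : A.Ok) (hA' : A'.Ok) (hd : Atom.Dom p A)
    (hd' : Atom.Dom p' A') (h : ¬ (p = p' ∧ A.st = A'.st)) :
    Calc.Disj (cj (pushX M p A.st) (A.fld M)) (cj (pushX M p' A'.st) (A'.fld M)) := by
  have R := I.rig
  have h3 : p ≠ p' ∨ A.st ≠ A'.st ∨ A.tag ≠ A'.tag := by tauto
  have d1 := R.im_disj p p' A.st A'.st A.tag A'.tag (R.le_dom hA hd).1 (R.le_dom hA' hd').1 h3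
  have d2 := (good_cj (R.push_mem p' A'.st) (R.good A')).disj_le (R.im_good (R.le_dom hA hd).1)
    (R.le_im hA' hd') d1.symm
  exact (good_cj (R.push_mem p A.st) (R.good A)).disj_le (good_cj (R.push_mem p' A'.st) (R.good A'))
    (R.le_im hA hd) d2.symm

theorem push_push (k k' : Outer d) (m m' : Inner d) (p p' : Push) (A A' : Atom d)
    (h : (Atom.push [] k m p A).Ok) (h' : (Atom.push [] k' m' p' A').Ok) :
    Calc.Disj ((Atom.push [] k m p A).fld M) ((Atom.push [] k' m' p' A').fld M) ∨
      ∃ A'' : Atom d, A''.Ok ∧ A''.depth = A'.depth ∧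
        (Atom.push [] k' m' p' A').fld M = cj (M.f (pushWord F k m p A.st)) (A''.fld M) := by
  have R := I.rig
  obtain ⟨-, hA, hd⟩ := h
  obtain ⟨-, hA', hd'⟩ := h'
  by_cases hk : k = k'
  swap
  · left
    by_cases ht : p.tag = p'.tag
    swap
    · exact I.cell _ _ ⟨trivial, hA, hd⟩ ⟨trivial, hA', hd'⟩ (Or.inr ht)
    have root : ∀ (q : Push) (C : Atom d) (n : Inner d), C.Ok → Atom.Dom q C →
        Calc.Le (cj (inX M n) (cj (pushX M q C.st) (C.fld M))) (bfld M (rootB q.tag)) := by
      intro q C n hC hq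
      obtain ⟨hD, -⟩ := R.le_dom hC hq
      have := le_cj (inX M n) ((good_cj (R.push_mem q C.st) (R.good C)).le_trans (R.im_good hD)
        (R.bfld_good _) (R.le_im hC hq) (R.im_le _ _ _ hD))
      rwa [R.in_fix_root] at this
    rw [fld_push_nil, fld_push_nil]
    have g' := good_cj (R.out_mem k') (good_cj (R.in_mem m') (good_cj (R.push_mem p' A'.st) (R.good A')))
    have d1 := g'.disj_le (good_cj (R.out_mem k) (R.bfld_good (rootB p.tag)))
      (le_cj (outX M k') (root p' A' m' hA' hd'))
      (ht ▸ (I.laws.h_disj .fin p.tag k' k (Ne.symm hk)))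
    exact (good_cj (R.out_mem k) (good_cj (R.in_mem m) (good_cj (R.push_mem p A.st) (R.good A)))).disj_le
      g' (le_cj (outX M k) (root p A m hA hd)) d1.symm
  subst hk
  let m₂ := m' * m⁻¹
  have hB : (Atom.push [] k m' p' A').fld M =
      cj (outX M k) (cj (inX M m) (cj (inX M m₂) (cj (pushX M p' A'.st) (A'.fld M)))) := by
    rw [fld_push_nil, I.laws.in_mul _ _ _ (good_cj (R.push_mem p' A'.st) (R.good A')),
      show m₂ * m = m' from inv_mul_cancel_right m' m]
  have reduce : ∀ X : Vgrp (Point d) →* M.P,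
      cj (outX M k) (cj (inX M m) (cj (pushX M p A.st) X)) =
        cj (M.f (pushWord F k m p A.st)) X := fun X => by
    rw [I.push_word, cj_mul, cj_mul]
  have main : ∀ A'' : Atom d, A''.Ok → Atom.Dom p' A'' → A''.depth = A'.depth →
      A''.st = A'.st →
      cj (inX M m₂) (cj (pushX M p' A'.st) (A'.fld M)) = cj (pushX M p' A''.st) (A''.fld M) →
      Calc.Disj ((Atom.push [] k m p A).fld M) ((Atom.push [] k m' p' A').fld M) ∨
        ∃ A'' : Atom d, A''.Ok ∧ A''.depth = A'.depth ∧
          (Atom.push [] k m' p' A').fld M = cj (M.f (pushWord F k m p A.st)) (A''.fld M) := by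
    intro A'' hA'' hd'' hdep _ heq
    rw [hB, heq]
    by_cases hsame : p = p' ∧ A.st = A''.st
    · refine Or.inr ⟨A'', hA'', hdep, ?_⟩
      rw [← hsame.1, ← hsame.2, reduce]
    · refine Or.inl ?_
      rw [fld_push_nil]
      exact disj_cj _ (disj_cj _ (I.im_pair hA hA'' hd hd'' hsame))
  by_cases hp' : p' = .theta
  swap
  · refine main (A'.inShift m₂) (Atom.inShift_ok hA' _) (Atom.inShift_dom hd' _)
      (A'.inShift_depth _) (A'.inShift_st _) ?_
    obtain ⟨hD, hle⟩ := R.le_dom hA' hd'
    rw [R.fld_inShift I.laws hA', Atom.inShift_st,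
      R.push_in p' A'.st A'.tag m₂ _ hp' hD (R.good A') hle]
  subst hp'
  by_cases hm : ∃ t, toInner d t = m₂
  · obtain ⟨t, ht⟩ := hm
    refine main (A'.outShift t) (Atom.outShift_ok hA' _) trivial
      (A'.outShift_depth _) (A'.outShift_st _) ?_
    rw [R.fld_outShift I.laws hA', Atom.outShift_st, R.theta_out _ _ t _ (R.good A') (R.le_st hA'),
      ht]
  left
  rw [hB, fld_push_nil]
  refine disj_cj _ (disj_cj _ ?_)
  by_cases hp : p = .theta
  · subst hp
    have d1 := I.thetaCos m₂ (fun t ht => hm ⟨t, ht⟩) A'.st A.st A'.tag A.tag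
    have g2 := good_cj (R.in_mem m₂) (good_cj (R.push_mem .theta A'.st) (R.good A'))
    have d2 := g2.disj_le (R.im_good (p := .theta) (s := A.st) (b := A.tag) trivial)
      (le_cj (inX M m₂) (R.le_im hA' hd')) d1
    exact (good_cj (R.push_mem _ A.st) (R.good A)).disj_le g2 (R.le_im hA hd) d2.symm
  · have hA₀ : (A.inShift m₂⁻¹).Ok := Atom.inShift_ok hA _
    have hd₀ : Atom.Dom p (A.inShift m₂⁻¹) := Atom.inShift_dom hd _
    obtain ⟨hD, hle⟩ := R.le_dom hA₀ hd₀
    have e : cj (pushX M p A.st) (A.fld M) =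
        cj (inX M m₂) (cj (pushX M p A.st) ((A.inShift m₂⁻¹).fld M)) := by
      have e0 : A.fld M = cj (inX M m₂) ((A.inShift m₂⁻¹).fld M) := by
        rw [← R.fld_inShift I.laws hA₀, Atom.inShift_inShift]
      rw [e0, ← A.inShift_st m₂⁻¹]
      exact R.push_in p _ _ m₂ _ hp hD (R.good _) hle
    rw [e]
    refine disj_cj _ ?_
    have := I.im_pair hA₀ hA' hd₀ hd' fun h => hp h.1
    rwa [Atom.inShift_st] at this

/-- The inputs of the induction. -/
theorem inputs : CompatInputs M where
  good A _ := I.rig.good A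
  cell := I.cell
  move_edge := I.rig.edge_mem
  move_push k m p s := by
    rw [I.push_word]
    exact mul_mem (mul_mem (I.rig.out_mem k) (I.rig.in_mem m)) (I.rig.push_mem p s)
  level0 k k' m m' B B' := by
    by_cases h : B.s = B'.s ∧ B.b = B'.b
    · exact I.level0 k m B k' m' B' h.1 h.2
    · exact compat_of_disj (I.rig.good _).le (I.rig.good _).le
        (I.cell (.base [] k m B) (.base [] k' m' B') trivial trivial
          (by by_cases hs : B.s = B'.s
              · exact Or.inr fun hb => h ⟨hs, hb⟩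
              · exact Or.inl hs))
  edge_edge := I.edge_edge
  edge_base := I.edge_base
  push_base := I.push_base
  push_push := I.push_push

end CompatParts

/-- All atom fields are eventually compatible, given the six inputs. -/
theorem compatPart_of
    (h : ∀ (_hG : Good d) (F : Calc.Frame (Point d)) (_hF : IsCore F),
      F.Ev fun M => CompatParts M) :
    ∀ (_hG : Good d) (F : Calc.Frame (Point d)) (_hF : IsCore F),
      F.Ev fun M => ∀ A B : Kappa d, Compat (phi M) (kfld M A) (kfld M B) :=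
  fun hG F hF => (h hG F hF).mono fun _ I A B => I.inputs.compat A.1 B.1 A.2 B.2

end Vale.Agent.P193.Core.Inst
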