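import Vale.Agent.P193.Full.Core.Inst.Slices
import Vale.Agent.P193.Full.Core.Inst.ZTree
import Vale.Agent.P193.Full.Core.Inst.EdgePull

/-! Level zero of the compatibility induction: flat atoms at one state and tag are compatible.

Translations that fix one of two predicates reduce a pair to untranslated base fields; two
translates of one point predicate are equal or disjoint; the offset predicates are the z laws.
For trivial inner coordinate against a translate of trivial guessed times inner, the good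
translations contain one and are closed under pulling back along every letter edge. -/

namespace Vale.Agent.P193.Core.Inst

open Calc Facts Classical

set_option linter.unusedSectionVars false

variable {d : Data} [DecidableEq d.M.A] {F : Calc.Frame (Point d)}

/-- The edge of a guessed letter. -/
def ledge (j : Fin d.n) : OEdge d := ⟨letterE j, letterE_ok j⟩

/-- The two predicates of the inner coordinate at the guess. -/
def gBase : Base d := ⟨.guess, false, .gOne⟩

/-- Guessed times inner at the guess. -/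
def kBase : Base d := ⟨.guess, false, .kSet⟩

/-- The finite facts of level zero. -/
structure L0Rules (M : F.Model) : Prop where
  base : ∀ B B' : Base d, Compat (phi M) (bfld M B) (bfld M B')
  gH : ∀ (s : State d) (b : Bool), ∃ t : Atoms (phi M) (bfld M ⟨s, b, .hOne⟩) (bfld M ⟨s, b, .gOne⟩),
    t.a = bfld M ⟨s, b, .gHOne⟩
  kEmpty : ∀ (s : State d) (b : Bool), s ≠ .guess → bfld M ⟨s, b, .kSet⟩ = 1
  gEmptyC : ∀ (s : State d), bfld M ⟨s, true, .gOne⟩ = 1
  kEmptyC : ∀ (s : State d), bfld M ⟨s, true, .kSet⟩ = 1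
  g_letter : ∀ j, ∃ t : Atoms (phi M) (bfld M gBase) (setFld M (edgeTS (ledge j) false)),
    t.a = cj (edgeX M (ledge j)) (bfld M gBase)
  k_letter : ∀ j, ∃ t : Atoms (phi M) (bfld M kBase) (setFld M (edgeTS (ledge j) false)),
    t.a = cj (edgeX M (ledge j)) (cj (inX M (d.gen j)⁻¹) (bfld M kBase))

section Facts

variable (hG : Good d) (hF : IsCore F)
include hG hF

omit [DecidableEq d.M.A] in
theorem mem_edgeTS_letter {j : Fin d.n} {x : Point d} :
    x ∈ edgeTS (ledge j) false ↔ ∃ σ w g h, x =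
      (⟨.guess, .cons (letterE j) (letterE_ok j) σ, false, w, g, h⟩ : Point d) := by
  constructor
  · rintro ⟨⟨he, σ, b, w, g, h, rfl⟩, hb⟩
    obtain rfl : b = false := hb
    exact ⟨σ, w, g, h, rfl⟩
  · rintro ⟨σ, w, g, h, rfl⟩
    exact ⟨⟨letterE_ok j, σ, false, w, g, h, rfl⟩, rfl⟩

theorem gimg_letter_g (j : Fin d.n) :
    gimg (edgeG (letterE j) (letterE_ok j)) gBase.set =
      (gBase (d := d)).set ∩ edgeTS (ledge j) false := by
  ext x
  constructor
  · rintro ⟨y, ⟨⟨-, hb⟩, -, hg⟩, σ, b, w, g, h, e1, e2⟩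
    simp only at e1 e2
    subst e1; subst e2
    obtain rfl : b = false := hb
    exact ⟨⟨⟨rfl, rfl⟩, rfl, hg⟩, (mem_edgeTS_letter hG hF).2 ⟨σ, w, g, _, rfl⟩⟩
  · rintro ⟨⟨-, -, hg⟩, hx⟩
    obtain ⟨σ, w, g, h, rfl⟩ := (mem_edgeTS_letter hG hF).1 hx
    refine ⟨⟨.guess, σ, false, w, g, (1, (letterE j).pval, (letterE j).qval)⁻¹ * h⟩,
      ⟨⟨rfl, rfl⟩, rfl, hg⟩, σ, false, w, g, _, rfl, ?_⟩
    simp only [mul_inv_cancel_left]
    rfl

theorem gimg_letter_k (j : Fin d.n) :
    gimg (edgeG (letterE j) (letterE_ok j)) (gimg (gT (d.gen j)⁻¹) kBase.set) =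
      (kBase (d := d)).set ∩ edgeTS (ledge j) false := by
  ext x
  constructor
  · rintro ⟨y, hy, σ, b, w, g, h, e1, e2⟩
    simp only at e1 e2
    subst e1; subst e2
    obtain ⟨⟨-, hb⟩, -, -, hk⟩ := mem_gimg_gT.1 hy
    obtain rfl : b = false := hb
    refine ⟨⟨⟨rfl, rfl⟩, rfl, rfl, ?_⟩, (mem_edgeTS_letter hG hF).2 ⟨σ, w, g, _, rfl⟩⟩
    show d.gen j * guessVal d σ * g = 1
    have hk' : guessVal d σ * (g * (d.gen j)⁻¹⁻¹) = 1 := hk
    rw [inv_inv, ← mul_assoc, mul_eq_one_iff_eq_inv] at hk'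
    rw [mul_assoc, hk', mul_inv_cancel]
  · rintro ⟨⟨-, -, -, hk⟩, hx⟩
    obtain ⟨σ, w, g, h, rfl⟩ := (mem_edgeTS_letter hG hF).1 hx
    have hk' : d.gen j * guessVal d σ * g = 1 := hk
    refine ⟨⟨.guess, σ, false, w, g, (1, (letterE j).pval, (letterE j).qval)⁻¹ * h⟩,
      mem_gimg_gT.2 ⟨⟨rfl, rfl⟩, rfl, rfl, ?_⟩, σ, false, w, g, _, rfl, ?_⟩
    · show guessVal d σ * (g * (d.gen j)⁻¹⁻¹) = 1
      rw [mul_assoc, mul_eq_one_iff_inv_eq] at hk'
      rw [inv_inv, ← mul_assoc, ← hk', inv_mul_cancel]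
    · simp only [mul_inv_cancel_left]
      rfl

theorem ev_piece {e : OEdge d} {b : Bool} {P : Set (Point d)} (hP : HasSet F P)
    {x : F.Free} {τ : Equiv.Perm (Point d)} (hx : F.IsDiag x τ) {Q : Set (Point d)}
    (hQ : HasSet F Q) (he : τ '' Q = P ∩ edgeTS e b) (hE : HasSet F (edgeTS e b)) :
    F.Ev fun M => ∃ t : Atoms (phi M) (setFld M P) (setFld M (edgeTS e b)),
      t.a = cj (M.f x) (setFld M Q) := by
  refine (((((ev_setFld (hP.inter hE)).and (ev_setFld (hP.diff hE))).and (ev_setFld hE)).and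
    (ev_split hP hE)).and ((ev_disj_fld (hP.inter hE) (hP.diff hE)
      Set.disjoint_sdiff_inter.symm).and (ev_image hx hQ))).mono ?_
  rintro M ⟨⟨⟨⟨h1, h2⟩, h3⟩, hs⟩, hd, hi⟩
  obtain ⟨t, ht⟩ := atoms_of_split h1.2.2.2 h2.2.2.2 h3.2.2.2 hd hs.1 hs.2.1 hs.2.2
  exact ⟨t, by rw [ht, hi, he]⟩

theorem hasSet_bset₀ (B : Base d) : HasSet F B.set := fun v =>
  Calc.Frame.exists_restr_gmem (gmem_base hF B) v

theorem ev_g_letter (j : Fin d.n) : F.Ev fun M =>
    ∃ t : Atoms (phi M) (bfld M gBase) (setFld M (edgeTS (ledge j) false)),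
      t.a = cj (edgeX M (ledge j)) (bfld M gBase) := by
  obtain ⟨τ, e1, e2⟩ := isTr_image hG hF (tr_edge hG hF (ledge j)) (X := (gBase (d := d)).set)
    (fun x hx => hx.1.1) (fun x hx => (gdom_edgeG (letterE j) (letterE_ok j)).symm.subset hx.1.1)
  exact ev_piece hG hF (hasSet_bset₀ hG hF gBase)
    (fun f s => by rw [e1]; rfl) (hasSet_bset₀ hG hF gBase)
    (by rw [e2]; exact gimg_letter_g hG hF j) (hasSet_edgeTS hG hF (ledge j) false)

theorem ev_k_letter (j : Fin d.n) : F.Ev fun M =>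
    ∃ t : Atoms (phi M) (bfld M kBase) (setFld M (edgeTS (ledge j) false)),
      t.a = cj (edgeX M (ledge j)) (cj (inX M (d.gen j)⁻¹) (bfld M kBase)) := by
  have hI : F.IsDiag (inWord F (d.gen j)⁻¹) (inPerm (d.gen j)⁻¹⁻¹) := fun f s => by
    rw [eval_inWord hG hF]; rfl
  have hI' : inPerm (d.gen j)⁻¹⁻¹ '' (kBase (d := d)).set =
      gimg (gT (d.gen j)⁻¹) kBase.set := by
    rw [inPerm_image, inv_inv]
  obtain ⟨τ, e1, e2⟩ := isTr_image hG hF (tr_edge hG hF (ledge j))
    (X := gimg (gT (d.gen j)⁻¹) (kBase (d := d)).set)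
    (fun x hx => (mem_gimg_gT.1 hx).1.1)
    (fun x hx => (gdom_edgeG (letterE j) (letterE_ok j)).symm.subset (mem_gimg_gT.1 hx).1.1)
  refine (ev_piece hG hF (hasSet_bset₀ hG hF kBase)
    (x := edgeW F (ledge j) * inWord F (d.gen j)⁻¹) (τ := τ * inPerm (d.gen j)⁻¹⁻¹)
    (Calc.Frame.IsDiag.mul (x := edgeW F (ledge j)) (τ := τ) (fun f s => by rw [e1]; rfl) hI)
    (hasSet_bset₀ hG hF kBase) ?_
    (hasSet_edgeTS hG hF (ledge j) false)).mono fun M ⟨t, ht⟩ => ⟨t, by rw [ht, map_mul, cj_mul]; rfl⟩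
  rw [Equiv.Perm.coe_mul, Set.image_comp, hI', e2]
  exact gimg_letter_k hG hF j

theorem ev_empty_base {B : Base d} (h : ∀ x, x ∉ B.set) : F.Ev fun M => bfld M B = 1 :=
  ev_empty.mono fun M hM => by rw [bfld, Set.eq_empty_iff_forall_notMem.2 h, hM]

theorem ev_gH (s : State d) (b : Bool) : F.Ev fun M =>
    ∃ t : Atoms (phi M) (bfld M ⟨s, b, .hOne⟩) (bfld M ⟨s, b, .gOne⟩),
      t.a = bfld M ⟨s, b, .gHOne⟩ := by
  have hh := hasSet_bset₀ hG hF (⟨s, b, .hOne⟩ : Base d)
  have hg := hasSet_bset₀ hG hF (⟨s, b, .gOne⟩ : Base d)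
  have e : (⟨s, b, .hOne⟩ : Base d).set ∩ (⟨s, b, .gOne⟩ : Base d).set =
      (⟨s, b, .gHOne⟩ : Base d).set := by
    ext x
    exact ⟨fun ⟨⟨h1, h2⟩, _, h3⟩ => ⟨h1, h3, h2⟩, fun ⟨h1, h3, h2⟩ => ⟨⟨h1, h2⟩, h1, h3⟩⟩
  refine (((((ev_setFld (hh.inter hg)).and (ev_setFld (hh.diff hg))).and (ev_setFld hg)).and
    (ev_split hh hg)).and (ev_disj_fld (hh.inter hg) (hh.diff hg)
      Set.disjoint_sdiff_inter.symm)).mono ?_
  rintro M ⟨⟨⟨⟨h1, h2⟩, h3⟩, hs⟩, hd⟩
  obtain ⟨t, ht⟩ := atoms_of_split h1.2.2.2 h2.2.2.2 h3.2.2.2 hd hs.1 hs.2.1 hs.2.2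
  exact ⟨t, by rw [ht, e]; rfl⟩

/-- The finite facts hold eventually. -/
theorem ev_l0Rules : F.Ev fun M => L0Rules M := by
  have := finite_base (d := d)
  have := finite_state (d := d)
  refine (((((((Frame.Ev.all fun B : Base d => Frame.Ev.all fun B' : Base d =>
    ev_compat_fld (hasSet_bset₀ hG hF B) (hasSet_bset₀ hG hF B')).and
    (Frame.Ev.all fun s : State d => Frame.Ev.all fun b : Bool => ev_gH hG hF s b)).and
    (Frame.Ev.all fun s : {s : State d // s ≠ .guess} => Frame.Ev.all fun b : Bool =>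
      ev_empty_base hG hF (B := ⟨s.1, b, .kSet⟩)
        fun x hx => s.2 (hx.1.1.symm.trans hx.2.2.1))).and
    (Frame.Ev.all fun s : State d => ev_empty_base hG hF (B := ⟨s, true, .gOne⟩)
      fun x hx => Bool.false_ne_true (hx.2.1.symm.trans hx.1.2))).and
    (Frame.Ev.all fun s : State d => ev_empty_base hG hF (B := ⟨s, true, .kSet⟩)
      fun x hx => Bool.false_ne_true (hx.2.1.symm.trans hx.1.2))).and
    (Frame.Ev.all fun j => ev_g_letter hG hF j)).and
    (Frame.Ev.all fun j => ev_k_letter hG hF j)).mono ?_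
  rintro M ⟨⟨⟨⟨⟨⟨h1, h2⟩, h3⟩, h4⟩, h5⟩, h6⟩, h7⟩
  exact ⟨h1, h2, fun s b hs => h3 ⟨s, hs⟩ b, h4, h5, h6, h7⟩

end Facts

/-! ### The induction -/

section Model

variable {M : F.Model} (hG : Good d) (R : Rig M) (L : GroupLaws M) (Z : ZLaws M) (T : L0Rules M)
include R L Z T

theorem compat_one_left {f : Vgrp (Point d) →* M.P} (hf : Calc.Le f (phi M)) :
    Compat (phi M) 1 f :=
  compat_of_disj (fun v w => by simp) hf fun v w => Commute.one_left _

/-- Translates of one predicate that are disjoint for different translations. -/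
theorem compat_translates_of_disj {K : Type} (X : K → M.P) (f : Vgrp (Point d) →* M.P)
    (hX : ∀ k, X k ∈ Frame.moveSub M (phi M)) (hf : Frame.Good M (phi M) f)
    (hd : ∀ k k', k ≠ k' → Calc.Disj (cj (X k) f) (cj (X k') f)) (k k' : K) :
    Compat (phi M) (cj (X k) f) (cj (X k') f) := by
  rcases eq_or_ne k k' with rfl | h
  · exact compat_of_le (good_cj (hX k) hf).le (good_cj (hX k) hf).le (Calc.Le.refl _)
  · exact compat_of_disj (good_cj (hX k) hf).le (good_cj (hX k') hf).le (hd k k' h)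

theorem in_cancel (a m : Inner d) {f : Vgrp (Point d) →* M.P}
    (hf : Frame.Good M (phi M) f) : cj (inX M m) (cj (inX M a) f) = cj (inX M (a * m)) f :=
  L.in_mul m a f hf

theorem gk_step (j : Fin d.n) {a : Inner d}
    (h : Compat (phi M) (bfld M gBase) (cj (inX M a) (bfld M kBase))) :
    Compat (phi M) (bfld M gBase) (cj (inX M ((d.gen j)⁻¹ * a)) (bfld M kBase)) := by
  obtain ⟨tg, hg⟩ := T.g_letter j
  obtain ⟨tk, hk⟩ := T.k_letter j
  have hm := (R.in_mem a).1
  let e := atomsCj hm tk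
  have gE := R.edgeT_good (ledge j) false
  have gK : Frame.Good M (phi M) (cj (inX M (d.gen j)⁻¹) (bfld M kBase)) :=
    good_cj (R.in_mem _) (R.bfld_good _)
  have hle : Calc.Le (cj (inX M (d.gen j)⁻¹) (bfld M kBase)) (bfld M (stB .guess false)) := by
    have := le_cj (inX M (d.gen j)⁻¹) (R.base_le kBase)
    rwa [show stB (kBase (d := d)).s (kBase (d := d)).b = stB .guess false from rfl,
      R.in_fix_st] at this
  have hE : cj (inX M a) (setFld M (edgeTS (ledge j) false)) =
      setFld M (edgeTS (ledge j) false) := R.in_fix_edgeT a _ _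
  have ha : e.a = cj (edgeX M (ledge j)) (cj (inX M ((d.gen j)⁻¹ * a)) (bfld M kBase)) := by
    show cj (inX M a) tk.a = _
    rw [hk, ← R.edge_in (ledge j) false a _ gK hle, in_cancel R L Z T _ _ (R.bfld_good _)]
  have key : ∀ (E : Vgrp (Point d) →* M.P)
      (t : Atoms (phi M) (cj (inX M a) (bfld M kBase)) E),
      E = setFld M (edgeTS (ledge j) false) → t.a = e.a →
      Compat (phi M) (bfld M gBase) (cj (inX M ((d.gen j)⁻¹ * a)) (bfld M kBase)) := by
    rintro E t rfl ht
    exact compat_pull (R.edge_mem (ledge j)).1 (R.bfld_good _)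
      (good_cj (R.in_mem a) (R.bfld_good _)) gE tg t hg (ht.trans ha) h
  exact key _ e hE rfl

include hG in
theorem gk_all (a : Inner d) :
    Compat (phi M) (bfld M gBase) (cj (inX M a) (bfld M kBase)) := by
  obtain ⟨w, hw⟩ := hG.gen_surj a⁻¹
  have ha : a = ((w.map d.gen).prod)⁻¹ := by rw [hw, inv_inv]
  subst ha
  clear hw
  induction w using List.reverseRecOn with
  | nil =>
    rw [List.map_nil, List.prod_nil, inv_one, R.in_one, cj_one]
    exact T.base _ _
  | append_singleton w j ih =>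
    have := gk_step R L Z T j ih
    simpa [mul_inv_rev] using this

include hG in
theorem compat_in_in (s : State d) (b : Bool) {p q : Pred d} (hp : p = .gOne ∨ p = .kSet)
    (hq : q = .gOne ∨ q = .kSet) (m m' : Inner d) :
    Compat (phi M) (cj (inX M m) (bfld M ⟨s, b, p⟩)) (cj (inX M m') (bfld M ⟨s, b, q⟩)) := by
  have good : ∀ (m : Inner d) B, Frame.Good M (phi M) (cj (inX M m) (bfld M B)) :=
    fun m B => good_cj (R.in_mem m) (R.bfld_good B)
  have mixed : ∀ m m' : Inner d, Compat (phi M) (cj (inX M m) (bfld M ⟨s, b, .gOne⟩))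
      (cj (inX M m') (bfld M ⟨s, b, .kSet⟩)) := by
    intro m m'
    have one : ∀ (m : Inner d) {B : Base d}, bfld M B = 1 → cj (inX M m) (bfld M B) = 1 := by
      intro m B h; rw [h]; ext; simp
    cases b with
    | true => rw [one m (T.gEmptyC s)]; exact compat_one_left R L Z T (good _ _).le
    | false =>
      by_cases hs : s = .guess
      · subst hs
        have h := compat_cj (R.in_mem m).1 (gk_all hG R L Z T (m' * m⁻¹))
        rwa [in_cancel R L Z T _ _ (R.bfld_good _), inv_mul_cancel_right] at h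
      · rw [one m' (T.kEmpty s false hs)]
        exact (compat_one_left R L Z T (good _ _).le).symm
  rcases hp with rfl | rfl <;> rcases hq with rfl | rfl
  · exact compat_translates_of_disj R L Z T (fun m => inX M m) _ R.in_mem (R.bfld_good _)
      (L.g_disj s b) m m'
  · exact mixed m m'
  · exact (mixed m' m).symm
  · exact compat_translates_of_disj R L Z T (fun m => inX M m) _ R.in_mem (R.bfld_good _)
      (L.k_disj s b) m m'

/-- A predicate fixed by inner translations against one fixed by outer translations. -/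
theorem compat_cross (s : State d) (b : Bool) {p q : Pred d} (hp : p.InFix) (hq : q.OutFix)
    (k : Outer d) (m : Inner d) :
    Compat (phi M) (cj (outX M k) (bfld M ⟨s, b, p⟩)) (cj (inX M m) (bfld M ⟨s, b, q⟩)) := by
  have h := compat_cj (R.out_mem k).1 (compat_cj (R.in_mem m).1
    (T.base ⟨s, b, p⟩ ⟨s, b, q⟩))
  rwa [R.in_fix ⟨s, b, p⟩ m hp, ← R.out_in k m _ (R.bfld_good _),
    R.out_fix ⟨s, b, q⟩ k hq] at h

/-- Predicates fixed by inner translations. -/
theorem compat_out_out (s : State d) (b : Bool) {p q : Pred d}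
    (hp : p = .hOne ∨ p.IsZ) (hq : q = .hOne ∨ q.IsZ) (k k' : Outer d) :
    Compat (phi M) (cj (outX M k) (bfld M ⟨s, b, p⟩)) (cj (outX M k') (bfld M ⟨s, b, q⟩)) := by
  rcases hp with rfl | hp <;> rcases hq with rfl | hq
  · exact compat_translates_of_disj R L Z T (fun k => outX M k) _ R.out_mem (R.bfld_good _)
      (L.h_disj s b) k k'
  · exact Z.h_compat s b q k k' hq
  · exact (Z.h_compat s b p k' k hp).symm
  · exact Z.compat s b p q k k' hp hq

include hG in
theorem level0 : Level0 M := by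
  intro k m B k' m' B' hs hb
  rcases B with ⟨s, b, p⟩
  rcases B' with ⟨s', b', p'⟩
  simp only at hs hb
  subst hs; subst hb
  -- the fields of the predicates that do not see one coordinate
  have fin : ∀ (k : Outer d) (m : Inner d) {p : Pred d}, p.InFix →
      (Atom.base [] k m ⟨s, b, p⟩).fld M = cj (outX M k) (bfld M ⟨s, b, p⟩) := fun k m p hp => by
    rw [fld_base_nil, R.in_fix ⟨s, b, p⟩ m hp]
  have fout : ∀ (k : Outer d) (m : Inner d) {p : Pred d}, p.OutFix →
      (Atom.base [] k m ⟨s, b, p⟩).fld M = cj (inX M m) (bfld M ⟨s, b, p⟩) := fun k m p hp => by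
    rw [fld_base_nil, ← R.out_in k m _ (R.bfld_good _), R.out_fix ⟨s, b, p⟩ k hp]
  -- all predicates but the meet
  have main : ∀ p q : Pred d, p ≠ .gHOne → q ≠ .gHOne → ∀ k m k' m',
      Compat (phi M) ((Atom.base [] k m ⟨s, b, p⟩).fld M)
        ((Atom.base [] k' m' ⟨s, b, q⟩).fld M) := by
    intro p q hp hq k m k' m'
    have cls : ∀ p : Pred d, p ≠ .gHOne →
        (p.InFix ∧ p.OutFix) ∨ (p.InFix ∧ (p = .hOne ∨ p.IsZ)) ∨
          (p.OutFix ∧ (p = .gOne ∨ p = .kSet)) := by
      intro p hp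
      cases p <;>
        simp [Pred.InFix, Pred.OutFix, Pred.IsZ] at hp ⊢
    rcases cls p hp with ⟨hi, ho⟩ | ⟨hi, hp'⟩ | ⟨ho, hp'⟩ <;>
      rcases cls q hq with ⟨hi', ho'⟩ | ⟨hi', hq'⟩ | ⟨ho', hq'⟩
    · rw [fin k m hi, fout k' m' ho']; exact compat_cross R L Z T s b hi ho' k m'
    · rw [fout k m ho, fin k' m' hi']; exact (compat_cross R L Z T s b hi' ho k' m).symm
    · rw [fin k m hi, fout k' m' ho']; exact compat_cross R L Z T s b hi ho' k m'
    · rw [fin k m hi, fout k' m' ho']; exact compat_cross R L Z T s b hi ho' k m'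
    · rw [fin k m hi, fin k' m' hi']; exact compat_out_out R L Z T s b hp' hq' k k'
    · rw [fin k m hi, fout k' m' ho']; exact compat_cross R L Z T s b hi ho' k m'
    · rw [fout k m ho, fin k' m' hi']; exact (compat_cross R L Z T s b hi' ho k' m).symm
    · rw [fout k m ho, fin k' m' hi']; exact (compat_cross R L Z T s b hi' ho k' m).symm
    · rw [fout k m ho, fout k' m' ho']; exact compat_in_in hG R L Z T s b hp' hq' m m'
  have good : ∀ k m B, Frame.Good M (phi M) ((Atom.base [] k m B : Atom d).fld M) :=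
    fun k m B => R.good _
  -- the meet
  have meet : ∀ (k : Outer d) (m : Inner d) {g : Vgrp (Point d) →* M.P},
      (∀ q : Pred d, q ≠ .gHOne →
        Compat (phi M) ((Atom.base [] k m ⟨s, b, q⟩).fld M) g) →
      Compat (phi M) ((Atom.base [] k m ⟨s, b, .gHOne⟩).fld M) g := by
    intro k m g h
    obtain ⟨t, ht⟩ := T.gH s b
    have e : (Atom.base [] k m ⟨s, b, .gHOne⟩).fld M =
        (atomsCj (R.out_mem k).1 (atomsCj (R.in_mem m).1 t)).a := by
      show _ = cj (outX M k) (cj (inX M m) t.a)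
      rw [ht, fld_base_nil]
    rw [e]
    refine compat_meet (good_cj (R.out_mem k) (good_cj (R.in_mem m) (R.bfld_good _)))
      (good_cj (R.out_mem k) (good_cj (R.in_mem m) (R.bfld_good _))) _ ?_ ?_
    · rw [← fld_base_nil]; exact h .hOne (by simp)
    · rw [← fld_base_nil]; exact h .gOne (by simp)
  by_cases hp : p = .gHOne
  · subst hp
    refine meet k m fun q hq => ?_
    by_cases hp' : p' = .gHOne
    · subst hp'
      exact (meet k' m' fun q' hq' => main q' q hq' hq k' m' k m).symm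
    · exact main q p' hq hp' k m k' m'
  · by_cases hp' : p' = .gHOne
    · subst hp'
      exact (meet k' m' fun q hq => main q p hq hp k' m' k m).symm
    · exact main p p' hp hp' k m k' m'

end Model

/-- Level zero holds eventually. -/
theorem ev_level0 (hG : Good d) (hF : IsCore F) :
    F.Ev fun M => Rig M → GroupLaws M → ZLaws M → EdgePull M → Level0 M :=
  (ev_l0Rules hG hF).mono fun _ T R L Z _ => level0 hG R L Z T

end Vale.Agent.P193.Core.Inst
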