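import Vale.Agent.P193.Full.Core.Inst.CompatMain
import Vale.Agent.P193.Full.Core.Inst.EdgePull
import Vale.Agent.P193.Full.Core.Inst.Level0
import Vale.Agent.P193.Full.Core.Inst.PushPull
import Vale.Agent.P193.Full.Core.Inst.RigEv
import Vale.Agent.P193.Full.Core.Inst.Laws
import Vale.Agent.P193.Full.Core.Calculus

/-! The compatibility part from the laws of the translated cone and point fields. -/

namespace Vale.Agent.P193.Core.Inst

open Calc

variable {d : Data} [DecidableEq d.M.A]

/-- The fields of the predicates are eventually compatible once the laws of the cone and point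
predicates are. -/
theorem compatPart_of_zLaws
    (hZ : ∀ (_hG : Good d) (F : Calc.Frame (Point d)) (_hF : IsCore F),
      F.Ev fun M => Rig M → GroupLaws M → ZLaws M) : CompatPart d := by
  intro hG F hF
  refine compatPart_of (fun hG F hF => ?_) hG F hF
  refine ((((ev_groupLaws hG hF).and (ev_rig_of_laws hG hF)).and
    ((ev_level0 hG hF).and (ev_edgePull hG hF))).and
    (((ev_pushPull hG hF).and (ev_thetaCos hG hF)).and (hZ hG F hF))).mono ?_
  rintro M ⟨⟨⟨hg, hr⟩, hl, he⟩, ⟨hp, ht⟩, hz⟩
  have R := hr hg
  have Z := hz R hg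
  have E := he R hg
  exact ⟨R, hg, hl R hg Z E, E, hp R hg Z, ht R hg⟩

end Vale.Agent.P193.Core.Inst
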