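import Vale.Agent.P193.Full.Core.Facts.Gens
import Vale.Agent.P193.Full.Calc.Frame
import Vale.Agent.P193.Full.VFP.Calc

/-! The frame of a core datum: its generating graphs and their inverses. -/

namespace Vale.Agent.P193.Core.Inst

open Calc

variable {d : Data}

/-- The graphs of the frame. -/
def genSet (d : Data) : Set (Set (Point d × Point d)) := {m | Gen d m ∨ Gen d (ginv m)}

theorem finite_genSet : (genSet d).Finite := by
  have h : {m : Set (Point d × Point d) | Gen d (ginv m)} = ginv '' {m | Gen d m} := by
    ext m
    exact ⟨fun h => ⟨ginv m, h, rfl⟩, fun ⟨n, hn, e⟩ => e ▸ hn⟩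
  have h2 : {m : Set (Point d × Point d) | Gen d (ginv m)}.Finite := by
    rw [h]; exact (Facts.finite_gen (d := d)).image _
  exact (Facts.finite_gen (d := d)).union h2

theorem isPB_genSet (hG : Good d) {m : Set (Point d × Point d)} (h : m ∈ genSet d) : IsPB m := by
  rcases h with h | h
  · exact Facts.Gen.isPB hG h
  · have hp := Facts.Gen.isPB hG h
    exact ⟨fun x y z h1 h2 => hp.2 y z x h1 h2, fun x y z h1 h2 => hp.1 z x y h1 h2⟩

theorem genSet_ginv {m : Set (Point d × Point d)} (h : m ∈ genSet d) : ginv m ∈ genSet d :=
  h.symm.imp (fun h => h) fun h => h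

/-- A frame is one of the core datum if its graphs are the generating graphs and inverses. -/
def IsCore (F : Calc.Frame (Point d)) : Prop := Set.range F.g = genSet d

theorem IsCore.exists_index {F : Calc.Frame (Point d)} (hF : IsCore F)
    {m : Set (Point d × Point d)} (h : Gen d m) : ∃ i, F.g i = m := by
  have : m ∈ Set.range F.g := hF.symm ▸ (Or.inl h : m ∈ genSet d)
  exact this

theorem exists_coreFrame (hG : Good d) [Nonempty (Point d)] :
    ∃ F : Calc.Frame (Point d), IsCore F := by
  obtain ⟨m, vgen, vrels, h1, h2⟩ := exists_vgrp_presentation (S := Point d)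
  exact ⟨{ m := m
           vgen := vgen
           vrels := vrels
           vgen_top := h1
           vrels_ok := h2
           ι := genSet d
           fin_ι := finite_genSet.to_subtype
           g := Subtype.val
           g_pb := fun i => isPB_genSet hG i.2 }, Subtype.range_coe⟩

end Vale.Agent.P193.Core.Inst
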